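import Vale.Agent.P301Z.Lat.Pk
import Vale.Agent.P301.H599.Iter

/-!
# P301, block LAT: real closed `(1,1)`-forms (row D11)
-/

open scoped Manifold ContDiff ComplexOrder Topology Matrix
open Vale.Agent.P272.K Vale.Agent.P299.IX Vale.Agent.P299.IX.Fock
open Vale.Agent.P281Z (Mf)
open Vale.Agent.P281Z.Hg
open Vale.Agent.P301.H599 (LineBundle IsMetric curvature Smooth)

noncomputable section

namespace Vale.Agent.P301Z.Lat

namespace D11H

theorem iot_S {n : ℕ} (p : Fin n) (x : Fin n → Fk n) :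
    iot p *ᵥ ∑ c, eps c *ᵥ x c = x p - ∑ c, eps c *ᵥ (iot p *ᵥ x c) := by
  have h : ∀ c, iot p *ᵥ (eps c *ᵥ x c) =
      (if p = c then x c else 0) - eps c *ᵥ (iot p *ᵥ x c) := fun c => by
    rw [Matrix.mulVec_mulVec, Matrix.mulVec_mulVec, eq_sub_iff_add_eq, ← Matrix.add_mulVec, car]
    split_ifs
    · exact Matrix.one_mulVec _
    · exact Matrix.zero_mulVec _
  rw [Matrix.mulVec_sum, Finset.sum_congr rfl fun c _ => h c, Finset.sum_sub_distrib,
    Finset.sum_ite_eq, if_pos (Finset.mem_univ _)]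

theorem three {n : ℕ} (p q r : Fin n) {x : Fin n → Fk n} (h : ∑ c, eps c *ᵥ x c = 0) :
    (iot r *ᵥ (iot q *ᵥ x p)) ∅ - (iot r *ᵥ (iot p *ᵥ x q)) ∅ + (iot q *ᵥ (iot p *ᵥ x r)) ∅ =
      0 := by
  have h1 := congrArg (fun y => (iot r *ᵥ (iot q *ᵥ (iot p *ᵥ y))) ∅) h
  simp only [iot_S, Matrix.mulVec_sub, Matrix.mulVec_zero, Pi.sub_apply, Finset.sum_apply,
    eps_mulVec_empty, Finset.sum_const_zero, Pi.zero_apply] at h1
  linear_combination h1

variable {d : ℕ}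

theorem iot_pm0 (k : Fin d) : iot (hl k) * pm d 0 = 0 := by
  rw [← one_mul (iot (hl k)), ← f1b.pm_sum d, Finset.sum_mul, Finset.sum_mul]
  exact Finset.sum_eq_zero fun j _ => by
    rw [f1b.pm_ihl, mul_assoc, f1b.pm_mul, if_neg (by omega), mul_zero]

theorem iot_pm1 (i k : Fin d) (u : Fo d) : iot (hl k) *ᵥ (iot (hl i) *ᵥ (pm d 1 *ᵥ u)) = 0 := by
  rw [Matrix.mulVec_mulVec u, ← f1b.pm_ihl d 0 i, Matrix.mulVec_mulVec, ← mul_assoc, iot_pm0,
    zero_mul, Matrix.zero_mulVec]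

theorem pm0_ev : pm d 0 *ᵥ ev ∅ = ev ∅ := by
  funext I
  rw [pm, Matrix.mulVec_diagonal]
  by_cases h : I = ∅
  · subst h
    simp [tp]
  · simp [ev, h]

theorem dr_mat {u : Cm d → Fo d} {z : Cm d} (hu : DifferentiableAt ℝ u z) (c p q : Fin (d + d)) :
    dr c (fun y => mat (u y) p q) z = (iot q *ᵥ (iot p *ᵥ Dv c u z)) ∅ := by
  rw [← Ka.Dv_mul _ hu, ← Ka.Dv_mul _ (Ka.df_mul _ hu)]
  rfl

theorem closed_of {u : Cm d → Fo d} {z : Cm d} (hu : DifferentiableAt ℝ u z) (h0 : dT u z = 0)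
    (h1 : ∀ᶠ y in 𝓝 z, pm d 1 *ᵥ u y = u y) (i k l : Fin d) :
    dz i (fun y => m11 (u y) k l) z = dz k (fun y => m11 (u y) i l) z := by
  have h2 := three (hl i) (hl k) (ah l) h0
  have h3 : Dv (ah l) u z = pm d 1 *ᵥ Dv (ah l) u z := by
    rw [← Ka.Dv_mul _ hu]
    exact (Ka.Dv_congr h1).symm
  have h4 : ∀ p q, DifferentiableAt ℝ (fun y => mat (u y) p q) z := fun p q =>
    Ka.dp (Ka.df_mul (iot q) (Ka.df_mul (iot p) hu)) ∅
  rw [h3, iot_pm1, Pi.zero_apply, add_zero, sub_eq_zero, ← dr_mat hu, ← dr_mat hu] at h2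
  rw [← Ka.dr_hl, ← Ka.dr_hl]
  exact (Ka.dr_cmul _ (h4 _ _)).trans ((congrArg _ h2).trans (Ka.dr_cmul _ (h4 _ _)).symm)

theorem pm0_d {g : Cm d → ℂ} {z : Cm d} (hg : DifferentiableAt ℝ g z) :
    pm d 0 *ᵥ dT (fun y => g y • (ev ∅ : Fo d)) z = ∑ k, dzb k g z • (eps (ah k) *ᵥ ev ∅) := by
  rw [k1aT.fun_mul hg (differentiableAt_const _), k1aT.const, smul_zero, add_zero, epsV,
    Matrix.sum_mulVec, Ka.sum_idx, Matrix.mulVec_add, Matrix.mulVec_sum, Matrix.mulVec_sum,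
    Finset.sum_eq_zero, zero_add]
  · refine Finset.sum_congr rfl fun k _ => ?_
    rw [Matrix.smul_mulVec, Matrix.mulVec_smul, Matrix.mulVec_mulVec, f1b.pm_ah,
      ← Matrix.mulVec_mulVec, pm0_ev, Ka.dr_ah]
  · intro k _
    rw [Matrix.smul_mulVec, Matrix.mulVec_smul, Matrix.mulVec_mulVec, f1b.pm0_hl,
      Matrix.zero_mulVec, smul_zero]

theorem d_dbar {g : Cm d → ℂ} {z : Cm d} (hg : ContDiffAt ℝ ∞ g z) :
    Complex.I • dT (fun y => ∑ k, dzb k g y • (eps (ah k) *ᵥ (ev ∅ : Fo d))) z =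
      f11 (Matrix.of fun j k => dz j (dzb k g) z) := by
  have h1 : ∀ k, DifferentiableAt ℝ (dzb k g) z := fun k => by
    rw [← Ka.dr_ah]
    exact (Ka.dr_smooth hg).differentiableAt (by simp)
  have h2 : ∀ c, eps c *ᵥ Dv c (fun y => ∑ k, dzb k g y • (eps (ah k) *ᵥ (ev ∅ : Fo d))) z =
      ∑ k, dr c (dzb k g) z • ((eps c * eps (ah k)) *ᵥ ev ∅) := fun c => by
    rw [Ka.Dv_sum _ fun k _ => (h1 k).smul_const _, Matrix.mulVec_sum]
    refine Finset.sum_congr rfl fun k _ => ?_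
    rw [Ka.Dv_fmul (h1 k) (differentiableAt_const _), Ka.Dv_const, smul_zero, add_zero,
      Matrix.mulVec_smul, Matrix.mulVec_mulVec]
  rw [dT, Ka.sum_idx]
  simp only [h2]
  rw [Ka.anti (F := fun j k => dr (ah j) (dzb k g) z • ((eps (ah j) * eps (ah k)) *ᵥ ev ∅)),
    add_zero]
  · simp only [f11, Lw, Matrix.sum_mulVec, Matrix.smul_mulVec, Finset.smul_sum, smul_smul,
      Ka.dr_hl, Matrix.of_apply]
  · intro j k
    rw [eps_eps, Matrix.neg_mulVec, smul_neg, ← Ka.dr_ah k, ← Ka.dr_ah j, Ka.dr_comm _ _ hg]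

variable {V : Mf d} {a : Fld V} {u : Fs V}

theorem ex (ha : R11 a) : ∃ u, Is11 a u := by
  obtain ⟨v, hv⟩ := G1H.mkf (fun e z => Lw (a e z) *ᵥ ev ∅) (fun e x h =>
    G1H.cd_mulVec (G1H.mc_Lw (ha.smooth e x h)) contDiffAt_const) fun e e' x h h' => by
      rw [(g1T d V.X).jt_eq e e' x h h', Matrix.mulVec_mulVec, f2bT.L_blk, ← Matrix.mulVec_mulVec,
        lam_ev_empty, ha.form e e' x h h']
      rfl
  exact ⟨v, fun e x h => hv e h.1 _ (e.map_source h.2)⟩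

theorem cl (p : PWA) (ha : R11 a) (hu : Is11 a u) : Cl2 V u ∧ ReF V u := by
  refine ⟨⟨ext_F fun e x h => ?_, ext_F fun e x h => ?_⟩, ext_F fun e x h => ?_⟩
  · rw [(dR_real V).d u e x h, k1aT.congr (v := fun z => Lw (a e z) *ᵥ ev ∅)
      (G2H.ev_at h (.of_forall fun y => hu e y)), vl_zero]
    exact k1aT.om (ha.smooth e x h) (G2H.ev_at h (.of_forall fun y => ha.herm e y))
      fun i j k => ha.closed e x h k i j
  · rw [(dR_real V).dg 2 u e x h, hu.val h, p.dg11]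
  · rw [vl_cj u h, hu.val h, p.cjv11, (ha.herm e x h).eq]

theorem of (p : PWA) (hu : Cl2 V u) (hr : ReF V u) (ht : Ty 1 u) : ∃ a, R11 a ∧ Is11 a u := by
  have hv : ∀ e x, At e x → vl u e (e x) = f11 (m11 (vl u e (e x))) := fun e x h =>
    (ht e x h).symm.trans (p.inv11 _ (hu.dg h))
  refine ⟨fun e z => m11 (vl u e z), ⟨⟨fun e x h i j => ?_, fun e e' x h h' => ?_,
    fun e x h => ?_⟩, fun e x h => ?_⟩, hv⟩
  · exact contDiffAt_const.mul (contDiffAt_pi.1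
      (Ka.cd_mul (iot (ah j)) (Ka.cd_mul (iot (hl i)) ((vl_isF u).sm e x h))) ∅)
  · have h1 := (vl_isF u).ch e e' x h h'
    rw [hv e' x h', (g1T d V.X).jt_eq e e' x h h', p.blk11] at h1
    exact (congrArg m11 h1).trans (p.m11_f11 _)
  · refine closed_of (G2H.dif u h) ?_ (G2H.ev_at h (.of_forall fun y => ht e y))
    rw [← (dR_real V).d u e x h, hu.1, vl_zero]
  · have h1 := vl_cj u h
    rw [hr, hv e x h, p.cjv11] at h1
    have h2 := congrArg m11 h1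
    rw [p.m11_f11, p.m11_f11] at h2
    exact h2.symm

theorem ddc (p : PWA) {f : V.X → ℝ} (hf : Smooth (d := d) f)
    (hu : Is11 (Vale.Agent.P301.H599.ddc f) u) : Ex2 V u := by
  obtain ⟨T, hT⟩ := (g1T d V.X).op _ ((g1T d V.X).fn f hf)
  obtain ⟨P, hP⟩ := (g1T d V.X).op (fun _ _ => pm d 0) ⟨fun _ _ _ _ _ => contDiffAt_const,
    fun e e' x h h' => by rw [(g1T d V.X).jt_eq e e' x h h', f1b.pm_blk]⟩
  have hg : ∀ e x, At e x → ContDiffAt ℝ ∞ (fun z => (f (e.symm z) : ℂ)) (e x) := fun e x h =>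
    Complex.ofRealCLM.contDiff.contDiffAt.comp _ (hf e x h)
  have h1 : ∀ e x, At e x → vl (T (oneF V)) e (e x) = (f (e.symm (e x)) : ℂ) • ev ∅ :=
    fun e x h => by rw [hT _ e x h, oneF_spec V e x h, Matrix.smul_mulVec, Matrix.one_mulVec]
  have h2 : ∀ e x, At e x → vl (P ((dR V).d (T (oneF V)))) e (e x) =
      ∑ k, dzb k (fun z => (f (e.symm z) : ℂ)) (e x) • (eps (ah k) *ᵥ ev ∅) := fun e x h => by
    rw [hP _ e x h, (dR_real V).d _ e x h, k1aT.congr (v := fun z => (f (e.symm z) : ℂ) • ev ∅)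
      (G2H.ev_at h (.of_forall fun y => h1 e y)), pm0_d ((hg e x h).differentiableAt (by simp))]
  refine Ex2.of_d (ext_F fun e x h => ?_) (β := Complex.I • P ((dR V).d (T (oneF V))))
    (ext_F fun e x h => ?_)
  · rw [(dR_real V).dg 2 u e x h, hu.val h, p.dg11]
  · rw [map_smul, vl_smul, (dR_real V).d _ e x h, k1aT.congr
      (v := fun y => ∑ k, dzb k (fun z => (f (e.symm z) : ℂ)) y • (eps (ah k) *ᵥ ev ∅))
      (G2H.ev_at h (.of_forall fun y => h2 e y)), d_dbar (hg e x h), hu.val h]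
    rfl

open Vale.Agent.P301.H599 (curvature_eq curvature_ev isForm_curvature) in
theorem curv {ι : Type} {L : LineBundle d V.X ι} {ρ : ι → V.X → ℝ} (hρ : IsMetric L ρ) :
    R11 (V := V) (curvature L ρ) := by
  have h1 : ∀ e x m, At e x → x ∈ L.U m → ∀ p q, (fun z => curvature L ρ e z p q) =ᶠ[𝓝 (e x)]
      fun z => cHess (fun z => ρ m (e.symm z)) z p q := fun e x m h hm p q =>
    (curvature_ev hρ h hm).mono fun z hz => congrFun (congrFun hz p) q
  refine ⟨⟨fun e x h i j => ?_, isForm_curvature hρ, fun e x h i k l => ?_⟩, fun e x h => ?_⟩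
  all_goals obtain ⟨m, hm⟩ := L.cover x
  · exact (INT.smooth_cHess (hρ.smooth m e x h hm) i j).congr_of_eventuallyEq (h1 e x m h hm i j)
  · rw [INT.dz_congr (h1 e x m h hm k l), INT.dz_congr (h1 e x m h hm i l)]
    exact INT.cHess_closed (hρ.smooth m e x h hm) i k l
  · rw [curvature_eq hρ h hm]
    exact cHess_isHermitian ((hρ.smooth m e x h hm).of_le INT.two_le_inf)

end D11H

/-- row D11 -/
theorem d11_of (a : PWA) : D11 where
  ex := D11H.ex
  cl := D11H.cl a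
  of := D11H.of a
  ddc := D11H.ddc a
  curv hρ := ⟨D11H.curv hρ, fun _ _ _ h hi => Vale.Agent.P301.H599.curvature_eq hρ h hi⟩

end Vale.Agent.P301Z.Lat
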