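import Vale.Agent.P301Z.Lat.Pk
import Vale.Agent.P301.H450.HI
import Vale.Agent.P272.K.INT.Gronwall

/-!
# P301, block LAT: primitive classes and the volume of the symplectic form
-/

open scoped Manifold ContDiff ComplexOrder Topology Matrix
open Vale.Agent.P272.K Vale.Agent.P299.IX Vale.Agent.P299.IX.Fock
open Vale.Agent.P281Z (Mf)
open Vale.Agent.P281Z.Hg
open Vale.Agent.P301.H599 (SameClass ddc)
open Vale.Agent.P272.K.INT
open Vale.Agent.P301 Vale.Agent.P299

noncomputable section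

namespace Vale.Agent.P301Z.Lat

namespace Hr

variable {d : ℕ} {V : Mf d} {w b : Fld V}

theorem dens_tr (hw : IsKahler w) (hb : IsClosedForm b) :
    IsDensity fun e z => ((w e z)⁻¹ * b e z).trace.re * (w e z).det.re := by
  have h0 := (IsKahler.isClosedForm hw).isDensity
  refine ⟨fun e x hx => ContinuousAt.mul ?_ (h0.cont e x hx), fun e e' x hx hx' => ?_⟩
  · exact Complex.continuous_re.continuousAt.comp (C2.MC.trace ((C2.MC.inv (hw.smooth e x hx)
      (hw.posDef e x hx).det_pos.ne').mul (hb.smooth e x hx))).continuousAt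
  · have h1 := h0.change e e' x hx hx'
    have h2 : ((w e (e x))⁻¹ * b e (e x)).trace.re = ((w e' (e' x))⁻¹ * b e' (e' x)).trace.re :=
      AMP.trE_eq hw.toIsHermitian hb.form hx hx'
    beta_reduce at h1 ⊢
    rw [h1, h2, mul_assoc]

theorem der (hw : IsKahler w) (hb : IsClosedForm b) :
    HasDerivAt (fun s : ℝ => intX fun e z => (w e z + (s : ℂ) • b e z).det.re)
      (intX fun e z => ((w e z)⁻¹ * b e z).trace.re * (w e z).det.re) 0 := by
  have h := hasDerivAt_intX (m := d) (D := fun s e z => (w e z + (s : ℂ) • b e z).det.re)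
    (fun s => ((IsKahler.isClosedForm hw).add (hb.smul (s : ℂ))).isDensity)
    (fun e x _ => isPolyN_det _ _) 0
  refine h.congr_deriv (intX_congr fun e x hx => ?_)
  obtain ⟨h1, h2⟩ := posDef_det_re (hw.posDef e x hx)
  rw [(hasDerivAt_det_line _ _ 0).deriv, Complex.ofReal_zero, zero_smul, add_zero,
    sum_det_updateRow (isUnit_iff_ne_zero.2 (hw.posDef e x hx).det_pos.ne'), Complex.mul_re, h2,
    mul_zero, sub_zero]

theorem ag {A B : Mx d} {μ : ℝ} (hA : A.PosDef) (hB : (A + B).PosDef) (hμ : 0 < μ)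
    (h : (A + B).det.re = μ ^ d * A.det.re) :
    d * μ ≤ d + (A⁻¹ * B).trace.re ∧ (μ = 1 → (A⁻¹ * B).trace.re = 0 → B = 0) := by
  have k := H450.amgm (B := ((μ⁻¹ : ℝ) : ℂ) • (A + B)) hA
    (hB.smul (by exact_mod_cast inv_pos.2 hμ)) (by
      rw [Matrix.det_smul, Fintype.card_fin, ← Complex.ofReal_pow, Complex.re_ofReal_mul, h,
        ← mul_assoc, ← mul_pow, inv_mul_cancel₀ hμ.ne', one_pow, one_mul])
  rw [Matrix.mul_smul, Matrix.trace_smul, smul_eq_mul, Complex.re_ofReal_mul, Matrix.mul_add,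
    Matrix.nonsing_inv_mul _ (isUnit_iff_ne_zero.2 hA.det_pos.ne'), Matrix.trace_add,
    Matrix.trace_one, Fintype.card_fin, Complex.add_re, Complex.natCast_re] at k
  refine ⟨by rw [mul_comm]; exact (le_inv_mul_iff₀ hμ).1 k.1, fun p q => ?_⟩
  subst p
  simpa using k.2 (by simp [q])

/-- the analytic part of the Hodge index theorem -/
theorem core [Nonempty V.X] (hd : 0 < d) (hw : IsKahler w) (hb : IsClosedForm b) {c : ℝ}
    (hp : ∀ e x, At e x → (w e (e x) + b e (e x)).PosDef)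
    (hc : ∀ e x, At e x → (w e (e x) + b e (e x)).det.re = Real.exp c * (w e (e x)).det.re)
    (h0 : (intX fun e z => ((w e z)⁻¹ * b e z).trace.re * (w e z).det.re) = 0) :
    c ≤ 0 ∧ (c = 0 → ∀ e x, At e x → b e (e x) = 0) := by
  have hd' : (0 : ℝ) < d := by exact_mod_cast hd
  have k := fun e x (hx : At e x) => ag (μ := Real.exp (c / d)) (hw.posDef e x hx) (hp e x hx)
    (Real.exp_pos _) (by rw [hc e x hx, ← Real.exp_nat_mul, mul_div_cancel₀ _ hd'.ne'])
  have D0 := (IsKahler.isClosedForm hw).isDensity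
  have D1 := dens_tr hw hb
  have p0 := fun e x (hx : At e x) => (posDef_det_re (hw.posDef e x hx)).1
  refine ⟨?_, fun h e x hx => ?_⟩
  · have h1 := intX_mono (D0.const_mul (d * (Real.exp (c / d) - 1))) D1 fun e x hx =>
      mul_le_mul_of_nonneg_right (by linarith [(k e x hx).1]) (p0 e x hx).le
    rw [h0, intX_const_mul] at h1
    have h2 := nonpos_of_mul_nonpos_left h1 (intX_pos D0 p0)
    have h3 : Real.exp (c / d) ≤ 1 := by nlinarith
    rw [Real.exp_le_one_iff, div_nonpos_iff] at h3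
    rcases h3 with h3 | h3
    exacts [absurd h3.2 (not_le.2 hd'), h3.1]
  · subst h
    simp only [zero_div, Real.exp_zero, mul_one, le_add_iff_nonneg_right] at k
    refine (k e x hx).2 trivial ((k e x hx).1.eq_or_lt.resolve_right fun q => ?_).symm
    refine (H954.intX_pos_of_pos D1 (fun e x hx => mul_nonneg (k e x hx).1 (p0 e x hx).le) (x := x)
      fun e' hx' => ?_).ne' h0
    have h2 : ((w e (e x))⁻¹ * b e (e x)).trace.re = ((w e' (e' x))⁻¹ * b e' (e' x)).trace.re :=
      AMP.trE_eq hw.toIsHermitian hb.form hx hx'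
    exact mul_pos (h2 ▸ q) (p0 e' x hx')

variable {n r : ℕ} {B : BB n r} {Y : MK B}

theorem prim (R : REL) {w a : Fld Y.V} {k v : Fin r → ℝ} (hw : Y.Kc w k) (hk : 0 < qR B.q k k)
    (ha : Y.C11 a v) (h0 : qR B.q v k = 0) :
    qR B.q v v ≤ 0 ∧ (qR B.q v v = 0 → SameClass a fun _ _ => 0) := by
  have := Y.sc
  have ra : H450.IsReal11 a := ⟨ha.1.toIsClosedForm, ha.1.herm⟩
  obtain ⟨t, ht, hχ⟩ := H450.exists_small hw.1 ra
  obtain ⟨u, c, hu, h1, h2, -⟩ := H835.yauMetric (φ := fun e z => Real.log (w e z).det.re) hχ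
    ⟨fun e x hx => EST.smooth_logdet hw.1.toIsHermitian hx.1 (e.map_source hx.2),
      fun e e' x p q => log_det_change hw.1.toIsHermitian p q⟩
  have rb := (ra.smul t).add (H450.isReal11_ddc hu)
  set b : Fld Y.V := fun e z => (t : ℂ) • a e z + ddc u e z with hb
  have cb : Y.C11 b (t • v + (0 : ℝ) • v) := R.same (R.add t 0 ha ha) ⟨rb.toIsClosedForm, rb.herm⟩
    ⟨u, hu, fun e x _ => by simp [hb]⟩
  have hv : ∀ s : ℝ, (intX fun e z => (w e z + (s : ℂ) • b e z).det.re) =
      B.C * (qR B.q k k + s ^ 2 * (t ^ 2 * qR B.q v v)) ^ n := fun s => by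
    have := R.vol11 (R.add 1 s hw.2 cb)
    simp only [Complex.ofReal_one, one_smul, zero_smul, add_zero, qR_add_l, qR_add_r, qR_smul_l,
      qR_smul_r, qR_comm B.q B.symm k v, h0] at this
    rw [this]
    ring
  have e1 : ∀ e z, addH (fun e z => w e z + (t : ℂ) • a e z) u e z = w e z + b e z := fun e z =>
    add_assoc _ _ _
  have e2 : ∀ e x, At e x → (w e (e x) + b e (e x)).det.re = Real.exp c * (w e (e x)).det.re :=
    fun e x hx => by
      rw [← e1, ← Real.exp_log (h1.toIsHermitian.det_re_pos hx), h2 e hx.1 _ (e.map_source hx.2),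
        Real.exp_add, Real.exp_log (hw.1.toIsHermitian.det_re_pos hx), mul_comm]
  have e3 := der hw.1 rb.toIsClosedForm
  rw [funext hv] at e3
  have e4 : HasDerivAt (fun s : ℝ => B.C * (qR B.q k k + s ^ 2 * (t ^ 2 * qR B.q v v)) ^ n) 0 0 := by
    simpa using (((((hasDerivAt_pow 2 (0 : ℝ)).mul_const (t ^ 2 * qR B.q v v)).const_add
      (qR B.q k k)).fun_pow n).const_mul B.C)
  obtain ⟨c1, c2⟩ := core (Nat.add_pos_left B.npos n) hw.1 rb.toIsClosedForm
    (fun e x hx => e1 e _ ▸ h1.posDef e x hx) e2 (e3.unique e4)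
  have e5 : (qR B.q k k + t ^ 2 * qR B.q v v) ^ n = Real.exp c * qR B.q k k ^ n := by
    have p0 := hv 0
    have p1 := hv 1
    simp only [Complex.ofReal_zero, zero_smul, add_zero, Complex.ofReal_one, one_smul, one_pow,
      one_mul, ne_eq, OfNat.ofNat_ne_zero, not_false_eq_true, zero_pow, zero_mul] at p0 p1
    rw [intX_congr (D' := fun e z => Real.exp c * (w e z).det.re) e2, intX_const_mul, p0, mul_left_comm] at p1
    exact (mul_left_cancel₀ B.Cpos.ne' p1).symm
  have e6 := pow_pos hk n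
  refine ⟨not_lt.1 fun q => ?_, fun q => ⟨fun x => -t⁻¹ * u x,
    fun e x hx => contDiffAt_const.mul (hu e x hx), fun e x hx => ?_⟩⟩
  · have p1 : qR B.q k k ^ n < (qR B.q k k + t ^ 2 * qR B.q v v) ^ n :=
      pow_lt_pow_left₀ (lt_add_of_pos_right _ (by positivity)) hk.le B.npos.ne'
    nlinarith [Real.exp_le_one_iff.2 c1]
  · rw [q, mul_zero, add_zero, eq_comm, mul_eq_right₀ e6.ne', Real.exp_eq_one_iff] at e5
    have p1 : (t : ℂ) • a e (e x) + ddc u e (e x) = 0 := c2 e5 e x hx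
    have p2 : ddc (fun x => -t⁻¹ * u x) e (e x) = ((-t⁻¹ : ℝ) : ℂ) • ddc u e (e x) :=
      C2.cHess_const_mul _ ((hu e x hx).of_le two_le_inf)
    have p3 : (t : ℂ) ≠ 0 := by exact_mod_cast ht.ne'
    rw [zero_add, p2, ← neg_eq_iff_add_eq_zero.2 p1, smul_neg, smul_smul]
    simp [p3]

theorem vols (P : PWB) (W : VOL) (R : REL) {s w : Fld Y.V} {p : Fin r → ℂ} {k : Fin r → ℝ}
    (h : Y.HK s w p k) :
    intX (fun e z => ‖(s e z).det‖) = B.C * (2 * (qC B.q p (star p)).re) ^ n := by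
  have := Y.sc
  have hs := R.sym h
  obtain ⟨u, κ, -, hk⟩ := H450.exists_rf hs hs.kahler
  have pp := R.pp h.1.1 h.1.1
  obtain ⟨σ, s1, s2, s3⟩ := h.1.1.2
  have h1 := W.real (σ + (dR Y.V).cj σ) (fun e z => ‖(s e z).det‖) fun e x hx => by
    have k1 := P.hk _ _ κ (hs.form.alt e x hx) (hs.nondeg e x hx) (hk.kahler.posDef e x hx)
      (hk.rel e x hx) 1 0 1
    have k2 := H450.det_rel (hk.kahler.posDef e x hx) (isUnit_iff_ne_zero.2 (hs.nondeg e x hx))
      (hk.rel e x hx)
    obtain ⟨k3, k4⟩ := posDef_det_re (hk.kahler.posDef e x hx)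
    have k5 := pow_pos hk.pos n
    have k6 : (addH w u e (e x)).det.re = κ ^ n * ‖(s e (e x)).det‖ :=
      (pow_left_inj₀ k3.le (by positivity) two_ne_zero).1 (by rw [k2]; ring)
    have k7 : (addH w u e (e x)).det = (κ : ℂ) ^ n * (‖(s e (e x)).det‖ : ℝ) := by
      rw [← Complex.re_add_im (addH w u e (e x)).det, k4, k6]
      simp
    rw [vl_add, vl_cj _ hx, s1 e x hx]
    refine mul_left_cancel₀ (show (κ : ℂ) ^ n ≠ 0 by exact_mod_cast k5.ne') ?_
    simpa [k7] using k1
  have h2 : star (qC B.q p (star p)) = qC B.q p (star p) := by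
    rw [← qC_star, star_star, qC_comm _ B.symm]
  rw [Y.fuj _ (s2.add s2.cj), map_add, Y.m.cj _ s2, s3, qC_add_l, qC_add_r, qC_add_r, qC_star, pp,
    qC_comm _ B.symm (star p) p, ← Complex.conj_eq_iff_re.1 h2] at h1
  refine Complex.ofReal_injective (h1.symm.trans ?_)
  push_cast
  rw [star_zero, zero_add, add_zero, two_mul]

end Hr

theorem hr_of (b : PWB) (v : VOL) (r : REL) : HR :=
  ⟨fun h1 h2 h3 h4 => Hr.prim r h1 h2 h3 h4, fun h => Hr.vols b v r h⟩

end Vale.Agent.P301Z.Lat
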