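import Vale.Agent.P301Z.Lat.Pk

/-!
# P301, block LAT: two-forms at a point (row PWA)
-/

open scoped Matrix
open Vale.Agent.P299.IX Vale.Agent.P299.IX.Fock
open Vale.Agent.P281Z.Hg

noncomputable section

namespace Vale.Agent.P301Z.Lat

namespace PwaX

variable {n d : ℕ}

/-- the products of two generators -/
def ee (a b : Fin n) : Fk n := eps a *ᵥ (eps b *ᵥ ev ∅)

theorem tw_eq (B : Mx n) : tw B = ∑ a, ∑ b, (B a b / 2) • ee a b := rfl

theorem ee_swap (a b : Fin n) : ee b a = -ee a b := by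
  rw [ee, ee, Matrix.mulVec_mulVec, eps_eps, Matrix.neg_mulVec, ← Matrix.mulVec_mulVec]

theorem sum4 {α β M : Type} [Fintype α] [Fintype β] [AddCommMonoid M] (f : α → α → β → β → M) :
    ∑ a, ∑ b, ∑ p, ∑ q, f a b p q = ∑ p, ∑ q, ∑ b, ∑ a, f a b p q := by
  rw [Finset.sum_congr rfl fun _ _ => Finset.sum_comm, Finset.sum_comm]
  refine Finset.sum_congr rfl fun p _ => ?_
  rw [Finset.sum_congr rfl fun _ _ => Finset.sum_comm, Finset.sum_comm]
  exact Finset.sum_congr rfl fun q _ => Finset.sum_comm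

theorem lr_tw {a b : ℕ} (J : Matrix (Fin a) (Fin b) ℂ) (B : Mx b) :
    lr J *ᵥ tw B = tw (J * B * Jᵀ) := by
  have h : ∀ k l, lr J *ᵥ ee k l = ∑ p, ∑ q, (J p k * J q l) • ee p q := fun k l => by
    rw [ee, Matrix.mulVec_mulVec, f1a.lr_eps, ← Matrix.mulVec_mulVec, Matrix.mulVec_mulVec _ (lr J),
      f1a.lr_eps, ← Matrix.mulVec_mulVec, f1a.lr_ev]
    simp only [epsV, Matrix.sum_mulVec, Matrix.mulVec_sum, Matrix.smul_mulVec, Matrix.mulVec_smul,
      Finset.smul_sum, smul_smul, ee, mul_comm (J _ k)]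
    exact Finset.sum_comm
  simp only [tw_eq, Matrix.mulVec_sum, Matrix.mulVec_smul, h, Finset.smul_sum, smul_smul,
    Matrix.mul_apply, Finset.sum_mul, Finset.sum_div, Finset.sum_smul, Matrix.transpose_apply]
  rw [sum4]
  refine Finset.sum_congr rfl fun p _ => Finset.sum_congr rfl fun q _ =>
    Finset.sum_congr rfl fun l _ => Finset.sum_congr rfl fun k _ => ?_
  congr 1
  ring

theorem tw_add (B B' : Mx n) : tw (B + B') = tw B + tw B' := by
  simp only [tw_eq, Matrix.add_apply, add_div, add_smul, Finset.sum_add_distrib]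

theorem tw_smul (c : ℂ) (B : Mx n) : tw (c • B) = c • tw B := by
  simp only [tw_eq, Matrix.smul_apply, smul_eq_mul, Finset.smul_sum, smul_smul, mul_div_assoc]

theorem tw_tr (B : Mx n) : tw Bᵀ = -tw B := by
  rw [tw_eq, tw_eq, Finset.sum_comm, ← Finset.sum_neg_distrib]
  refine Finset.sum_congr rfl fun a _ => ?_
  rw [← Finset.sum_neg_distrib]
  exact Finset.sum_congr rfl fun b _ => by rw [Matrix.transpose_apply, ee_swap, smul_neg]

theorem dw_tw (w : Fin n → ℕ) (c : ℕ → ℂ) (B : Mx n) :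
    F1bH.dw w c *ᵥ tw B = tw (Matrix.of fun a b => c (w b + w a) * B a b) := by
  have h : ∀ a b, F1bH.dw w c *ᵥ ee a b = c (w b + w a) • ee a b := fun a b => by
    rw [ee, Matrix.mulVec_mulVec, F1bH.dw_eps, ← Matrix.mulVec_mulVec,
      Matrix.mulVec_mulVec _ (F1bH.dw _ _), F1bH.dw_eps, ← Matrix.mulVec_mulVec,
      ← Matrix.mulVec_smul, ← Matrix.mulVec_smul]
    congr 2
    ext K
    rw [F1bH.dw, Matrix.mulVec_diagonal]
    by_cases e : K = ∅ <;> simp [ev, e]
  simp only [tw_eq, Matrix.mulVec_sum, Matrix.mulVec_smul, h, smul_smul, Matrix.of_apply]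
  refine Finset.sum_congr rfl fun a _ => Finset.sum_congr rfl fun b _ => ?_
  congr 1
  ring

theorem dg_tw (B : Mx n) : dg 2 *ᵥ tw B = tw B := by
  have : (dg 2 : FM n) = F1bH.dw (fun _ => 1) fun q => if q = 2 then 1 else 0 := by
    simp [dg, dgl, F1bH.dw]
  rw [this, dw_tw]
  congr 1
  ext a b
  simp

theorem mat_add (u v : Fk n) : mat (u + v) = mat u + mat v := by
  ext a b
  simp [mat, Matrix.mulVec_add]

theorem mat_smul (c : ℂ) (u : Fk n) : mat (c • u) = c • mat u := by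
  ext a b
  simp [mat, Matrix.mulVec_smul]

theorem mat_skew (u : Fk n) : (mat u)ᵀ = -mat u := by
  ext a b
  simp only [mat, Matrix.transpose_apply, Matrix.of_apply, Matrix.neg_apply, Matrix.mulVec_mulVec]
  rw [iot_iot, Matrix.neg_mulVec, Pi.neg_apply]

theorem mat_apply (u : Fk n) (a b : Fin n) :
    mat u a b = if a = b then 0 else sg a {b} * u {a, b} := by
  simp [mat, iot_mulVec, sg]

theorem mat_ee (a b p q : Fin n) :
    mat (ee p q) a b = (if p = a ∧ q = b then 1 else 0) - if p = b ∧ q = a then 1 else 0 := by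
  have h : ∀ (k l : Fin n) (u : Fk n), iot k *ᵥ (eps l *ᵥ u) =
      (if k = l then u else 0) - eps l *ᵥ (iot k *ᵥ u) := fun k l u => by
    rw [eq_sub_iff_add_eq, Matrix.mulVec_mulVec, Matrix.mulVec_mulVec, ← Matrix.add_mulVec, car]
    split_ifs <;> simp
  simp only [mat, Matrix.of_apply, ee, h, iot_ev_empty, Matrix.mulVec_zero, sub_zero,
    Matrix.mulVec_sub, apply_ite (iot b *ᵥ ·), apply_ite (eps p *ᵥ ·)]
  simp only [Pi.sub_apply, ite_apply, Pi.zero_apply, ev, Pi.single_eq_same, ite_and,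
    eq_comm (a := p), eq_comm (a := q)]
  split_ifs <;> simp

theorem mat_tw' (B : Mx n) (a b : Fin n) : mat (tw B) a b = (B a b - B b a) / 2 := by
  have h : ∀ {ι : Type} (s : Finset ι) (f : ι → Fk n), mat (∑ i ∈ s, f i) = ∑ i ∈ s, mat (f i) :=
    fun s f => map_sum (AddMonoidHom.mk' (mat (n := n)) mat_add) f s
  simp only [tw_eq, h, mat_smul, Matrix.sum_apply, Matrix.smul_apply, mat_ee, smul_eq_mul, mul_sub,
    Finset.sum_sub_distrib, ite_and, mul_ite, mul_one, mul_zero, sub_div]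
  simp

theorem mat_tw (B : Mx n) (h : Bᵀ = -B) : mat (tw B) = B := by
  ext a b
  have : B b a = -B a b := congrFun (congrFun h a) b
  rw [mat_tw', this]
  ring

theorem tw_mat (u : Fk n) : tw (mat u) = dg 2 *ᵥ u := by
  ext I
  rw [← dg_tw, dg_mulVec, dg_mulVec]
  split_ifs with h
  · obtain ⟨a, b, hab, rfl⟩ := Finset.card_eq_two.1 h
    have h1 := congrFun (congrFun (mat_tw _ (mat_skew u)) a) b
    rw [mat_apply, mat_apply, if_neg hab, if_neg hab] at h1
    exact mul_left_cancel₀ (left_ne_zero_of_mul_eq_one (sg_mul_self a {b})) h1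
  · rfl

theorem star_tw (B : Mx n) : star (tw B) = tw (B.map star) := by
  simp only [tw_eq, star_sum, star_smul, ee, F1bH.star_mv, Fock.eps_star, F1bH.star_ev,
    Matrix.map_apply, star_div₀, star_ofNat]

theorem cjv_tw (B : Mx (d + d)) : cjv (tw B) = tw (swm d * B.map star * swm d) := by
  rw [cjv, star_tw]
  exact (lr_tw (swm d) _).trans (by rw [f1b.swm_tr])

section bl
variable (A B C D A' B' C' D' : Mx d) (i j : Fin d)

theorem bl_hh : bl4 A B C D (hl i) (hl j) = A i j := by simp [bl4, hl]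

theorem bl_ha : bl4 A B C D (hl i) (ah j) = B i j := by
  simp only [bl4, hl, ah, Matrix.reindex_apply, Matrix.submatrix_apply,
    finSumFinEquiv_symm_apply_natAdd, finSumFinEquiv_symm_apply_castAdd, Matrix.fromBlocks_apply₁₂]

theorem bl_ah : bl4 A B C D (ah i) (hl j) = C i j := by
  simp only [bl4, hl, ah, Matrix.reindex_apply, Matrix.submatrix_apply,
    finSumFinEquiv_symm_apply_natAdd, finSumFinEquiv_symm_apply_castAdd, Matrix.fromBlocks_apply₂₁]

theorem bl_aa : bl4 A B C D (ah i) (ah j) = D i j := by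
  simp only [bl4, ah, Matrix.reindex_apply, Matrix.submatrix_apply,
    finSumFinEquiv_symm_apply_natAdd, Matrix.fromBlocks_apply₂₂]

theorem bl_ext {M M' : Mx (d + d)} (h1 : ∀ i j, M (hl i) (hl j) = M' (hl i) (hl j))
    (h2 : ∀ i j, M (hl i) (ah j) = M' (hl i) (ah j)) (h3 : ∀ i j, M (ah i) (hl j) = M' (ah i) (hl j))
    (h4 : ∀ i j, M (ah i) (ah j) = M' (ah i) (ah j)) : M = M' := by
  ext a b
  induction a using F1bH.idx <;> induction b using F1bH.idx
  exacts [h1 _ _, h2 _ _, h3 _ _, h4 _ _]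

theorem bl_mul : bl4 A B C D * bl4 A' B' C' D' =
    bl4 (A * A' + B * C') (A * B' + B * D') (C * A' + D * C') (C * B' + D * D') := by
  simp [bl4, Matrix.fromBlocks_multiply]

theorem bl_tr : (bl4 A B C D)ᵀ = bl4 Aᵀ Cᵀ Bᵀ Dᵀ := by
  simp [bl4, Matrix.fromBlocks_transpose]

theorem bl_star : (bl4 A B C D).map star =
    bl4 (A.map star) (B.map star) (C.map star) (D.map star) := by
  apply bl_ext <;> intro i j <;> simp only [Matrix.map_apply, bl_hh, bl_ha, bl_ah, bl_aa]

theorem bl_add : bl4 A B C D + bl4 A' B' C' D' = bl4 (A + A') (B + B') (C + C') (D + D') := by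
  apply bl_ext <;> intro i j <;> simp only [Matrix.add_apply, bl_hh, bl_ha, bl_ah, bl_aa]

theorem bl_neg : -bl4 A B C D = bl4 (-A) (-B) (-C) (-D) := by
  apply bl_ext <;> intro i j <;> simp only [Matrix.neg_apply, bl_hh, bl_ha, bl_ah, bl_aa]

theorem cjv_bl : cjv (tw (bl4 A B C D)) =
    tw (bl4 (D.map star) (C.map star) (B.map star) (A.map star)) := by
  rw [cjv_tw, bl_star, show swm d = bl4 0 1 1 0 from rfl, bl_mul, bl_mul]
  simp

theorem blk_bl (P Q : Mx d) : lam (blk P Q) *ᵥ tw (bl4 A B C D) =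
    tw (bl4 (P * A * Pᵀ) (P * B * Qᵀ) (Q * C * Pᵀ) (Q * D * Qᵀ)) := by
  refine (lr_tw (bl4 P 0 0 Q) _).trans ?_
  rw [bl_tr, bl_mul, bl_mul]
  simp

theorem tw_bl : tw (bl4 A B C D) = ∑ i, ∑ j, (A i j / 2) • ee (hl i) (hl j) +
    ∑ i, ∑ j, (B i j / 2) • ee (hl i) (ah j) + (∑ i, ∑ j, (C i j / 2) • ee (ah i) (hl j) +
    ∑ i, ∑ j, (D i j / 2) • ee (ah i) (ah j)) := by
  simp only [← bl_hh A B C D, ← bl_ha A B C D, ← bl_ah A B C D, ← bl_aa A B C D]
  simp only [tw_eq, Fin.sum_univ_add, Finset.sum_add_distrib, hl, ah]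
  abel

theorem pm_bl (k : ℕ) : pm d k *ᵥ tw (bl4 A B C D) =
    tw (bl4 (if k = 2 then A else 0) (if k = 1 then B else 0) (if k = 1 then C else 0)
      (if k = 0 then D else 0)) := by
  rw [F1bH.pm_dw, dw_tw]
  congr 1
  apply bl_ext <;> intro i j <;>
    simp only [Matrix.of_apply, bl_hh, bl_ha, bl_ah, bl_aa, F1bH.hl_lt, F1bH.ah_lt, if_true,
      if_false, eq_comm (a := k)] <;> split_ifs <;> simp_all

end bl

theorem f11_tw (W : Mx d) : f11 W = tw (bl4 0 (Complex.I • W) (-(Complex.I • W)ᵀ) 0) := by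
  rw [tw_bl, Finset.sum_comm (f := fun i j => (_ : ℂ) • ee (ah i) (hl j))]
  simp only [f11, Lw, Matrix.sum_mulVec, Matrix.smul_mulVec, ← Matrix.mulVec_mulVec,
    Matrix.zero_apply, zero_div, zero_smul, Finset.sum_const_zero, zero_add, add_zero,
    ← Finset.sum_add_distrib, ee_swap (hl _) (ah _), smul_neg, ← neg_smul, ← add_smul]
  refine Finset.sum_congr rfl fun i _ => Finset.sum_congr rfl fun j _ => ?_
  congr 1
  simp only [Matrix.smul_apply, smul_eq_mul, Matrix.neg_apply, Matrix.transpose_apply]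
  ring

theorem f02_tw (S : Mx d) : cjv (f20 S) = tw (bl4 0 0 0 (S.map star)) :=
  (cjv_bl S 0 0 0).trans (by simp)

theorem dec (u : Fo d) (h : dg 2 *ᵥ u = u) : ∃ D, u =
    tw (bl4 (m20 u) (Complex.I • m11 u) (-(Complex.I • m11 u)ᵀ) D) := by
  refine ⟨Matrix.of fun i j => mat u (ah i) (ah j), ?_⟩
  refine (h.symm.trans (tw_mat u).symm).trans (congrArg tw ?_)
  have e : ∀ x : ℂ, Complex.I * (-Complex.I * x) = x := fun x => by
    linear_combination (-x) * Complex.I_mul_I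
  apply bl_ext <;> intro i j <;>
    simp only [bl_hh, bl_ha, bl_ah, bl_aa, m20, m11, Matrix.of_apply, Matrix.smul_apply,
      smul_eq_mul, Matrix.neg_apply, Matrix.transpose_apply, e]
  exact congrFun (congrFun (mat_skew u) (hl j)) (ah i)

theorem inv20 (u : Fo d) (h : dg 2 *ᵥ u = u) : pm d 2 *ᵥ u = f20 (m20 u) := by
  obtain ⟨D, e⟩ := dec u h
  conv_lhs => rw [e, pm_bl]
  rfl

end PwaX

open PwaX in
theorem pwa : PWA where
  lr_tw := lr_tw
  tw_add := tw_add
  tw_smul := tw_smul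
  tw_tr := tw_tr
  dg_tw := dg_tw
  tw_mat := tw_mat
  mat_tw := mat_tw
  mat_skew := mat_skew
  mat_add := mat_add
  mat_smul := mat_smul
  cjv_tw := cjv_tw
  f20_tw _ := rfl
  f02_tw := f02_tw
  f11_tw := f11_tw
  f20_add S S' := by
    refine Eq.trans ?_ (tw_add (bl4 S 0 0 0) (bl4 S' 0 0 0))
    rw [bl_add, add_zero]
    rfl
  f20_smul c S := by
    refine Eq.trans (congrArg tw ?_) (tw_smul c (bl4 S 0 0 0))
    show bl4 (c • S) 0 0 0 = _
    apply bl_ext <;> intro i j <;> simp [bl_hh, bl_ha, bl_ah, bl_aa]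
  f11_add W W' := by
    simp only [f11, Lw, Matrix.add_apply, mul_add, add_smul, Finset.sum_add_distrib,
      Matrix.add_mulVec]
  f11_smul c W := by
    simp only [f11, Lw, Matrix.smul_apply, smul_eq_mul, ← Matrix.smul_mulVec, Finset.smul_sum,
      smul_smul, mul_left_comm c]
  f20_sum S := (tw_bl S 0 0 0).trans (by simp [ee])
  dg20 _ := dg_tw _
  dg11 W := by rw [f11_tw, dg_tw]
  pm20 S := pm_bl S 0 0 0 2
  pm11 W := by rw [f11_tw, pm_bl]; rfl
  pm02 S := by rw [f02_tw, pm_bl]; rfl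
  inv20 := inv20
  inv11 u h := by
    obtain ⟨D, e⟩ := dec u h
    conv_lhs => rw [e, pm_bl]
    rw [f11_tw]
    rfl
  inv02 u h := by
    have h1 := f1b.cjv_pm (cjv u) 2 0
    rw [f1b.cjv_cjv, h, ← f1b.cjv_dg, h, inv20 _ (by rw [← f1b.cjv_dg, h])] at h1
    exact h1.symm
  split u h := by
    obtain ⟨D, e⟩ := dec u h
    rw [e, pm_bl, pm_bl, pm_bl, ← tw_add, ← tw_add, bl_add, bl_add]
    simp
  m20_skew u := by
    ext i j
    exact congrFun (congrFun (mat_skew u) (hl i)) (hl j)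
  m20_f20 S h := by
    ext i j
    have : S j i = -S i j := congrFun (congrFun h i) j
    rw [m20, Matrix.of_apply, f20, mat_tw', f1b.blk_hh, f1b.blk_hh, this]
    ring
  m11_f11 W := by
    ext i j
    rw [m11, Matrix.of_apply, f11_tw, mat_tw', bl_ha, bl_ah]
    simp only [Matrix.smul_apply, smul_eq_mul, Matrix.neg_apply, Matrix.transpose_apply]
    linear_combination (-W i j) * Complex.I_mul_I
  blk20 A A' S := (blk_bl S 0 0 0 A A').trans (by simp; rfl)
  blk11 A A' W := by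
    rw [f11_tw, f11_tw, blk_bl]
    simp [Matrix.mul_assoc]
  cjv11 W := by
    rw [f11_tw, f11_tw, cjv_bl]
    congr 1
    apply bl_ext <;> intro i j <;> simp [bl_hh, bl_ha, bl_ah, bl_aa]

end Vale.Agent.P301Z.Lat
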