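import Vale.Agent.P301Z.Lat.Sk

/-!
# P301, block LAT: top powers of forms at a point
-/

open scoped ComplexOrder Topology Matrix
open Vale.Agent.P272.K Vale.Agent.P299.IX Vale.Agent.P299.IX.Fock
open Vale.Agent.P281Z.Hg

noncomputable section

namespace Vale.Agent.P301Z.Lat

namespace Pwb

variable {d : ℕ}

theorem bq0 {n : ℕ} (v : Fk n) :
    Bq (ev ∅) v = (hst : FM n) ∅ Finset.univ * v Finset.univ := by
  rw [Bq, ev, single_one_dotProduct, Matrix.mulVec, dotProduct, Finset.sum_eq_single Finset.univ]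
  · intro I _ hI
    obtain ⟨s, -, hs⟩ := hst_ev I
    have h1 : Iᶜ ≠ ∅ := fun e => hI ((Finset.compl_eq_empty_iff I).1 e)
    rw [← mulVec_ev hst I ∅, hs, Pi.smul_apply, ev, Pi.single_eq_of_ne' h1, smul_zero, zero_mul]
  · exact fun h => absurd (Finset.mem_univ _) h

theorem hst_ne (n : ℕ) : (hst : FM n) ∅ Finset.univ ≠ 0 := by
  obtain ⟨s, h1, hs⟩ := hst_ev (n := n) Finset.univ
  rw [← mulVec_ev hst Finset.univ ∅, hs, Finset.compl_univ, Pi.smul_apply, ev, Pi.single_eq_same,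
    smul_eq_mul, mul_one]
  exact left_ne_zero_of_mul_eq_one h1

theorem lam_univ {n : ℕ} (J : Mx n) (v : Fk n) :
    (lam J *ᵥ v) Finset.univ = J.det * v Finset.univ := by
  rw [Matrix.mulVec, dotProduct, Finset.sum_eq_single Finset.univ, lam_top]
  · intro I _ hI
    rw [lam_apply_of_card_ne J fun e => hI ((Finset.card_eq_iff_eq_univ I).1
      (e.symm.trans Finset.card_univ)), zero_mul]
  · exact fun h => absurd (Finset.mem_univ _) h

/-- the constant in front of the top coefficient -/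
def cst (d : ℕ) : ℂ := tc d * (hst : Fm d) ∅ Finset.univ

theorem pw_eq (u : Fo d) : pw u = cst d * (wg u ^ d) Finset.univ ∅ := by
  rw [pw, bq0, mulVec_ev, cst, mul_assoc]

theorem pw_lam (J : Mx (d + d)) (u : Fo d) : pw (lam J *ᵥ u) = J.det * pw u := by
  have h : SemiconjBy (lam J) (wg u) (wg (lam J *ᵥ u)) := f1a.lr_wg J u
  have h1 := congrArg (fun A => (A *ᵥ ev ∅) Finset.univ) (h.pow_right d).eq
  beta_reduce at h1
  rw [← Matrix.mulVec_mulVec, ← Matrix.mulVec_mulVec, lam_ev_empty, lam_univ, mulVec_ev,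
    mulVec_ev] at h1
  rw [pw_eq, pw_eq, ← h1]
  ring

theorem pow_ne (k : ℕ) (hk : k ≤ d) : (Lw (1 : Mx d) ^ k) *ᵥ ev ∅ ≠ 0 := by
  have S := f2bT.sl2 (1 : Mx d) (by simp)
  have h0 : Lam (1 : Mx d) *ᵥ ev ∅ = 0 := by
    simp only [Lam, Matrix.sum_mulVec, Matrix.smul_mulVec, ← Matrix.mulVec_mulVec, iot_ev_empty,
      Matrix.mulVec_zero, smul_zero, Finset.sum_const_zero]
  have hH : ∀ k : ℕ, Hw d *ᵥ ((Lw (1 : Mx d) ^ k) *ᵥ ev ∅) =
      ((2 : ℂ) * k - d) • ((Lw (1 : Mx d) ^ k) *ᵥ ev ∅) := by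
    intro k
    induction k with
    | zero =>
      have h1 : ∀ m : ℕ, (m : ℂ) • ((dg m : Fm d) *ᵥ ev ∅) = 0 := fun m => by
        rw [dg, dgl_ev]
        cases m <;> simp
      simp [Hw, Matrix.sub_mulVec, Matrix.sum_mulVec, Matrix.smul_mulVec, h1]
    | succ k ih =>
      rw [pow_succ', ← Matrix.mulVec_mulVec, Matrix.mulVec_mulVec, sub_eq_iff_eq_add.1 S.HL,
        Matrix.add_mulVec, ← Matrix.mulVec_mulVec, ih, Matrix.smul_mulVec, Matrix.mulVec_smul,
        ← add_smul]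
      congr 1
      push_cast
      ring
  have hL : ∀ k : ℕ, Lam (1 : Mx d) *ᵥ ((Lw (1 : Mx d) ^ (k + 1)) *ᵥ ev ∅) =
      (((k : ℂ) + 1) * (d - k)) • ((Lw (1 : Mx d) ^ k) *ᵥ ev ∅) := by
    have e : Lam (1 : Mx d) * Lw 1 = Lw 1 * Lam 1 - Hw d := by rw [← S.br, sub_sub_cancel]
    intro k
    induction k with
    | zero =>
      rw [pow_succ', ← Matrix.mulVec_mulVec, Matrix.mulVec_mulVec, e, Matrix.sub_mulVec, hH,
        ← Matrix.mulVec_mulVec]
      simp [h0]
    | succ k ih =>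
      rw [pow_succ' _ (k + 1), ← Matrix.mulVec_mulVec, Matrix.mulVec_mulVec, e, Matrix.sub_mulVec,
        hH, ← Matrix.mulVec_mulVec, ih, Matrix.mulVec_smul, Matrix.mulVec_mulVec, ← pow_succ',
        ← sub_smul]
      congr 1
      push_cast
      ring
  induction k with
  | zero =>
    intro h
    simpa [ev] using congrFun h ∅
  | succ k ih =>
    intro h
    have h1 := hL k
    rw [h, Matrix.mulVec_zero] at h1
    refine smul_ne_zero (mul_ne_zero (Nat.cast_add_one_ne_zero k) (sub_ne_zero.2 ?_))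
      (ih (by omega)) h1.symm
    exact Nat.cast_injective.ne (by omega)

theorem pow_dg (k : ℕ) : dg (2 * k) *ᵥ ((Lw (1 : Mx d) ^ k) *ᵥ ev ∅) =
    (Lw (1 : Mx d) ^ k) *ᵥ ev ∅ := by
  induction k with
  | zero =>
    rw [pow_zero, Matrix.one_mulVec, mul_zero, f1a.dg0, ev, Pi.single_eq_same, one_smul]
  | succ k ih =>
    rw [pow_succ', ← Matrix.mulVec_mulVec, Matrix.mulVec_mulVec, mul_add, mul_one, f2bT.dg_L,
      ← Matrix.mulVec_mulVec, ih]

theorem tc_ne (d : ℕ) : tc d ≠ 0 := by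
  rw [tc, bq0]
  refine inv_ne_zero (mul_ne_zero (hst_ne _) fun h => pow_ne d le_rfl (funext fun I => ?_))
  rw [← pow_dg, dg_mulVec]
  split_ifs with e
  · rw [(Finset.card_eq_iff_eq_univ I).1 (by simp [e, two_mul]), h]
    rfl
  · rfl

theorem pw_one : pw (f11 (1 : Mx d)) = 1 := by
  rw [pw, f11, ← f2bT.L_wg]
  exact inv_mul_cancel₀ fun h => tc_ne d (by rw [tc, h, inv_zero])

theorem wg_star {n : ℕ} (u : Fk n) : wg (star u) = (wg u).map (starRingEnd ℂ) := by
  have h : ∀ J : FI n, (qz eps (ev J)).map (starRingEnd ℂ) = qz eps (ev J) := fun J => by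
    refine ext_eps (E := eps) ?_ (fun l => ?_) (qz_eps _ _ eps_eps)
    · ext K
      rw [mulVec_ev', Matrix.map_apply, ← mulVec_ev' (qz eps (ev J)) ∅ K, qz_ev_empty, ev,
        Pi.single_apply]
      split_ifs <;> simp
    · have h1 := congrArg (fun A => A.map (starRingEnd ℂ)) (qz_eps eps (ev J) eps_eps l)
      have h2 : (eps l).map (starRingEnd ℂ) = eps l := eps_star l
      simpa only [Matrix.map_mul, h2] using h1
  ext K J
  rw [Matrix.map_apply, wg, wg, Matrix.of_apply, Matrix.of_apply, RingHom.map_mulVec, h]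
  rfl

theorem pw_cjv (a : PWA) (u : Fo d) : pw (cjv u) = star (pw u) := by
  have h : ∀ u : Fo d, pw (cjv u) = (-1) ^ d * cst d * star ((wg u ^ d) Finset.univ ∅) := fun u => by
    rw [cjv, pw_lam, f1b.swm_det, pw_eq, wg_star, ← Matrix.map_pow, mul_assoc]
    rfl
  have h1 := h (f11 1)
  have h2 := congrArg star (pw_eq (f11 (1 : Mx d)))
  rw [a.cjv11, Matrix.conjTranspose_one, pw_one] at h1
  rw [pw_one, star_one, star_mul'] at h2
  rw [h, pw_eq u, star_mul', mul_right_cancel₀ (right_ne_zero_of_mul_eq_one h1.symm)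
    (h1.symm.trans h2)]

theorem cont : Continuous (pw : Fo d → ℂ) := by
  have h : Continuous fun u : Fo d => wg u := continuous_matrix fun K J => by
    have e : (fun u : Fo d => wg u K J) = fun u => ∑ I, wg (ev I) K J * u I :=
      funext fun u => f1a.wg_apply u K J
    rw [e]
    fun_prop
  rw [show (pw : Fo d → ℂ) = fun u => cst d * (wg u ^ d) Finset.univ ∅ from funext pw_eq]
  exact continuous_const.mul ((h.pow d).matrix_elem _ _)

open Polynomial in
theorem poly_pow {ι : Type} [Fintype ι] [DecidableEq ι] (A B : Matrix ι ι ℂ) (k : ℕ) :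
    ∀ K J, ∃ P : ℂ[X], P.natDegree ≤ k ∧ ∀ t : ℂ, ((A + t • B) ^ k) K J = P.eval t := by
  induction k with
  | zero => exact fun K J => ⟨C ((1 : Matrix ι ι ℂ) K J), by simp, fun t => by simp⟩
  | succ k ih =>
    choose P h1 h2 using ih
    refine fun K J => ⟨∑ I, P K I * (C (B I J) * X + C (A I J)),
      natDegree_sum_le_of_forall_le _ _ fun I _ => natDegree_mul_le.trans
        (add_le_add (h1 K I) natDegree_linear_le), fun t => ?_⟩
    rw [pow_succ, Matrix.mul_apply, eval_finsetSum]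
    refine Finset.sum_congr rfl fun I _ => ?_
    rw [h2, eval_mul, eval_add, eval_mul, eval_C, eval_C, eval_X, Matrix.add_apply,
      Matrix.smul_apply, smul_eq_mul, add_comm, mul_comm t]

theorem ext0 {f g : ℂ → ℂ} (hf : Continuous f) (hg : Continuous g) (h : ∀ x, x ≠ 0 → f x = g x) :
    f = g := hf.ext_on (dense_compl_singleton 0) hg h

theorem pw_det (a : PWA) (W : Mx d) : pw (f11 W) = W.det := by
  have h := pw_lam (blk W 1) (f11 1)
  simpa [a.blk11, f1b.blk_det, pw_one] using h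

theorem typ (a : PWA) (S W : Mx d) : pw (f20 S + f11 W) = W.det := by
  have h := ext0 (f := fun c => pw (c ^ 2 • f20 S + f11 W)) (g := fun _ => pw (f20 S + f11 W))
    (cont.comp (by fun_prop)) continuous_const fun c hc => by
      have h1 := pw_lam (blk (c • 1) (c⁻¹ • 1)) (f20 S + f11 W)
      simpa [Matrix.mulVec_add, a.blk11, a.blk20, f1b.blk_det, smul_smul, hc, a.f20_smul, sq]
        using h1
  simpa [pw_det a] using (congrFun h 0).symm

theorem bl4_eq (A B C D : Mx d) : bl4 A B C D =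
    Matrix.reindexAlgEquiv ℂ ℂ finSumFinEquiv (Matrix.fromBlocks A B C D) := rfl

theorem bl4_tr (A B C D : Mx d) : (bl4 A B C D)ᵀ = bl4 Aᵀ Cᵀ Bᵀ Dᵀ := by
  rw [bl4, Matrix.transpose_reindex, Matrix.fromBlocks_transpose, bl4]

theorem key (a : PWA) (P R Q S S' : Mx d) :
    pw (tw (bl4 (P * S * Pᵀ) (P * S * Rᵀ) (R * S * Pᵀ) (R * S * Rᵀ + Q * S' * Qᵀ))) =
      P.det * Q.det * pw (tw (bl4 S 0 0 S')) := by
  have h := pw_lam (bl4 P 0 R Q) (tw (bl4 S 0 0 S'))
  have h1 : lam (bl4 P 0 R Q) *ᵥ tw (bl4 S 0 0 S') = _ := a.lr_tw _ _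
  have h2 : (bl4 P 0 R Q).det = P.det * Q.det := by
    rw [bl4, Matrix.det_reindex_self, Matrix.det_fromBlocks_zero₁₂]
  rw [h1, h2, bl4_tr] at h
  rw [← h]
  simp only [bl4_eq, ← map_mul, Matrix.fromBlocks_multiply]
  simp

theorem comb (a : PWA) (S W : Mx d) (x t z : ℂ) : x • f20 S + t • f11 W + z • cjv (f20 S) =
    tw (bl4 (x • S) ((t * Complex.I) • W) (-((t * Complex.I) • Wᵀ)) (z • S.map star)) := by
  rw [a.f02_tw, a.f20_tw, a.f11_tw, ← a.tw_smul, ← a.tw_smul, ← a.tw_smul, ← a.tw_add, ← a.tw_add]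
  simp only [bl4_eq, ← map_smul, ← map_add, Matrix.fromBlocks_smul, Matrix.fromBlocks_add]
  simp [smul_smul]

theorem hk0 (a : PWA) {n : ℕ} (S W : Mx (n + n)) (κ : ℝ) (hS : Sᵀ = -S) (h0 : S.det ≠ 0)
    (hW : W.PosDef) (h : W * (Sᴴ)⁻¹ * Wᵀ = (κ : ℂ) • S) (t z x : ℂ) :
    pw (x • f20 S + t • f11 W + z • cjv (f20 S)) =
      (x * z + κ * t ^ 2) ^ n * pw (tw (bl4 S 0 0 (S.map star))) := by
  have hu : IsUnit S.det := isUnit_iff_ne_zero.2 h0
  have e1 : Wᵀ * (S⁻¹ * W) = -((κ : ℂ) • S.map star) := by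
    have h1 := congrArg Matrix.conjTranspose h
    rw [Matrix.conjTranspose_mul, Matrix.conjTranspose_mul, hW.isHermitian.transpose.eq,
      hW.isHermitian.eq, Matrix.conjTranspose_nonsing_inv, Matrix.conjTranspose_conjTranspose,
      Matrix.conjTranspose_smul, Matrix.conjTranspose, hS] at h1
    rw [h1]
    ext i j
    simp
  have e2 : S * (S⁻¹ * W) = W := Matrix.mul_nonsing_inv_cancel_left S W hu
  have e3 : (S⁻¹ * W)ᵀ * S = -Wᵀ := by
    have h1 := congrArg Matrix.transpose e2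
    rw [Matrix.transpose_mul, hS, Matrix.mul_neg] at h1
    exact neg_eq_iff_eq_neg.1 h1
  refine congrFun (ext0 (f := fun x => pw (x • f20 S + t • f11 W + z • cjv (f20 S)))
    (g := fun x => (x * z + κ * t ^ 2) ^ n * pw (tw (bl4 S 0 0 (S.map star))))
    (cont.comp (by fun_prop)) (by fun_prop) fun x hx => ?_) x
  obtain ⟨p, rfl⟩ := IsAlgClosed.exists_pow_nat_eq x two_pos
  obtain ⟨q, hq⟩ := IsAlgClosed.exists_pow_nat_eq (z + κ * t ^ 2 / p ^ 2) two_pos
  have hp : p ≠ 0 := fun e => hx (by simp [e])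
  have h1 := key a (p • 1) ((t * Complex.I / p) • (S⁻¹ * W)ᵀ) (q • 1) S (S.map star)
  have e4 : (p • (1 : Mx (n + n))).det * (q • (1 : Mx (n + n))).det =
      (p ^ 2 * z + κ * t ^ 2) ^ n := by
    have e5 : p ^ 2 * z + κ * t ^ 2 = p ^ 2 * q ^ 2 := by
      rw [hq]
      field_simp
    simp only [Matrix.det_smul, Matrix.det_one, Fintype.card_fin, e5]
    ring
  have e6 : t * Complex.I / p * (t * Complex.I / p * κ) + q * q = z := by
    have hI := Complex.I_mul_I
    field_simp at hq ⊢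
    linear_combination hq + t ^ 2 * κ * hI
  rw [comb a, ← e4, ← h1]
  simp only [Matrix.transpose_smul, Matrix.transpose_one, Matrix.transpose_transpose,
    Matrix.smul_mul, Matrix.mul_smul, Matrix.one_mul, Matrix.mul_one, e2, e3, Matrix.neg_mul, e1,
    neg_neg, smul_neg, smul_smul, ← add_smul, e6, div_mul_cancel₀ _ hp, mul_div_cancel₀ _ hp, sq]

end Pwb

open Pwb

theorem pwb_of (a : PWA) : PWB where
  tc_ne := tc_ne
  lam := pw_lam
  det := pw_det a
  cjv u _ := pw_cjv a u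
  smul c u := by
    rw [pw_eq, pw_eq, f1a.wg_smul, smul_pow, Matrix.smul_apply, smul_eq_mul, mul_left_comm]
  cont := cont
  poly {d} u v := by
    obtain ⟨P, h1, h2⟩ := poly_pow (wg u) (wg v) d Finset.univ ∅
    refine ⟨Polynomial.C (cst d) * P, (Polynomial.natDegree_C_mul_le _ _).trans h1, fun t => ?_⟩
    rw [pw_eq, f1a.wg_add, f1a.wg_smul, h2, Polynomial.eval_mul, Polynomial.eval_C]
  typ := typ a
  hk S W κ hS h0 hW h x t z := by
    have h1 := hk0 a S W κ hS h0 hW h 1 0 1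
    simp only [one_smul, zero_smul, add_zero, mul_zero, zero_add, one_pow, mul_one, typ a] at h1
    rw [hk0 a S W κ hS h0 hW h, h1, mul_left_comm]

end Vale.Agent.P301Z.Lat
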