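import Vale.Agent.P301Z.Lat.Pk
import Mathlib.LinearAlgebra.Lagrange

/-!
# P301, block LAT: the integral of the top power
-/

open scoped Manifold ContDiff ComplexOrder Topology Matrix
open Vale.Agent.P272.K Vale.Agent.P299.IX Vale.Agent.P299.IX.Fock
open Vale.Agent.P281Z (Mf)
open Vale.Agent.P281Z.Hg Vale.Agent.P281Z.Hg.G2H
open Vale.Agent.P272.K.INT

noncomputable section

namespace Vale.Agent.P301Z.Lat

namespace VolX

/-- exterior multiplication as a linear map -/
def wgL (n : ℕ) : Fk n →ₗ[ℂ] FM n := IsLinearMap.mk' wg ⟨f1a.wg_add, f1a.wg_smul⟩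

theorem wg_tw {n : ℕ} (B : Mx n) : wg (tw B) = ∑ a, ∑ b, (B a b / 2) • (eps a * eps b) := by
  show wgL n (tw B) = _
  simp only [tw, map_sum, map_smul]
  refine Finset.sum_congr rfl fun a _ => Finset.sum_congr rfl fun b _ => ?_
  show _ • wg _ = _
  rw [f1a.wg_eps, f1a.wg_eps, f1a.wg_ev, mul_one]

theorem dg_wg (a : PWA) {n : ℕ} {u : Fk n} (h : dg 2 *ᵥ u = u) (j : ℕ) :
    dg (j + 2) * wg u = wg u * dg j := by
  rw [← h, ← a.tw_mat, wg_tw]
  simp only [Finset.mul_sum, Finset.sum_mul, Matrix.mul_smul, Matrix.smul_mul]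
  refine Finset.sum_congr rfl fun p _ => Finset.sum_congr rfl fun q _ => ?_
  rw [← mul_assoc, dg_eps (j + 1), mul_assoc, dg_eps j, mul_assoc]

theorem par_two {n : ℕ} {u : Fk n} (h : dg 2 *ᵥ u = u) : par *ᵥ u = u := by
  funext I
  have h1 := (dg_mulVec 2 u I).symm.trans (congrFun h I)
  rw [par_mulVec]
  split_ifs at h1 with h2
  · rw [h2, neg_one_sq, one_mul]
  · rw [← h1, mul_zero]

variable {d : ℕ} {V V' : Mf d}

theorem dc_mul (c : ℂ) {F : Rw d V.X ℂ} (hF : DC F) : DC fun e z => c * F e z :=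
  ⟨by simpa only [Complex.mul_re] using (hF.1.const_mul c.re).sub (hF.2.const_mul c.im),
    by simpa only [Complex.mul_im] using (hF.2.const_mul c.re).add (hF.1.const_mul c.im)⟩

theorem itg_sum {ι : Type} (s : Finset ι) {F : ι → Rw d V.X ℂ} (hF : ∀ i, DC (F i)) :
    itg (fun e z => ∑ i ∈ s, F i e z) = ∑ i ∈ s, itg (F i) := by
  simp only [itg, Complex.re_sum, Complex.im_sum, intX_sum s fun i _ => (hF i).1,
    intX_sum s fun i _ => (hF i).2, Finset.sum_add_distrib, Complex.ofReal_sum, Finset.mul_sum]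

theorem dens (b : PWB) (u : Fs V) : DC fun e z => pw (vl u e z) := by
  have h1 : ∀ e x, At e x → ContinuousAt (fun z => pw (vl u e z)) (e x) := fun e x h =>
    b.cont.continuousAt.comp ((vl_isF u).sm e x h).continuousAt
  have h2 : ∀ e e' x, At e x → At e' x → pw (vl u e (e x)) =
      pw (vl u e' (e' x)) * ((‖(jacM e e' x).det‖ ^ 2 : ℝ) : ℂ) := fun e e' x h h' => by
    rw [(vl_isF u).ch e e' x h h', b.lam, (g1T d V.X).jt_det e e' x h h', mul_comm]
  exact ⟨⟨fun e x h => Complex.continuous_re.continuousAt.comp (h1 e x h), fun e e' x h h' =>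
    (congrArg Complex.re (h2 e e' x h h')).trans (Complex.re_mul_ofReal _ _)⟩, fun e x h =>
      Complex.continuous_im.continuousAt.comp (h1 e x h), fun e e' x h h' =>
    (congrArg Complex.im (h2 e e' x h h')).trans (Complex.im_mul_ofReal _ _)⟩

theorem vl_pow {u : Fs V} {W : Module.End ℂ (Fs V)} (hW : IsOp (fun e z => wg (vl u e z)) W)
    {e : Chart d V.X} {x : V.X} (hx : At e x) (k : ℕ) (y : Fs V) :
    vl ((W ^ k) y) e (e x) = (wg (vl u e (e x)) ^ k) *ᵥ vl y e (e x) := by
  induction k with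
  | zero => rw [pow_zero, pow_zero, Matrix.one_mulVec, Module.End.one_apply]
  | succ k ih => rw [pow_succ', pow_succ', Module.End.mul_apply, hW _ e x hx, ih,
      Matrix.mulVec_mulVec]

theorem vol_eq {u : Fs V} {W : Module.End ℂ (Fs V)} (hW : IsOp (fun e z => wg (vl u e z)) W) :
    Vol u = tc d * (dR V).Q (oneF V) ((W ^ d) (oneF V)) := by
  rw [(dR_real V).Q, ← itg_smul _ ((g1T d V.X).dens _ _)]
  exact itg_congr fun e x hx => by rw [vl_pow hW hx, oneF_spec V e x hx]; rfl

theorem d_op {u : Fs V} {W : Module.End ℂ (Fs V)} (hW : IsOp (fun e z => wg (vl u e z)) W)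
    (hu : Cl2 V u) (y : Fs V) : (dR V).d (W y) = W ((dR V).d y) := by
  refine ext_F fun e x he => ?_
  have h0 : wg (0 : Fo d) = 0 := (wgL (d + d)).map_zero
  rw [(dR_real V).d _ e x he, k1aT.congr (v := fun z => wg (vl u e z) *ᵥ vl y e z)
    (ev_at he (.of_forall (hW y e))), k1aT.leib (dif u he) (dif y he), par_two (hu.dg he),
    ← (dR_real V).d u e x he, hu.1, vl_zero, h0, Matrix.zero_mulVec, zero_add, hW _ e x he,
    (dR_real V).d y e x he]

theorem d_one (V : Mf d) : (dR V).d (oneF V) = 0 :=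
  (((g2T d V.X).2.2 _ (dR_real V)).1 _ (oneF_spec V)).1

theorem exW (u : Fs V) : ∃ W : Module.End ℂ (Fs V), IsOp (fun e z => wg (vl u e z)) W :=
  (g1T d V.X).op _ ((g1T d V.X).wed u)

theorem cls {u v : Fs V} (hu : Cl2 V u) (hv : Ex2 V v) : Vol (u + v) = Vol u := by
  have huv := hu.add hv.cl
  obtain ⟨β, hβ, rfl⟩ := hv
  obtain ⟨W, hW⟩ := exW u
  obtain ⟨W', hW'⟩ := exW ((dR V).d β)
  obtain ⟨Wb, hWb⟩ := exW β
  have hs : IsOp (fun e z => wg (vl (u + (dR V).d β) e z)) ⇑(W + W') := fun y e x he => by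
    rw [LinearMap.add_apply, vl_add, hW y e x he, hW' y e x he, ← Matrix.add_mulVec,
      ← f1a.wg_add]
    rfl
  have h1 : ∀ k, (dR V).d ((W ^ k) (oneF V)) = 0 := fun k => by
    induction k with
    | zero => exact d_one V
    | succ k ih => rw [pow_succ', Module.End.mul_apply, d_op hW hu, ih, map_zero]
  have h2 : ∀ k, ∃ γ, ((W + W') ^ k) (oneF V) = (W ^ k) (oneF V) + (dR V).d γ := fun k => by
    induction k with
    | zero => exact ⟨0, by rw [pow_zero, pow_zero, map_zero, add_zero]⟩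
    | succ k ih =>
      obtain ⟨γ, hγ⟩ := ih
      refine ⟨Wb ((W ^ k) (oneF V)) + (W + W') γ, ?_⟩
      rw [pow_succ', pow_succ', Module.End.mul_apply, Module.End.mul_apply, hγ, map_add,
        map_add (dR V).d, d_op hs huv,
        ((g2T d V.X).2.2 _ (dR_real V)).2.2.2 β Wb W' hβ hWb hW', h1, map_zero, sub_zero,
        LinearMap.add_apply W W' ((W ^ k) (oneF V)), add_assoc]
  obtain ⟨γ, hγ⟩ := h2 d
  have h3 := (dR_ok V).Qd (oneF V) γ
  rw [d_one, map_zero, LinearMap.zero_apply, zero_eq_neg] at h3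
  rw [vol_eq hs, vol_eq hW, hγ, map_add, h3, add_zero]

theorem line (b : PWB) (u v : Fs V) : ∃ P : Polynomial ℂ, P.natDegree ≤ d ∧
    ∀ t : ℂ, Vol (u + t • v) = P.eval t := by
  have hi : Set.InjOn (Nat.cast : ℕ → ℂ) (Finset.range (d + 1) : Finset ℕ) :=
    Nat.cast_injective.injOn
  have hev : ∀ (r : ℕ → ℂ) (t : ℂ),
      (Lagrange.interpolate (Finset.range (d + 1)) (Nat.cast : ℕ → ℂ) r).eval t =
        ∑ j ∈ Finset.range (d + 1),
          (Lagrange.basis (Finset.range (d + 1)) (Nat.cast : ℕ → ℂ) j).eval t * r j := by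
    intro r t
    rw [Lagrange.interpolate_apply, Polynomial.eval_finsetSum]
    exact Finset.sum_congr rfl fun j _ => by rw [Polynomial.eval_mul, Polynomial.eval_C, mul_comm]
  refine ⟨Lagrange.interpolate (Finset.range (d + 1)) (Nat.cast : ℕ → ℂ)
    fun j => Vol (u + (j : ℂ) • v), ?_, fun t => ?_⟩
  · have h := Lagrange.degree_interpolate_lt (fun j : ℕ => Vol (u + (j : ℂ) • v)) hi
    rw [Finset.card_range] at h
    exact Polynomial.natDegree_le_of_degree_le (Order.le_of_lt_succ (by exact_mod_cast h))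
  · rw [hev]
    have h1 : ∀ j : ℕ, (Lagrange.basis (Finset.range (d + 1)) (Nat.cast : ℕ → ℂ) j).eval t *
        Vol (u + (j : ℂ) • v) = itg fun e z =>
          (Lagrange.basis (Finset.range (d + 1)) (Nat.cast : ℕ → ℂ) j).eval t *
            pw (vl (u + (j : ℂ) • v) e z) := fun j => (itg_smul _ (dens b _)).symm
    rw [Finset.sum_congr rfl fun j _ => h1 j, ← itg_sum _ fun j => dc_mul _ (dens b _)]
    refine itg_congr fun e x _ => ?_
    obtain ⟨P, hP, h⟩ := b.poly (vl u e (e x)) (vl v e (e x))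
    have h2 : P.degree < (Finset.range (d + 1)).card := by
      rw [Finset.card_range]
      exact (Polynomial.degree_le_of_natDegree_le hP).trans_lt (by exact_mod_cast Nat.lt_succ_self d)
    show pw (vl u e (e x) + t • vl v e (e x)) = ∑ j ∈ Finset.range (d + 1), _ *
      pw (vl u e (e x) + (j : ℂ) • vl v e (e x))
    rw [h, Lagrange.eq_interpolate hi h2, hev]
    exact Finset.sum_congr rfl fun j _ => by rw [h]

theorem real (u : Fs V) (F : Chart d V.X → Cm d → ℝ)
    (h : ∀ e x, At e x → pw (vl u e (e x)) = F e (e x)) : Vol u = (intX F : ℝ) := by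
  rw [Vol, itg_congr (G := fun e z => (F e z : ℂ)) h]
  simp [itg, intX_zero]

theorem pw_pb (b : PWB) {f : V.X → V'.X} {T : Fs V' → Fs V} (hf : Smo d d f) (hT : IsPb f T)
    (u : Fs V') {e : Chart d V.X} {e' : Chart d V'.X} {x : V.X} (he : At e x)
    (he' : At e' (f x)) : pw (vl (T u) e (e x)) =
      ((fderiv ℝ (fun z => e' (f (e.symm z))) (e x)).det : ℝ) * pw (vl u e' (e' (f x))) := by
  rw [hT u e e' x he he', ← k1b'.jc_det ((hf.sm e e' x he he').differentiableAt (by simp))]
  exact b.lam _ _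

end VolX

open VolX in
theorem vol_of (a : PWA) (b : PWB) : VOL where
  dens u := dens b u
  cls := cls
  line := line b
  smul c u := by
    rw [Vol, Vol, ← itg_smul _ (dens b u)]
    exact itg_congr fun e x _ => b.smul c _
  real := real
  pos {d V u} hne h := by
    rw [real u (fun e z => (pw (vl u e z)).re) fun e x hx =>
      Complex.ext rfl (by rw [Complex.ofReal_im]; exact (Complex.pos_iff.1 (h e x hx)).2.symm)]
    exact Complex.zero_lt_real.2 (intX_pos (dens b u).1 fun e x hx =>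
      (Complex.pos_iff.1 (h e x hx)).1)
  op {d V u W} hW := ⟨vol_eq hW,
    ext_F fun e x he => by rw [hW _ e x he, oneF_spec V e x he, f1a.wg_one],
    fun x y hy e he => by rw [hW y e x he, hy e he, Matrix.mulVec_zero],
    fun hu => ⟨d_op hW hu, fun j y hy => ext_F fun e x he => by
      have h1 := (dR_real V).dg j y e x he
      rw [hy] at h1
      rw [(dR_real V).dg (j + 2) _ e x he, hW y e x he, Matrix.mulVec_mulVec,
        dg_wg a (hu.dg he), ← Matrix.mulVec_mulVec, ← h1]⟩⟩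
  pb {d V V'} φ T h1 _ ho hT u := by
    have k : ∀ e e' x, At e x → At e' (φ x) → pw (vl (T u) e (e x)) =
        (|(fderiv ℝ (fun z => e' (φ (e.symm z))) (e x)).det| : ℝ) * pw (vl u e' (e' (φ x))) :=
      fun e e' x he he' => by
        rw [abs_of_pos (Pb2H.det_pos k1b' h1 ho he he'), pw_pb b h1 hT u he he']
    rw [Vol, Vol, itg, itg, Pb2H.intX_pull h1 (dens b (T u)).1 (dens b u).1 fun e e' x he he' =>
      (congrArg Complex.re (k e e' x he he')).trans (Complex.re_ofReal_mul _ _),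
      Pb2H.intX_pull h1 (dens b (T u)).2 (dens b u).2 fun e e' x he he' =>
        (congrArg Complex.im (k e e' x he he')).trans (Complex.im_ofReal_mul _ _)]
  ori {d V V' f T u} hf hT h h' x := by
    refine ⟨_, _, at_chart x, at_chart (f x), ?_⟩
    have h1 := (Complex.pos_iff.1 (h' _ x (at_chart x))).1
    rw [pw_pb b hf hT u (at_chart x) (at_chart (f x)), Complex.re_ofReal_mul] at h1
    exact (mul_pos_iff_of_pos_right (Complex.pos_iff.1 (h _ _ (at_chart (f x)))).1).1 h1

end Vale.Agent.P301Z.Lat
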