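import Vale.Agent.P301Z.Lat.S1c

/-!
# P301, block LAT: the Hodge decomposition in degree two from the rows HOL2 and REG
-/

open scoped Manifold ContDiff ComplexOrder Topology Matrix
open Filter
open Vale.Agent.P272.K
open Vale.Agent.P281Z (Mf)
open Vale.Agent.P281Z.Hg

noncomputable section

namespace Vale.Agent.P301Z.Lat

namespace HdH

open Vale.Agent.P281Z.Hg.Lt in
theorem nex_abs {S : Type} [AddCommGroup S] [Module ℂ S] {D : ℕ} {X : Cx S D} {M : Type}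
    [MetricSpace M] {E : LC M X} {m : ℕ} (h : E.OK) (hP : PER M (m + 1)) (hr : E.R1 (m + 1))
    (hU2 : E.U2 (m + 1)) (hU1 : E.U1 (m + 1)) {u : S} (hu : X.Cl (m + 1) u) {y : ℕ → S}
    (hy : Tendsto (fun s => E.nrm (u - X.d (y s))) atTop (𝓝 0)) : ∃ β, u = X.d β := by
  have hv := vt1
  obtain ⟨ε, hε, A, C, hA, hZ⟩ := hr
  obtain ⟨r, c, p0, -, p2, p3, -⟩ := hP ε hε
  let per : S →ₗ[ℂ] Fin r → ℂ := LinearMap.pi fun i => ∑ l ∈ (c i).support, (c i l : ℂ) • A l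
  have hper : ∀ u i, per u i = evc (fun l => A l u) (c i) := fun u i => by
    simp [per, evc, Finsupp.sum, LinearMap.sum_apply]
  have hb : ∀ u i, ‖per u i‖ ≤ (∑ l ∈ (c i).support, ‖(c i l : ℂ)‖ * C) * E.nrm u := fun u i => by
    rw [hper, evc, Finsupp.sum, Finset.sum_mul]
    refine norm_sum_le_of_le _ fun l hl => ?_
    rw [norm_mul, mul_assoc]
    exact mul_le_mul_of_nonneg_left (hA l u (p0 i l hl).1) (norm_nonneg _)
  have hc : ∀ u, X.Cl (m + 1) u → Coc ε (m + 1) fun l => A l u := fun u hu =>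
    zg_coc hv h (hZ u hu)
  have e0 : ∀ β, X.Cl (m + 1) (X.d β) → per (X.d β) = 0 := fun β hβ => funext fun i => by
    obtain ⟨η, k1, k2⟩ := hU2 ε hε
    exact (hper _ i).trans (p2 _ η (hc _ hβ) k1 (k2 β _ (hZ _ hβ)) i)
  have Nz : per u = 0 := funext fun i => by
    have k1 : ∀ y, per (X.dg (m + 1) (X.d y)) = 0 := fun y => by
      have k : X.dg (m + 1) (X.d y) = X.d (X.dg m y) := LinearMap.congr_fun (h.cx.dg_d m) y
      rw [k]
      refine e0 _ ⟨h.cx.dd _, ?_⟩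
      rw [← k]
      exact LinearMap.congr_fun ((h.cx.dg_mul _ _).trans (if_pos rfl)) _
    have k2 := (squeeze_zero (fun s => h.nn _) (fun s => h.dgb (m + 1) _) hy).const_mul
      (∑ l ∈ (c i).support, ‖(c i l : ℂ)‖ * C)
    rw [mul_zero] at k2
    refine norm_le_zero_iff.1 (ge_of_tendsto' k2 fun s => ?_)
    refine le_of_eq_of_le ?_ (hb _ i)
    rw [map_sub, map_sub, hu.2, k1, sub_zero]
  obtain ⟨η, k1, k2⟩ := p3 _ (hc u hu) fun i => (hper u i).symm.trans (congrFun Nz i)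
  exact hU1 _ u _ (lt_min hε k1) (zg_mono (min_le_left _ _) (hZ u hu))
    (cob_mono (min_le_right _ _) k2)

theorem nex : NEX := by
  rintro d V ⟨w, hw⟩ z hz hn
  obtain ⟨K, P⟩ := exists_pack V hw
  letI := ms V
  obtain ⟨y, hy⟩ := P.kh.nc z hn
  obtain ⟨β, hβ⟩ := nex_abs P.eok (P.per 2) (P.r1 2).1 (P.r1 2).2 (P.i1 2).2 hz hy
  exact Ex2.of_d hz.2 hβ

variable {d : ℕ} {V : Mf d} {w : Fld V} {K : KP (dR V)}

theorem nrm_neg (P : Pack V w K) (a : Fs V) : K.nrm (-a) = K.nrm a := by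
  simpa using P.kib.smul (-1) a

theorem null_op (P : Pack V w K) {T : Fs V → Fs V} (hT : ∀ a, K.nrm (T a) ≤ K.nrm a)
    {p : ℕ → Fs V} (hp : K.Null p) : K.Null fun s => T (p s) :=
  squeeze_zero (fun _ => P.kib.nn _) (fun _ => hT _) hp

theorem null_sub (P : Pack V w K) {p q : ℕ → Fs V} (hp : K.Null p) (hq : K.Null q) :
    K.Null fun s => p s - q s := by
  refine squeeze_zero (fun _ => P.kib.nn _) (fun s => ?_) (by simpa using hp.add hq)
  show K.nrm (p s - q s) ≤ _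
  rw [sub_eq_add_neg, ← nrm_neg P (q s)]
  exact P.kib.tri _ _

theorem eq_zero (P : Pack V w K) {a : Fs V} (h : (K.ip a a).re ≤ 0) : a = 0 := by
  refine P.ok.alg.defn a (Complex.ext (le_antisymm h (P.ok.alg.pos a)) ?_)
  have := congrArg Complex.im (P.ok.alg.herm a a)
  simp only [RCLike.star_def, Complex.conj_im] at this
  simp only [Complex.zero_im]
  linarith

theorem null_const (P : Pack V w K) {a : Fs V} (h : K.Null fun _ => a) : a = 0 := by
  have h1 : K.nrm a = 0 := tendsto_nhds_unique tendsto_const_nhds h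
  refine eq_zero P ?_
  rw [← P.kib.sq, h1]
  simp

theorem cau_iff (P : Pack V w K) {u : ℕ → Fs V} :
    K.Cau u ↔ Tendsto (fun q : ℕ × ℕ => K.nrm (u q.1 - u q.2)) atTop (𝓝 0) := by
  rw [Metric.tendsto_atTop]
  constructor
  · intro h ε hε
    obtain ⟨N, hN⟩ := h ε hε
    refine ⟨(N, N), fun q hq => ?_⟩
    rw [Real.dist_eq, sub_zero, abs_of_nonneg (P.kib.nn _)]
    exact hN _ hq.1 _ hq.2
  · intro h ε hε
    obtain ⟨N, hN⟩ := h ε hε
    refine ⟨max N.1 N.2, fun r hr s hs => ?_⟩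
    have := hN (r, s) ⟨(le_max_left _ _).trans hr, (le_max_right _ _).trans hs⟩
    rwa [Real.dist_eq, sub_zero, abs_of_nonneg (P.kib.nn _)] at this

theorem pr_pr (P : Pack V w K) (j k : ℕ) (a : Fs V) :
    K.pr j (K.pr k a) = if j = k then K.pr k a else 0 := by
  have := LinearMap.congr_fun (P.ok.alg.pr_mul j k) a
  split_ifs at this ⊢ <;> exact this

theorem dg_dg (j : ℕ) (a : Fs V) : (dR V).dg j ((dR V).dg j a) = (dR V).dg j a :=
  LinearMap.congr_fun (((dR_ok V).dg_mul j j).trans (if_pos rfl)) a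

theorem dg_pr (P : Pack V w K) (k m : ℕ) (a : Fs V) :
    (dR V).dg m (K.pr k a) = K.pr k ((dR V).dg m a) :=
  (LinearMap.congr_fun (P.ok.alg.pr_dg k m) a).symm

theorem split (P : Pack V w K) {x : Fs V} (hx : (dR V).dg 2 x = x) :
    x = K.pr 0 x + K.pr 1 x + K.pr 2 x := by
  have h1 : ∑ k ∈ Finset.range (d + 1), K.pr k x = x := by
    have := LinearMap.congr_fun P.ok.alg.pr_sum x
    rwa [LinearMap.sum_apply] at this
  have h2 : ∑ k ∈ Finset.range (d + 1), K.pr k x = ∑ k ∈ Finset.range (d + 3), K.pr k x :=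
    Finset.sum_subset (Finset.range_subset_range.2 (by omega)) fun k _ hk => by
      rw [P.ok.alg.pr_zero k (by simpa using hk)]; rfl
  have h3 : ∑ k ∈ Finset.range 3, K.pr k x = ∑ k ∈ Finset.range (d + 3), K.pr k x :=
    Finset.sum_subset (Finset.range_subset_range.2 (by omega)) fun k _ hk => by
      rw [← hx]
      exact LinearMap.congr_fun (P.ok.alg.pr_lt k 2 (by simp at hk; omega)) x
  rw [← h2, h1] at h3
  simpa [Finset.sum_range_succ] using h3.symm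

theorem cj_pr (P : Pack V w K) (j k : ℕ) {x : Fs V} (hx : (dR V).dg (j + k) x = x) :
    (dR V).cj (K.pr j x) = K.pr k ((dR V).cj x) := by
  have := P.ok.alg.cjpr j k x
  rwa [hx, ← (dR_ok V).cjdg, hx] at this

theorem top20 (h2 : HOL2) (P : Pack V w K) {v : ℕ → Fs V} (hv : K.Har v)
    (hd : ∀ s, (dR V).dg 2 (v s) = v s) :
    ∃ σ, Cl2 V σ ∧ K.pr 2 σ = σ ∧ K.Rep σ fun s => K.pr 2 (v s) := by
  have hp := P.kh.hpr 2 hv
  have t1 : ∀ s, K.pr 2 (K.pr 2 (v s)) = K.pr 2 (v s) := fun s => by rw [pr_pr P, if_pos rfl]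
  have t2 : ∀ s, (dR V).dg 2 (K.pr 2 (v s)) = K.pr 2 (v s) := fun s => by rw [dg_pr P, hd]
  obtain ⟨σ, hσ⟩ := h2 V w K P _ hp.cau hp.d fun s => ⟨t1 s, t2 s⟩
  have e1 : K.pr 2 σ = σ := by
    have := null_sub P hσ (null_op P (P.kib.prb 2) hσ)
    simp only [map_sub, t1, sub_sub_sub_cancel_left] at this
    exact sub_eq_zero.1 (null_const P this)
  have e2 : (dR V).dg 2 σ = σ := by
    have := null_sub P hσ (null_op P (P.kib.dgb 2) hσ)
    simp only [map_sub, t2, sub_sub_sub_cancel_left] at this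
    exact sub_eq_zero.1 (null_const P this)
  have e3 : (dR V).d σ = 0 := by
    refine eq_zero P ((Complex.re_le_norm _).trans ?_)
    have l1 := (hp.d.const_mul (K.nrm ((dR V).d σ))).add
      (hσ.const_mul (K.nrm (K.ds ((dR V).d σ))))
    rw [mul_zero, mul_zero, add_zero] at l1
    refine ge_of_tendsto' l1 fun s => ?_
    have e : K.ip ((dR V).d σ) ((dR V).d σ) = K.ip ((dR V).d σ) ((dR V).d (K.pr 2 (v s))) +
        K.ip (K.ds ((dR V).d σ)) (-(K.pr 2 (v s) - σ)) := by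
      rw [← P.kia.adjd, ← P.kia.ip_add_r, ← map_add]
      congr 2
      abel
    rw [e]
    refine (norm_add_le _ _).trans (add_le_add (P.kib.cs _ _) ((P.kib.cs _ _).trans_eq ?_))
    rw [nrm_neg P]
  exact ⟨σ, ⟨e3, e2⟩, e1, hp, e3, fun _ => 0, by simpa using hσ⟩

theorem pr0_d (P : Pack V w K) (x : Fs V) : K.pr 0 ((dR V).d x) = K.Ab (K.pr 0 x) := by
  have h1 := LinearMap.congr_fun P.kia.pr0A x
  have h2 := LinearMap.congr_fun (P.kia.prAb 0) x
  rw [P.kia.d_eq, LinearMap.add_apply, map_add]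
  exact (congrArg₂ (· + ·) h1 h2).trans (zero_add _)

theorem solve (hr : REG) (P : Pack V w K) {a : Fs V} (ha : Cl2 V a) {p : ℕ → Fs V}
    (hp : K.Rep a p) (ht : ∀ s, K.pr 0 (p s) = 0 ∧ (dR V).dg 2 (p s) = p s) :
    ∃ θ : Fs V, K.pr 0 θ = θ ∧ (dR V).dg 1 θ = θ ∧ K.Ab θ = K.pr 0 a := by
  letI := ms V
  obtain ⟨z, y, hz, hc, hy⟩ := s1c _ _ _ V.X _ P.eok 2 p ((cau_iff P).1 hp.cau) hp.d
    fun s => (ht s).2
  have hz' : K.Rep z p := ⟨hp.toHar, hz.1, y, hy⟩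
  obtain ⟨β, -, hβ⟩ := nex V ⟨w, P.kah⟩ _ (Cl2.sub hz ha) (P.kh.back hz' hp)
  refine hr V w K P a ha (fun s => -K.pr 0 ((dR V).dg 1 (y s + β))) ((cau_iff P).2 ?_)
    (fun s => ⟨by rw [map_neg, pr_pr P, if_pos rfl], by rw [map_neg, dg_pr P, dg_dg]⟩) ?_
  · refine squeeze_zero (fun _ => P.kib.nn _) (fun q => ?_) hc
    rw [neg_sub_neg, ← map_sub, ← map_sub, add_sub_add_right_eq_sub, ← neg_sub (y q.1)]
    exact (P.kib.prb _ _).trans ((P.kib.dgb _ _).trans (nrm_neg P _).le)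
  · have h1 := null_op P (T := fun x => K.pr 0 ((dR V).dg 2 x))
      (fun x => (P.kib.prb _ _).trans (P.kib.dgb _ _)) hy
    refine Tendsto.congr (fun s => congrArg K.nrm ?_) h1
    have e1 : p s - z - (dR V).d (y s) = p s - a - (dR V).d (y s + β) := by
      rw [map_add, ← hβ]; abel
    have e2 : (dR V).dg 2 ((dR V).d (y s + β)) = (dR V).d ((dR V).dg 1 (y s + β)) :=
      LinearMap.congr_fun ((dR_ok V).dg_d 1) _
    show K.pr 0 ((dR V).dg 2 (p s - z - (dR V).d (y s))) =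
      K.Ab (-K.pr 0 ((dR V).dg 1 (y s + β))) - K.pr 0 a
    rw [e1, map_sub ((dR V).dg 2), map_sub ((dR V).dg 2), (ht s).2, ha.2, e2, map_sub, map_sub,
      (ht s).1, pr0_d P, map_neg]
    abel

theorem ty_of (P : Pack V w K) {k : ℕ} {u : Fs V} (h : K.pr k u = u) : Ty k u := fun e x hx => by
  rw [← P.rk.pr k u e x hx, h]

end HdH

open HdH in
theorem hd_of (h2 : HOL2) (hr : REG) : HD := by
  rintro d V ⟨w, hw⟩ - a ha
  obtain ⟨K, P⟩ := exists_pack V hw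
  have ok := dR_ok V
  obtain ⟨v0, hv0⟩ := P.kh.ex a ha.1
  have hv := P.kh.rdg 2 hv0
  rw [ha.2] at hv
  have hd : ∀ s, (dR V).dg 2 ((dR V).dg 2 (v0 s)) = (dR V).dg 2 (v0 s) := fun s => dg_dg 2 _
  generalize hg : (fun s => (dR V).dg 2 (v0 s)) = v at hv
  replace hd : ∀ s, (dR V).dg 2 (v s) = v s := fun s => by rw [← hg]; exact hd s
  have hd' : ∀ s, (dR V).dg 2 ((dR V).cj (v s)) = (dR V).cj (v s) := fun s => by
    rw [← ok.cjdg, hd]
  obtain ⟨σ, c1, t1, r1⟩ := top20 h2 P hv.toHar hd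
  obtain ⟨τ, c2, t2, r2⟩ := top20 h2 P (P.kh.rcj hv).toHar hd'
  have r3 := P.kh.rcj r2
  have r4 := P.kh.add hv (P.kh.add (P.kh.smul (-1) r1) (P.kh.smul (-1) r3))
  have e4 : (fun s => v s + ((-1 : ℂ) • K.pr 2 (v s) +
      (-1 : ℂ) • (dR V).cj (K.pr 2 ((dR V).cj (v s))))) = fun s => K.pr 1 (v s) := funext fun s => by
    rw [cj_pr P 2 0 (hd' s), ok.cjcj, neg_one_smul, neg_one_smul]
    have := split P (hd s)
    conv_lhs => enter [1]; rw [this]
    abel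
  rw [e4] at r4
  have ca : Cl2 V (a + ((-1 : ℂ) • σ + (-1 : ℂ) • (dR V).cj τ)) :=
    ha.add ((c1.smul _).add (c2.cj.smul _))
  generalize hA : a + ((-1 : ℂ) • σ + (-1 : ℂ) • (dR V).cj τ) = a' at r4 ca
  obtain ⟨θ, p1, d1, s1⟩ := solve hr P ca r4 fun s =>
    ⟨by rw [pr_pr P, if_neg (by decide)], by rw [dg_pr P, hd]⟩
  obtain ⟨θ', p2, d2, s2⟩ := solve hr P ca.cj (P.kh.rcj r4) fun s =>
    ⟨by rw [cj_pr P 1 1 (hd s), pr_pr P, if_neg (by decide)], by rw [← ok.cjdg, dg_pr P, hd]⟩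
  have x1 : Ex2 V ((dR V).d θ) := ⟨θ, d1, rfl⟩
  have x2 : Ex2 V ((dR V).d θ') := ⟨θ', d2, rfl⟩
  have cb : Cl2 V (a' - (dR V).d θ - (dR V).cj ((dR V).d θ')) := (ca.sub x1.cl).sub x2.cl.cj
  have q2 : ∀ x, K.pr 0 x = x → K.pr 2 ((dR V).d x) = 0 := fun x hx => by
    rw [← hx]
    exact LinearMap.congr_fun (P.ok.alg.dtype 2 0 (by decide) (by decide)) x
  have b0 : K.pr 0 (a' - (dR V).d θ - (dR V).cj ((dR V).d θ')) = 0 := by
    rw [map_sub, map_sub, pr0_d P, p1, s1, sub_self, ← cj_pr P 2 0 x2.cl.2, q2 _ p2, map_zero,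
      sub_zero]
  have b2 : K.pr 2 (a' - (dR V).d θ - (dR V).cj ((dR V).d θ')) = 0 := by
    rw [map_sub, map_sub, q2 _ p1, sub_zero, ← cj_pr P 0 2 x2.cl.2, pr0_d P, p2, s2,
      cj_pr P 0 2 ca.cj.2, ok.cjcj, sub_self]
  have b1 := split P cb.2
  rw [b0, b2, zero_add, add_zero] at b1
  refine ⟨σ, _, (dR V).cj τ, c1, ty_of P t1, cb, ty_of P b1.symm, c2.cj,
    ty_of P (by rw [← cj_pr P 2 0 c2.2, t2]), ?_⟩
  have e5 : a - (σ + (a' - (dR V).d θ - (dR V).cj ((dR V).d θ')) + (dR V).cj τ) =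
      (dR V).d θ + (dR V).cj ((dR V).d θ') := by
    rw [← hA, neg_one_smul, neg_one_smul]
    abel
  rw [e5]
  exact x1.add x2.cj

end Vale.Agent.P301Z.Lat
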