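import Vale.Agent.P281Z.Hg.All
import Vale.Agent.P281Z.Defs
import Vale.Agent.P301Z.Stmt
import Vale.Agent.P272.K.INT.Global

/-!
# P301, block LAT: definitions (two-forms, classes, markings, the quadratic form)
-/

open scoped Manifold ContDiff ComplexOrder Topology Matrix
open Vale.Agent.P272.K Vale.Agent.P299.IX Vale.Agent.P299.IX.Fock
open Vale.Agent.P281Z (Mf)
open Vale.Agent.P281Z.Hg
open Vale.Agent.P301.H599 (IsHolTwoForm IsSymplectic LineBundle IsMetric curvature SameClass)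
open Vale.Agent.P272.K.INT (IsClosedForm IsDensity intX)

noncomputable section

namespace Vale.Agent.P301Z.Lat

/-- square matrices -/
abbrev Mx (d : ℕ) : Type := Matrix (Fin d) (Fin d) ℂ

/-- the form `½ Σ B_ab ε_a ∧ ε_b` at a point -/
def tw {n : ℕ} (B : Mx n) : Fk n :=
  ∑ a, ∑ b, (B a b / 2) • (eps a *ᵥ (eps b *ᵥ ev ∅))

/-- the skew matrix of the component of degree two of a form at a point -/
def mat {n : ℕ} (u : Fk n) : Mx n := Matrix.of fun a b => (iot b *ᵥ (iot a *ᵥ u)) ∅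

/-- the form `½ Σ S_ij dz_i ∧ dz_j` at a point -/
def f20 {d : ℕ} (S : Mx d) : Fo d := tw (blk S 0)

/-- the form `i Σ W_ij dz_i ∧ dz̄_j` at a point -/
def f11 {d : ℕ} (W : Mx d) : Fo d := Lw W *ᵥ ev ∅

/-- the normalising constant of top powers -/
def tc (d : ℕ) : ℂ := (Bq (ev ∅) ((Lw (1 : Mx d) ^ d) *ᵥ ev ∅))⁻¹

/-- the density of the top power `u ^ d`, normalised so that `pw (f11 W) = det W` -/
def pw {d : ℕ} (u : Fo d) : ℂ := tc d * Bq (ev ∅) ((wg u ^ d) *ᵥ ev ∅)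

variable {d : ℕ}

/-- matrix fields in the charts -/
abbrev Fld (V : Mf d) : Type := Chart d V.X → Cm d → Mx d

/-- smooth forms -/
abbrev Fs (V : Mf d) : Type := SF d V.X

/-- closed real `(1,1)`-forms `i Σ a_ij dz_i ∧ dz̄_j` as matrix fields -/
structure R11 {V : Mf d} (a : Fld V) : Prop extends IsClosedForm a where
  herm : ∀ e x, At e x → (a e (e x)).IsHermitian

/-- the de Rham complex -/
def dR (V : Mf d) : Cx (Fs V) d := (g2T d V.X).1.choose

theorem dR_real (V : Mf d) : RealX (dR V) := (g2T d V.X).1.choose_spec.1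

theorem dR_ok (V : Mf d) : (dR V).OK := (g2T d V.X).1.choose_spec.2

theorem dR_eq (V : Mf d) {X : Cx (Fs V) d} (h : RealX X) : X = dR V :=
  (g2T d V.X).2.1 _ _ h (dR_real V)

/-- the constant function one -/
def oneF (V : Mf d) : Fs V := (g1T d V.X).one.choose

theorem oneF_spec (V : Mf d) : IsOne (oneF V) := (g1T d V.X).one.choose_spec

/-- a fixed distance -/
abbrev ms (V : Mf d) : MetricSpace V.X := TopologicalSpace.metrizableSpaceMetric V.X

/-- the localisation of the de Rham complex -/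
def lc (V : Mf d) : LC V.X (dR V) := ⟨ZP, oneF V, fun _ => 0⟩

/-- closed two-forms -/
def Cl2 (V : Mf d) (u : Fs V) : Prop := (dR V).Cl 2 u

/-- exact two-forms -/
def Ex2 (V : Mf d) (u : Fs V) : Prop := ∃ β, (dR V).dg 1 β = β ∧ u = (dR V).d β

/-- real forms -/
def ReF (V : Mf d) (u : Fs V) : Prop := (dR V).cj u = u

/-- closed two-forms with integral class -/
def IntF (V : Mf d) (u : Fs V) : Prop := letI := ms V; (lc V).IsInt 2 u

/-- `u` is the form `½ Σ s_ij dz_i ∧ dz_j` -/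
def Is20 {V : Mf d} (s : Fld V) (u : Fs V) : Prop :=
  ∀ e x, At e x → vl u e (e x) = f20 (s e (e x))

/-- `u` is the form `i Σ a_ij dz_i ∧ dz̄_j` -/
def Is11 {V : Mf d} (a : Fld V) (u : Fs V) : Prop := IsOm a u

/-- the integral of the top power of `u` -/
def Vol {V : Mf d} (u : Fs V) : ℂ := itg fun e z => pw (vl u e z)

/-- the class map of degree two in an integral basis -/
structure Mark (V : Mf d) (r : ℕ) where
  c : Fs V →ₗ[ℂ] (Fin r → ℂ)
  ker : ∀ u, Cl2 V u → (c u = 0 ↔ Ex2 V u)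
  onto : ∀ x, ∃ u, Cl2 V u ∧ c u = x
  int : ∀ u, Cl2 V u → (IntF V u ↔ ∃ k : Fin r → ℤ, c u = fun i => (k i : ℂ))
  cj : ∀ u, Cl2 V u → c ((dR V).cj u) = star (c u)

/-- real vectors as complex vectors -/
def rc {r : ℕ} (x : Fin r → ℝ) : Fin r → ℂ := fun i => (x i : ℂ)

/-- integral vectors as real vectors -/
def zr {r : ℕ} (x : Fin r → ℤ) : Fin r → ℝ := fun i => (x i : ℝ)

/-- the real bilinear form of an integral matrix -/
def qR {r : ℕ} (q : Matrix (Fin r) (Fin r) ℤ) (x y : Fin r → ℝ) : ℝ :=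
  ∑ i, ∑ j, (q i j : ℝ) * (x i * y j)

/-- the complex bilinear form of an integral matrix -/
def qC {r : ℕ} (q : Matrix (Fin r) (Fin r) ℤ) (x y : Fin r → ℂ) : ℂ :=
  ∑ i, ∑ j, (q i j : ℂ) * (x i * y j)

/-- the lattice: an integral symmetric form of signature `(3, r - 3)` and the Fujiki constant -/
structure BB (n r : ℕ) where
  q : Matrix (Fin r) (Fin r) ℤ
  C : ℝ
  npos : 0 < n
  symm : qᵀ = q
  Cpos : 0 < C
  sig : ∃ e : Fin 3 → Fin r → ℝ, (∀ i j, qR q (e i) (e j) = if i = j then 1 else 0) ∧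
    ∀ v, (∀ i, qR q v (e i) = 0) → v ≠ 0 → qR q v v < 0

variable {n r : ℕ}

/-- the Fujiki relation -/
def Fuj (B : BB n r) {V : Mf (n + n)} (m : Mark V r) : Prop :=
  ∀ u, Cl2 V u → Vol u = (B.C : ℂ) * qC B.q (m.c u) (m.c u) ^ n

/-- marked manifolds -/
structure MK (B : BB n r) where
  V : Mf (n + n)
  sc : SimplyConnectedSpace V.X
  m : Mark V r
  fuj : Fuj B m

namespace MK

variable {B : BB n r}

/-- `s` is a holomorphic two-form, closed, of class `p` -/
def Per (Y : MK B) (s : Fld Y.V) (p : Fin r → ℂ) : Prop :=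
  IsHolTwoForm s ∧ ∃ u, Is20 s u ∧ Cl2 Y.V u ∧ Y.m.c u = p

/-- `s` is a holomorphic symplectic form of class `p` -/
def Sym (Y : MK B) (s : Fld Y.V) (p : Fin r → ℂ) : Prop :=
  Y.Per s p ∧ ∀ e x, At e x → (s e (e x)).det ≠ 0

/-- `a` is a closed real `(1,1)`-form of class `k` -/
def C11 (Y : MK B) (a : Fld Y.V) (k : Fin r → ℝ) : Prop :=
  R11 a ∧ ∃ u, Is11 a u ∧ Cl2 Y.V u ∧ Y.m.c u = rc k

/-- `w` is a Kähler metric of class `k` -/
def Kc (Y : MK B) (w : Fld Y.V) (k : Fin r → ℝ) : Prop := IsKahler w ∧ Y.C11 w k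

/-- `Y` is hyperkähler with period `p` and the Kähler class `k` of positive square -/
def HK (Y : MK B) (s w : Fld Y.V) (p : Fin r → ℂ) (k : Fin r → ℝ) : Prop :=
  Y.Sym s p ∧ Y.Kc w k ∧ 0 < qR B.q k k

/-- `(L, ρ)` is a Hermitian line bundle with first Chern class `l` -/
def C1 (Y : MK B) {ι : Type} (L : LineBundle (n + n) Y.V.X ι) (ρ : ι → Y.V.X → ℝ)
    (l : Fin r → ℤ) : Prop :=
  IsMetric L ρ ∧ Y.C11 (curvature L ρ) ((2 * Real.pi) • zr l)

/-- `f` is a smooth map which respects the markings -/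
def Mor (Y Y' : MK B) (f : Y.V.X → Y'.V.X) : Prop :=
  Smo (n + n) (n + n) f ∧ ∀ T : Fs Y'.V → Fs Y.V, IsPb f T → ∀ u, Cl2 Y'.V u →
    Y.m.c (T u) = Y'.m.c u

end MK

end Vale.Agent.P301Z.Lat
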