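import Vale.Agent.P301Z.Sk
import Vale.Agent.P301Z.Lat.Pk
import Vale.Agent.P272.K.QN.H527.Tools

/-! # P301: the top level statements LA1, LA2, LA3, NEFL from the output of the block LAT -/

open scoped Manifold ContDiff ComplexOrder Topology Matrix
open Vale.Agent.P272.K
open Vale.Agent.P281Z (Mf)
open Vale.Agent.P301.H599 (IsHolTwoForm IsSymplectic LineBundle IsMetric curvature SameClass)

set_option linter.all false

noncomputable section

namespace Vale.Agent.P301Z.Lat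

theorem la1_of (h : LAT) : LA1 := fun n V sc w s hn hs => h.ex V sc w s hn hs

theorem la2_of (h : LAT) : LA2 := fun n r B Y s w p k H =>
  ⟨h.rel.sym H, h.rel.pp H.1.1 H.1.1, (Complex.pos_iff.1 (h.rel.ppb H)).1,
    h.rel.p11 H.1.1 H.2.1.2⟩

theorem per_l (h : LAT) {n r : ℕ} {B : BB n r} {Y : MK B} {s w : Fld Y.V} {p k}
    (H : Y.HK s w p k) {ι : Type} {L : LineBundle (n + n) Y.V.X ι} {ρ : ι → Y.V.X → ℝ} {l}
    (hl : Y.C1 L ρ l) : qC B.q p (rc (zr l)) = 0 := by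
  have h1 := h.rel.p11 H.1.1 hl.2
  rw [rc_smul, qC_smul_r] at h1
  refine (mul_eq_zero.1 h1).resolve_left ?_
  exact Complex.ofReal_ne_zero.2 (by positivity)

theorem la3_of (h : LAT) : LA3 := fun n r B Y s w p k H ι L ρ hρ =>
  ⟨h.c1 Y L ρ hρ, fun l hl => ⟨per_l h H hl, h.iso hl, (h.l0 H.2.1 H.2.2 hl).symm,
    fun hn _ h0 => h.nef H hl hn h0⟩⟩

section
variable {n r : ℕ} {B : BB n r} {Y : MK B}

/-- the class `v` has a representative bounded below by `-t w` -/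
def Lb (Y : MK B) (w : Fld Y.V) (v : Fin r → ℝ) (t : ℝ) : Prop :=
  ∃ a, Y.C11 a v ∧ ∀ e x, At e x → ((t : ℂ) • w e (e x) + a e (e x)).PosSemidef

variable {s w : Fld Y.V} {p : Fin r → ℂ} {k v v' : Fin r → ℝ} {t t' : ℝ}

theorem Lb.comb (h : LAT) (h1 : Lb Y w v t) (h2 : Lb Y w v' t') {x y : ℝ} (hx : 0 ≤ x)
    (hy : 0 ≤ y) : Lb Y w (x • v + y • v') (x * t + y * t') := by
  obtain ⟨a, ha, ha'⟩ := h1
  obtain ⟨b, hb, hb'⟩ := h2
  refine ⟨_, h.rel.add x y ha hb, fun e z hz => ?_⟩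
  have h3 := ((ha' e z hz).smul (Complex.zero_le_real.2 hx)).add
    ((hb' e z hz).smul (Complex.zero_le_real.2 hy))
  have h4 : ((x * t + y * t' : ℝ) : ℂ) • w e (e z) + ((x : ℂ) • a e (e z) + (y : ℂ) • b e (e z)) =
      (x : ℂ) • ((t : ℂ) • w e (e z) + a e (e z)) + (y : ℂ) • ((t' : ℂ) • w e (e z) + b e (e z)) := by
    push_cast
    module
  rw [h4]
  exact h3

theorem Lb.mono (hw : IsKahler w) (h1 : Lb Y w v t) (ht : t ≤ t') : Lb Y w v t' := by
  obtain ⟨a, ha, ha'⟩ := h1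
  refine ⟨a, ha, fun e z hz => ?_⟩
  have h3 := ((hw.posDef e z hz).posSemidef.smul (Complex.zero_le_real.2 (sub_nonneg.2 ht))).add
    (ha' e z hz)
  have h4 : (t' : ℂ) • w e (e z) + a e (e z) =
      ((t' - t : ℝ) : ℂ) • w e (e z) + ((t : ℂ) • w e (e z) + a e (e z)) := by
    push_cast
    module
  rw [h4]
  exact h3

theorem exists_lb (h : LAT) (H : Y.HK s w p k) (hv : qC B.q p (rc v) = 0) :
    ∃ t : ℝ, 0 < t ∧ Lb Y w v t := by
  obtain ⟨a, ha⟩ := h.hd H v hv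
  obtain ⟨C, hC, h1⟩ := QN.exists_comparison_form (b := fun e z => -a e z) H.2.1.1.toIsHermitian
    (fun e x hx i j => (ha.1.smooth e x hx i j).neg) (fun e x hx => (ha.1.herm e x hx).neg)
    (fun e e' x hx hx' => by
      beta_reduce
      rw [ha.1.form e e' x hx hx', Matrix.mul_neg, Matrix.neg_mul])
  exact ⟨C, hC, a, ha, fun e x hx => by simpa using h1 e x hx⟩

theorem exists_unif (h : LAT) (H : Y.HK s w p k) : ∃ C : ℝ, 0 < C ∧ ∀ v,
    qC B.q p (rc v) = 0 → Lb Y w v (C * ‖v‖) := by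
  let W : Submodule ℝ (Fin r → ℝ) :=
    { carrier := {v | qC B.q p (rc v) = 0}
      add_mem' := fun {a b} ha hb => by
        show qC B.q p (rc (a + b)) = 0
        rw [rc_add, qC_add_r, ha, hb, add_zero]
      zero_mem' := by
        show qC B.q p (rc 0) = 0
        simp [qC, rc]
      smul_mem' := fun c a ha => by
        show qC B.q p (rc (c • a)) = 0
        rw [rc_smul, qC_smul_r, ha, mul_zero] }
  let b := Module.finBasis ℝ W
  have h1 : ∀ i, ∃ t : ℝ, 0 < t ∧ ∀ c : ℝ, Lb Y w (c • (b i : Fin r → ℝ)) (|c| * t) := by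
    intro i
    obtain ⟨t, ht, h2⟩ := exists_lb h H (b i).2
    obtain ⟨t', ht', h3⟩ := exists_lb h H (-b i).2
    refine ⟨t + t', by positivity, fun c => ?_⟩
    rcases le_total 0 c with hc | hc
    · have h4 := h2.comb h h3 hc le_rfl
      rw [zero_smul, add_zero] at h4
      refine h4.mono H.2.1.1 ?_
      rw [abs_of_nonneg hc]
      nlinarith
    · have h4 := h2.comb h h3 le_rfl (neg_nonneg.2 hc)
      rw [zero_smul, zero_add, Submodule.coe_neg, neg_smul_neg] at h4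
      refine h4.mono H.2.1.1 ?_
      rw [abs_of_nonpos hc]
      nlinarith
  choose t ht h1 using h1
  have h2 : ∀ i, ∃ K : ℝ, 0 < K ∧ ∀ v : W, ‖b.coord i v‖ ≤ K * ‖v‖ := fun i =>
    (LinearMap.toContinuousLinearMap (b.coord i)).bound
  choose K hK h2 using h2
  have h0 : Lb Y w 0 0 := by
    obtain ⟨t, -, h3⟩ := exists_lb h H W.zero_mem
    simpa using h3.comb h h3 le_rfl le_rfl
  have h3 : ∀ (c : Fin (Module.finrank ℝ W) → ℝ) (S : Finset (Fin (Module.finrank ℝ W))),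
      Lb Y w (∑ i ∈ S, c i • (b i : Fin r → ℝ)) (∑ i ∈ S, |c i| * t i) := by
    intro c S
    induction S using Finset.induction_on with
    | empty => simpa using h0
    | insert i S hi ih =>
      rw [Finset.sum_insert hi, Finset.sum_insert hi]
      simpa using (h1 i (c i)).comb h ih zero_le_one zero_le_one
  refine ⟨1 + ∑ i, K i * t i,
    add_pos_of_pos_of_nonneg one_pos (Finset.sum_nonneg fun i _ => (mul_pos (hK i) (ht i)).le),
    fun v hv => ?_⟩
  have h4 := h3 (fun i => b.repr ⟨v, hv⟩ i) Finset.univ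
  have h5 : ∑ i, b.repr ⟨v, hv⟩ i • (b i : Fin r → ℝ) = v := by
    have h6 := congrArg W.subtype (b.sum_repr ⟨v, hv⟩)
    rw [map_sum] at h6
    exact h6
  rw [h5] at h4
  refine h4.mono H.2.1.1 ?_
  rw [add_mul, Finset.sum_mul]
  refine le_add_of_nonneg_of_le (by positivity) (Finset.sum_le_sum fun i _ => ?_)
  have h6 : |b.repr ⟨v, hv⟩ i| ≤ K i * ‖v‖ := h2 i ⟨v, hv⟩
  have h7 := ht i
  nlinarith

end

theorem nefl_of (h : LAT) : NEFL := by
  intro n r B Y s w p k H ι L ρ l hl hK ε hε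
  obtain ⟨C, hC, h1⟩ := exists_unif h H
  have hπ : 0 < 2 * Real.pi := by positivity
  obtain ⟨w', κ, c, hc, hw', h2⟩ := hK (ε / (C * (2 * Real.pi))) (by positivity)
  have h3 : qC B.q p (rc ((-(2 * Real.pi)) • (c • κ - zr l))) = 0 := by
    rw [rc_smul, qC_smul_r, sub_eq_add_neg, rc_add, qC_add_r, rc_smul, qC_smul_r,
      h.rel.p11 H.1.1 hw'.2, ← neg_one_smul ℝ (zr l), rc_smul, qC_smul_r, per_l h H hl]
    simp
  have h4 : C * ‖(-(2 * Real.pi)) • (c • κ - zr l)‖ ≤ ε := by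
    rw [norm_smul, norm_neg, Real.norm_of_nonneg hπ.le, ← mul_assoc]
    rw [lt_div_iff₀ (by positivity)] at h2
    linarith
  obtain ⟨a, ha, ha'⟩ := (h1 _ h3).mono H.2.1.1 h4
  have h5 := h.rel.add (2 * Real.pi * c) 1 hw'.2 ha
  have h6 : (2 * Real.pi * c) • κ + (1 : ℝ) • ((-(2 * Real.pi)) • (c • κ - zr l)) =
      (2 * Real.pi) • zr l := by module
  rw [h6] at h5
  obtain ⟨u, hu, h7⟩ := h.ddc H.2.1 H.2.2 h5 hl.2
  refine ⟨u, hu, fun e x hx => ?_⟩
  have h8 := ((hw'.1.posDef e x hx).posSemidef.smul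
    (Complex.zero_le_real.2 (mul_pos hπ hc).le)).add (ha' e x hx)
  have h9 := h7 e x hx
  beta_reduce at h9
  have h10 : curvature L ρ e (e x) + (ε : ℂ) • w e (e x) + Vale.Agent.P301.H599.ddc u e (e x) =
      ((2 * Real.pi * c : ℝ) : ℂ) • w' e (e x) + ((ε : ℂ) • w e (e x) + a e (e x)) := by
    rw [add_right_comm, ← h9, Complex.ofReal_one, one_smul]
    abel
  rw [h10]
  exact h8

end Vale.Agent.P301Z.Lat
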