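import Vale.Agent.P301Z.Lat.C1a

/-!
# P301, block LAT: the first Chern class is integral
-/

open scoped Manifold ContDiff ComplexOrder Topology Matrix
open Filter Set Metric
open Vale.Agent.P272.K Vale.Agent.P299.IX Vale.Agent.P299.IX.Fock
open Vale.Agent.P281Z (Mf)
open Vale.Agent.P281Z.Hg
open Vale.Agent.P301.H599 (LineBundle IsMetric curvature)

noncomputable section

namespace Vale.Agent.P301Z.Lat

namespace C1

variable {d : ℕ} {V : Mf d} {ι : Type} (L : LineBundle d V.X ι)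

/-- a logarithm of the transition function near `p` -/
def lg (i j : ι) (p z : V.X) : ℂ := Complex.log (L.g i j z / L.g i j p) + Complex.log (L.g i j p)

/-- the transition function is almost constant -/
def Cls (i j : ι) (p z : V.X) : Prop :=
  z ∈ L.U i ∧ z ∈ L.U j ∧ p ∈ L.U i ∧ p ∈ L.U j ∧ ‖L.g i j z / L.g i j p - 1‖ < 1 / 2

variable {L} {i j : ι} {p z : V.X}

theorem g_cont (hi : z ∈ L.U i) (hj : z ∈ L.U j) : ContinuousAt (L.g i j) z := by
  have h := at_chart z
  refine ((L.holo i j _ z h hi hj).continuousAt.comp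
    ((chartAt (Cm d) z).continuousAt h.2)).congr ?_
  filter_upwards [(chartAt (Cm d) z).eventually_left_inverse h.2] with y hy
  exact congrArg (L.g i j) hy

theorem Cls.ev (hi : p ∈ L.U i) (hj : p ∈ L.U j) : ∀ᶠ z in 𝓝 p, Cls L i j p z := by
  have h := (((g_cont hi hj).div_const (L.g i j p)).sub continuousAt_const (g := fun _ => 1)).norm
  filter_upwards [(L.isOpen i).mem_nhds hi, (L.isOpen j).mem_nhds hj, h.eventually
    (gt_mem_nhds (a := 1 / 2) (by simp [div_self (L.ne_zero i j p hi hj)]))] with z h1 h2 h3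
  exact ⟨h1, h2, hi, hj, h3⟩

theorem Cls.exp (h : Cls L i j p z) : Complex.exp (lg L i j p z) = L.g i j z := by
  have h1 := L.ne_zero i j p h.2.2.1 h.2.2.2.1
  rw [lg, Complex.exp_add, Complex.exp_log h1,
    Complex.exp_log (div_ne_zero (L.ne_zero i j z h.1 h.2.1) h1), div_mul_cancel₀ _ h1]

theorem Cls.an (h : Cls L i j p z) {e : Chart d V.X} (he : At e z) :
    AnalyticAt ℂ (fun w => lg L i j p (e.symm w)) (e z) := by
  refine AnalyticAt.add (AnalyticAt.clog ((L.holo i j e z he h.1 h.2.1).div_const) ?_)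
    analyticAt_const
  rw [he.left_inv, ← add_sub_cancel 1 (L.g i j z / L.g i j p)]
  exact Complex.mem_slitPlane_of_norm_lt_one (h.2.2.2.2.trans (by norm_num))

theorem Cls.osc {z' : V.X} (h : Cls L i j p z) (h' : Cls L i j p z') :
    ‖lg L i j p z - lg L i j p z'‖ ≤ 3 / 2 := by
  have key : ∀ y, Cls L i j p y → ‖Complex.log (L.g i j y / L.g i j p)‖ ≤ 3 / 4 := fun y hy => by
    have := Complex.norm_log_one_add_half_le_self hy.2.2.2.2.le
    rw [add_sub_cancel] at this
    linarith [hy.2.2.2.2]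
  rw [lg, lg, add_sub_add_right_eq_sub]
  linarith [norm_sub_le (Complex.log (L.g i j z / L.g i j p)) (Complex.log (L.g i j z' / L.g i j p)),
    key z h, key z' h']

theorem int_const {Y : Type} {S : Y → Prop} {h : Y → ℂ} (h1 : ∀ y, S y → Complex.exp (h y) = 1)
    (h2 : ∀ y y', S y → S y' → ‖h y - h y'‖ ≤ 9 / 2) :
    ∃ n : ℤ, ∀ y, S y → h y = n * (2 * Real.pi * Complex.I) := by
  by_cases h0 : ∃ y, S y
  · obtain ⟨y₀, hy₀⟩ := h0
    obtain ⟨n, hn⟩ := Complex.exp_eq_one_iff.1 (h1 y₀ hy₀)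
    refine ⟨n, fun y hy => ?_⟩
    obtain ⟨m, hm⟩ := Complex.exp_eq_one_iff.1 (h1 y hy)
    have h3 := h2 y y₀ hy hy₀
    rw [hm, hn, ← sub_mul, ← Int.cast_sub, norm_mul, Complex.norm_intCast] at h3
    have h4 : ‖(2 * Real.pi * Complex.I : ℂ)‖ = 2 * Real.pi := by simp [Real.pi_pos.le]
    have h5 : |m - n| < 1 := by
      have : |((m - n : ℤ) : ℝ)| < 1 := by
        rw [h4] at h3
        nlinarith [Real.pi_gt_three, abs_nonneg ((m - n : ℤ) : ℝ)]
      exact_mod_cast this
    rw [hm, sub_eq_zero.1 (Int.abs_lt_one_iff.1 h5)]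
  · exact ⟨0, fun y hy => absurd ⟨y, hy⟩ h0⟩

variable (L) in
theorem scales : letI := ms V; ∃ (ε : ℝ) (i : V.X → ι) (p : V.X → V.X) (W O : V.X → Set V.X),
    0 < ε ∧ (∀ x, IsOpen (W x)) ∧ (∀ x, ball x ε ⊆ O x) ∧ (∀ x, O x ⊆ W x) ∧
    (∀ x y, dist x y < 2 * ε → ∀ z ∈ W x, Cls L (i y) (i x) (p x) z) ∧ ∀ x, ∀ f : V.X → ℂ,
      (∀ y ∈ W x, ∀ e : Chart d V.X, At e y → ContDiffAt ℝ ∞ (fun z => f (e.symm z)) (e y)) →
      ∃ v : Fs V, (dR V).dg 0 v = v ∧ ∀ y ∈ O x, ∀ e : Chart d V.X, At e y →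
        vl v e =ᶠ[𝓝 (e y)] fun z => f (e.symm z) • ev ∅ := by
  let _ := ms V
  obtain ⟨t, ht⟩ := isCompact_univ.elim_finite_subcover L.U L.isOpen
    fun x _ => mem_iUnion.2 (L.cover x)
  obtain ⟨r, hr, h1⟩ := lebesgue_number_lemma_of_metric (c := fun i : t => L.U i) isCompact_univ
    (fun i => L.isOpen i) fun x hx => by simpa using ht hx
  choose i hi using fun x => h1 x (mem_univ x)
  have h2 : ∀ p : V.X, ∀ᶠ z in 𝓝 p, z ∈ ball p (r / 2) ∧
      ∀ a b : t, p ∈ L.U a → p ∈ L.U b → Cls L a b p z := fun p =>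
    Eventually.and (ball_mem_nhds p (half_pos hr))
      (eventually_all.2 fun a => eventually_all.2 fun b => eventually_imp_distrib_left.2
        fun ha => eventually_imp_distrib_left.2 fun hb => Cls.ev ha hb)
  choose W hW hWo hWp using fun p => _root_.eventually_nhds_iff.1 (h2 p)
  choose O hOo hOp hOW hO using fun p => fn p (hWo p) (hWp p)
  obtain ⟨δ, hδ, h3⟩ := lebesgue_number_lemma_of_metric isCompact_univ hOo
    fun x _ => mem_iUnion.2 ⟨x, hOp x⟩
  choose p hp using fun x => h3 x (mem_univ x)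
  have h4 : ∀ x y, dist x y < r / 2 → p x ∈ L.U (i y) := fun x y h => hi y (by
    have := (hW _ x (hOW _ (hp x (mem_ball_self hδ)))).1
    rw [mem_ball] at this ⊢
    linarith [dist_triangle_left (p x) y x])
  refine ⟨min δ (r / 4), fun x => i x, p, fun x => W (p x), fun x => O (p x), by positivity,
    fun x => hWo _, fun x => (ball_subset_ball (min_le_left _ _)).trans (hp x), fun x => hOW _,
    fun x y h z hz => (hW _ z hz).2 _ _ (h4 x y ?_) (h4 x x (by simpa using hr)), fun x => hO _⟩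
  linarith [min_le_right δ (r / 4)]

/-- the zigzag -/
def gam {Y S : Type} [Zero S] (α : S) (G : Y → S) (H : Y → Y → S) : List Y → S
  | [] => α
  | [x] => G x
  | [x, y] => H x y
  | _ => 0

/-- the cochain -/
def coc {Y : Type} (n : Y → Y → Y → ℤ) : List Y → ℤ
  | [x, y, z] => n x y z
  | _ => 0

end C1

open C1

theorem c1i_of (_a : PWA) (h11 : D11) : C1I := by
  intro d V ι L ρ u hρ hu
  let _ := ms V
  obtain ⟨ε, i, p, W, O, hε, hWo, hO, hOW, hC, hF⟩ := scales L
  obtain ⟨hR, hcurv⟩ := h11.curv hρ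
  have hcl := (h11.cl hR hu).1.smul ((2 * Real.pi : ℝ) : ℂ)⁻¹
  have hd : ∀ {x y w : V.X}, dist x w < ε → dist y w < ε → dist x y < 2 * ε := fun hx hy => by
    linarith [dist_triangle_right _ _ _ |>.trans_lt (add_lt_add hx hy)]
  have hm : ∀ {x w : V.X}, dist x w < ε → w ∈ O x := fun h => hO _ (mem_ball'.2 h)
  have hU : ∀ x, ∀ w ∈ W x, w ∈ L.U (i x) := fun x w hw =>
    (hC x x (by simpa using hε) w hw).1
  obtain ⟨P, hP⟩ := (g1T d V.X).op (fun _ _ => pm d 1) ⟨fun _ _ _ => MC_const _ _,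
    fun e e' x h h' => by rw [(g1T d V.X).jt_eq e e' x h h', f1b.pm_blk]⟩
  choose R hR0 hRv using fun x => hF x (fun y => (ρ (i x) y : ℂ)) fun y hy e he =>
    C2.contDiffAt_ofReal (hρ.smooth _ e y he (hU x y hy))
  have hH : ∀ x y, ∃ v : Fs V, (dR V).dg 0 v = v ∧ (dist x y < 2 * ε → ∀ w ∈ O x,
      ∀ e : Chart d V.X, At e w →
        vl v e =ᶠ[𝓝 (e w)] fun z => lg L (i y) (i x) (p x) (e.symm z) • ev ∅) := fun x y => by
    by_cases h : dist x y < 2 * ε
    · obtain ⟨v, h1, h2⟩ := hF x (lg L (i y) (i x) (p x)) fun w hw e he =>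
        (((hC x y h w hw).an he).contDiffAt.restrict_scalars ℝ)
      exact ⟨v, h1, fun _ => h2⟩
    · exact ⟨0, map_zero _, fun h' => absurd h' h⟩
  choose H hH0 hHv using hH
  have hG : ∀ x, ∀ w ∈ O x, ∀ e : Chart d V.X, At e w → vl (P ((dR V).d (R x))) e =ᶠ[𝓝 (e w)]
      del fun z => (ρ (i x) (e.symm z) : ℂ) := fun x w hw e he => by
    have h1 := C2.contDiffAt_ofReal (hρ.smooth _ e w he (hU x w (hOW x hw)))
    filter_upwards [(hRv x w hw e he).eventuallyEq_nhds, (h1.of_le (by simp) :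
      ContDiffAt ℝ 1 _ _).eventually (by simp), G2H.ev_at he (P := fun z =>
        vl (P ((dR V).d (R x))) e z = pm d 1 *ᵥ dT (vl (R x) e) z) (.of_forall fun y hy => (hP ((dR V).d (R x)) e y hy).trans
          (congrArg (pm d 1 *ᵥ ·) ((dR_real V).d (R x) e y hy)))] with z h2 h3 h4
    rw [h4, k1aT.congr h2, pm_dT (h3.differentiableAt one_ne_zero)]
  have hG1 : ∀ x, (dR V).dg 1 (P ((dR V).d (R x))) = P ((dR V).d (R x)) := fun x => by
    have h1 : (dR V).dg 1 ((dR V).d (R x)) = (dR V).d (R x) :=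
      (LinearMap.congr_fun ((dR_ok V).dg_d 0) (R x)).trans (congrArg (dR V).d (hR0 x))
    refine ext_F fun e y hy => ?_
    rw [(dR_real V).dg 1 _ e y hy, hP _ e y hy, Matrix.mulVec_mulVec, ← f1b.pm_dg,
      ← Matrix.mulVec_mulVec, ← (dR_real V).dg 1 _ e y hy, h1]
  choose n hn using fun x y z => int_const
    (S := fun w => dist x w < ε ∧ dist y w < ε ∧ dist z w < ε)
    (h := fun w => lg L (i z) (i y) (p y) w - lg L (i z) (i x) (p x) w + lg L (i y) (i x) (p x) w)
    (fun w hw => by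
      have h1 := hC y z (hd hw.2.1 hw.2.2) w (hOW _ (hm hw.2.1))
      have h2 := hC x z (hd hw.1 hw.2.2) w (hOW _ (hm hw.1))
      have h3 := hC x y (hd hw.1 hw.2.1) w (hOW _ (hm hw.1))
      rw [Complex.exp_add, Complex.exp_sub, h1.exp, h2.exp, h3.exp, div_mul_eq_mul_div,
        L.cocycle _ _ _ w h1.1 h1.2.1 h2.2.1, div_self (L.ne_zero _ _ w h1.1 h2.2.1)])
    fun w w' hw hw' => by
      have h1 := (hC y z (hd hw.2.1 hw.2.2) w (hOW _ (hm hw.2.1))).osc
        (hC y z (hd hw.2.1 hw.2.2) w' (hOW _ (hm hw'.2.1)))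
      have h2 := (hC x z (hd hw.1 hw.2.2) w (hOW _ (hm hw.1))).osc
        (hC x z (hd hw.1 hw.2.2) w' (hOW _ (hm hw'.1)))
      have h3 := (hC x y (hd hw.1 hw.2.1) w (hOW _ (hm hw.1))).osc
        (hC x y (hd hw.1 hw.2.1) w' (hOW _ (hm hw'.1)))
      rw [add_sub_add_comm, sub_sub_sub_comm]
      linarith [(norm_add_le _ _).trans (add_le_add ((norm_sub_le _ _).trans (add_le_add h1 h2)) h3)]
  have hπ : ((2 * Real.pi : ℝ) : ℂ) ≠ 0 := Complex.ofReal_ne_zero.2 Real.two_pi_pos.ne'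
  set c : ℂ := -Complex.I * ((2 * Real.pi : ℝ) : ℂ)⁻¹ with hc
  refine ⟨ε, hε, coc n, gam _ (fun x => c • P ((dR V).d (R x))) fun x y => c • H x y, rfl,
    fun l j h => ?_, fun l h => ?_, fun l h => ?_⟩
  · rcases l with _ | ⟨x, _ | ⟨y, _ | ⟨z, l⟩⟩⟩
    · obtain rfl : j = 2 := by simpa using h
      exact hcl.2
    · obtain rfl : j = 1 := by simp at h; omega
      exact (map_smul _ _ _).trans (congrArg (c • ·) (hG1 x))
    · obtain rfl : j = 0 := by simpa using h
      exact (map_smul _ _ _).trans (congrArg (c • ·) (hH0 x y))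
    · exact map_zero _
  · rcases l with _ | ⟨x, _ | ⟨y, _ | ⟨z, l⟩⟩⟩
    · intro w _
      simp only [gam, dl, hcl.1, sub_zero]
      exact zero_mem _
    · intro w hw e he
      have hx := hm (hw x (by simp))
      simp only [gam, dl, sub_zero, map_smul]
      rw [vl_sub, vl_smul, vl_smul, (dR_real V).d _ e w he, k1aT.congr (hG x w hx e he),
        dT_del (hρ.smooth _ e w he (hU x w (hOW x hx))), hu.val he,
        hcurv (i x) e w he (hU x w (hOW x hx)), smul_smul, hc, mul_right_comm, neg_mul,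
        Complex.I_mul_I, neg_neg, one_mul]
      exact sub_self _
    · intro w hw e he
      have hx := hw x (by simp)
      have hy := hw y (by simp)
      have h1 := hC x y (hd hx hy) w (hOW _ (hm hx))
      have h2 := (h1.an he).differentiableAt
      simp only [gam, dl, sub_zero, map_smul, ← smul_sub]
      rw [vl_smul, vl_sub, vl_sub, (dR_real V).d _ e w he,
        k1aT.congr (hHv x y (hd hx hy) w (hm hx) e he), dT_hol h2,
        (hG x w (hm hx) e he).self_of_nhds, (hG y w (hm hy) e he).self_of_nhds,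
        del_sub (hρ.smooth _ e w he h1.1) (hρ.smooth _ e w he h1.2.1) h2, sub_self, smul_zero]
      refine G2H.ev_at he (((hWo x).eventually_mem (hOW _ (hm hx))).mono fun v hv hev => ?_)
      have h3 := hC x y (hd hx hy) v hv
      rw [hev.left_inv, h3.exp, hρ.change _ _ v h3.1 h3.2.1]
    · simp at h
  · rcases l with _ | ⟨x, _ | ⟨y, _ | ⟨z, _ | ⟨z', l⟩⟩⟩⟩ <;> try (simp at h; done)
    intro w hw e he
    have hx := hw x (by simp)
    have hy := hw y (by simp)
    have hz := hw z (by simp)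
    have h1 := hn x y z w ⟨hx, hy, hz⟩
    simp only [gam, dl, sub_zero, zl, coc]
    rw [vl_sub, vl_sub, vl_sub, vl_smul, vl_smul, vl_smul, vl_smul,
      (hHv x y (hd hx hy) w (hm hx) e he).self_of_nhds,
      (hHv x z (hd hx hz) w (hm hx) e he).self_of_nhds,
      (hHv y z (hd hy hz) w (hm hy) e he).self_of_nhds, show vl (lc V).one e (e w) = ev ∅ from
        oneF_spec V e w he]
    simp only [he.left_inv, smul_smul, ← sub_smul]
    rw [← mul_sub, ← mul_sub, ← sub_add, h1, hc]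
    push_cast at hπ ⊢
    field_simp
    simp

end Vale.Agent.P301Z.Lat
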