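import Vale.Agent.P301Z.Lat.Pk
import Vale.Agent.P277.H60.L.Dolb

/-!
# P301, block LAT: holomorphic two-forms (row D20)
-/

open scoped Manifold ContDiff ComplexOrder Topology Matrix
open Vale.Agent.P272.K Vale.Agent.P299.IX Vale.Agent.P299.IX.Fock
open Vale.Agent.P281Z (Mf)
open Vale.Agent.P281Z.Hg
open Vale.Agent.P301.H599 (IsHolTwoForm)

noncomputable section

namespace Vale.Agent.P301Z.Lat

namespace D20A

variable {d : ℕ}

theorem dv_fix (A : Fm d) {u : Cm d → Fo d} {z : Cm d} (hu : DifferentiableAt ℝ u z)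
    (h : ∀ᶠ y in 𝓝 z, A *ᵥ u y = u y) (c : Fin (d + d)) : A *ᵥ Dv c u z = Dv c u z := by
  rw [← k1aT.Dv_mul A c hu]
  exact Ka.Dv_congr h

theorem pm_dT {u : Cm d → Fo d} {z : Cm d} (hu : DifferentiableAt ℝ u z)
    (h : ∀ᶠ y in 𝓝 z, pm d 2 *ᵥ u y = u y) :
    pm d 2 *ᵥ dT u z = ∑ j, eps (ah j) *ᵥ Dv (ah j) u z := by
  rw [dT, Ka.sum_idx, Matrix.mulVec_add, Matrix.mulVec_sum, Matrix.mulVec_sum,
    Finset.sum_eq_zero, zero_add]
  · refine Finset.sum_congr rfl fun j _ => ?_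
    rw [Matrix.mulVec_mulVec, f1b.pm_ah, ← Matrix.mulVec_mulVec, dv_fix _ hu h]
  · intro j _
    rw [Matrix.mulVec_mulVec, f1b.pm_hl d 1, ← Matrix.mulVec_mulVec, ← dv_fix _ hu h,
      Matrix.mulVec_mulVec _ (pm d 1), f1b.pm_mul, if_neg (by norm_num), Matrix.zero_mulVec,
      Matrix.mulVec_zero]

theorem hl_ne (i j : Fin d) : ah i ≠ hl j := fun h => by
  have := congrArg Fin.val h
  have := j.2
  simp only [ah, hl, Fin.val_natAdd, Fin.val_castAdd] at *
  omega

theorem iot_eps {n : ℕ} (k l : Fin n) (v : Fk n) :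
    iot k *ᵥ (eps l *ᵥ v) = (if k = l then v else 0) - eps l *ᵥ (iot k *ᵥ v) := by
  rw [eq_sub_iff_add_eq, Matrix.mulVec_mulVec, Matrix.mulVec_mulVec, ← Matrix.add_mulVec, car]
  split_ifs
  · exact Matrix.one_mulVec v
  · exact Matrix.zero_mulVec v

theorem iot_f20 (a : PWA) (l : Fin d) (S : Mx d) : iot (ah l) *ᵥ f20 S = 0 := by
  simp only [a.f20_sum, Matrix.mulVec_sum, Matrix.mulVec_smul, iot_eps, if_neg (hl_ne _ _),
    iot_ev_empty, Matrix.mulVec_zero, sub_zero, smul_zero, Finset.sum_const_zero]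

theorem an_f20 (a : PWA) {s : Cm d → Mx d} {z : Cm d}
    (h : ∀ i j, AnalyticAt ℂ (fun y => s y i j) z) (I : FI (d + d)) :
    AnalyticAt ℂ (fun y => f20 (s y) I) z := by
  simp only [a.f20_sum, Finset.sum_apply, Pi.smul_apply, smul_eq_mul]
  exact Finset.analyticAt_fun_sum _ fun i _ => Finset.analyticAt_fun_sum _ fun j _ =>
    ((h i j).div analyticAt_const two_ne_zero).mul analyticAt_const

theorem an_mul (A : Fm d) {u : Cm d → Fo d} {z : Cm d}
    (h : ∀ I, AnalyticAt ℂ (fun y => u y I) z) (I : FI (d + d)) :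
    AnalyticAt ℂ (fun y => (A *ᵥ u y) I) z := by
  simp only [Matrix.mulVec, dotProduct]
  exact Finset.analyticAt_fun_sum _ fun J _ => analyticAt_const.mul (h J)

variable {V : Mf d}

theorem ev {P : Chart d V.X → Cm d → Prop} (h : ∀ e x, At e x → P e (e x)) {e : Chart d V.X}
    {x : V.X} (hx : At e x) : ∀ᶠ y in 𝓝 (e x), P e y := by
  filter_upwards [e.open_target.mem_nhds (e.map_source hx.2)] with y hy
  have := h e _ (G1H.at_tg hx.1 hy)
  rwa [e.right_inv hy] at this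

theorem df (u : Fs V) {e : Chart d V.X} {x : V.X} (hx : At e x) :
    DifferentiableAt ℝ (vl u e) (e x) :=
  ((vl_isF u).sm e x hx).differentiableAt (by simp)

theorem nrm0 {w : Fld V} {K : KP (dR V)} (P : Pack V w K) {u : Fs V} (h : K.nrm u ^ 2 = 0) :
    u = 0 := by
  refine P.ok.alg.defn u (Complex.ext (P.kib.sq u ▸ h) ?_)
  exact Complex.conj_eq_iff_im.1 (P.ok.alg.herm u u).symm

theorem harm (a : PWA) {w s : Fld V} {K : KP (dR V)} (P : Pack V w K) (hs : IsHolTwoForm s)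
    {u : Fs V} (hu : Is20 s u) : Cl2 V u ∧ K.ds u = 0 := by
  have ap : ∀ {A B : Module.End ℂ (Fs V)}, A = B → ∀ v, A v = B v := fun h v => by rw [h]
  have h1 : (dR V).dg 2 u = u := ext_F fun e x hx => by
    rw [(dR_real V).dg 2 u e x hx, hu e x hx, a.dg20]
  have h2 : K.pr 2 u = u := ext_F fun e x hx => by
    rw [P.rk.pr 2 u e x hx, hu e x hx, a.pm20]
  have h3 : K.pr 2 ((dR V).d u) = 0 := ext_F fun e x hx => by
    have k : ∀ᶠ y in 𝓝 (e x), vl u e y = f20 (s e y) := ev (P := fun e y => vl u e y = f20 (s e y))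
      hu hx
    rw [P.rk.pr 2 _ e x hx, (dR_real V).d u e x hx, pm_dT (df u hx)
      (k.mono fun y hy => by rw [hy, a.pm20]), vl_zero]
    refine Finset.sum_eq_zero fun j _ => ?_
    have : Dv (ah j) (vl u e) (e x) = 0 := by
      rw [Ka.Dv_congr k]
      funext I
      rw [Dv, k1aT.dr_ah]
      exact Kb.dzb_hol (an_f20 a (hs.holo e x hx) I).differentiableAt j
    rw [this, Matrix.mulVec_zero]
  have h4 : K.pr 1 u = 0 := by
    rw [← h2]
    simpa using ap (P.ok.alg.pr_mul 1 2) u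
  have h5 : K.Ab u = 0 := by
    have e1 := ap (P.kia.prA 1) u
    have e2 := ap (P.kia.prAb 2) u
    simp only [Module.End.mul_apply, h2, h4, map_zero] at e1 e2
    rwa [P.kia.d_eq, LinearMap.add_apply, map_add, e1, e2, zero_add] at h3
  have h6 : K.Abs u = 0 := by
    have e1 := ap (P.kib.prAbs 2) u
    have e2 := ap (P.kib.dgAbs 1) u
    have e3 := ap (P.ok.alg.pr_lt 2 1 one_lt_two) (K.Abs u)
    simp only [Module.End.mul_apply, h1, h2, LinearMap.zero_apply] at e1 e2 e3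
    rwa [e2, e1] at e3
  have h0 : K.nrm 0 = 0 := by simpa using P.kib.smul 0 0
  have h7 := P.kib.lapAb u
  rw [h5, h6, h0] at h7
  have p1 := sq_nonneg (K.nrm ((dR V).d u))
  have p2 := sq_nonneg (K.nrm (K.ds u))
  exact ⟨⟨nrm0 P (by linarith), h1⟩, nrm0 P (by linarith)⟩

end D20A

open D20A in
/-- row D20 -/
theorem d20_of (a : PWA) : D20 where
  ex {d V s} hs := by
    obtain ⟨u, hu⟩ := (g1T d V.X).mkf (fun e z => f20 (s e z))
      (fun e x hx => contDiffAt_pi.2 fun I =>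
        ((an_f20 a (hs.holo e x hx) I).contDiffAt (n := ∞)).restrict_scalars ℝ)
      fun e e' x hx hx' => by
        rw [(g1T d V.X).jt_eq e e' x hx hx', a.blk20, hs.change e e' x hx hx',
          Matrix.transpose_transpose]
    exact ⟨u, fun e x hx => (hu e x hx).self_of_nhds⟩
  cl hV hs hu := by
    obtain ⟨w, hw⟩ := hV
    obtain ⟨K, P⟩ := exists_pack _ hw
    exact (harm a P hs hu).1
  of {d V u} hu ht := by
    have h1 : ∀ e x, At e x → vl u e (e x) = f20 (m20 (vl u e (e x))) := fun e x hx => by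
      rw [← a.inv20 _ (hu.dg hx), ht e x hx]
    have h2 : ∀ e x, At e x → DifferentiableAt ℝ (vl u e) (e x) ∧
        ∀ l, Dv (ah l) (vl u e) (e x) = 0 := fun e x hx => ⟨df u hx, fun l => by
      have p := ev (P := fun e y => pm d 2 *ᵥ vl u e y = vl u e y) ht hx
      have q := ev (P := fun e y => dg 2 *ᵥ vl u e y = vl u e y) (fun e x hx => hu.dg hx) hx
      have k := pm_dT (df u hx) p
      rw [← (dR_real V).d u e x hx, hu.1, vl_zero, Matrix.mulVec_zero] at k
      have r : ∀ j, iot (ah l) *ᵥ Dv (ah j) (vl u e) (e x) = 0 := fun j => by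
        rw [← dv_fix _ (df u hx) p, a.inv20 _ (dv_fix _ (df u hx) q _), iot_f20 a]
      have := congrArg (iot (ah l) *ᵥ ·) k
      have t : ∀ j, ah l = ah j ↔ l = j := fun j => (Fin.natAdd_injective d d).eq_iff
      simp only [Matrix.mulVec_sum, iot_eps, r, t, Matrix.mulVec_zero, sub_zero,
        Finset.sum_ite_eq, Finset.mem_univ, if_true] at this
      exact this.symm⟩
    refine ⟨fun e z => m20 (vl u e z), ⟨fun e x hx i j => ?_, fun e x _ => a.m20_skew _,
      fun e e' x hx hx' => ?_⟩, h1⟩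
    · refine an_mul _ (an_mul _ fun I => P277.H60.L.analyticAt_of_dzb ?_) ∅
      filter_upwards [ev (P := fun e y => DifferentiableAt ℝ (vl u e) y ∧
        ∀ l, Dv (ah l) (vl u e) y = 0) h2 hx] with y hy
      exact ⟨differentiableAt_pi.1 hy.1 I, fun l => k1aT.dr_ah l ▸ congrFun (hy.2 l) I⟩
    · rw [(vl_isF u).ch e e' x hx hx', (g1T d V.X).jt_eq e e' x hx hx']
      conv_lhs => rw [h1 e' x hx', a.blk20]
      rw [a.m20_f20, Matrix.transpose_transpose]
      rw [Matrix.transpose_mul, Matrix.transpose_mul, a.m20_skew, Matrix.transpose_transpose,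
        Matrix.neg_mul, Matrix.mul_neg, Matrix.mul_assoc]
  zero {d V s u} hV hs hu hx e x h := by
    obtain ⟨w, hw⟩ := hV
    obtain ⟨K, P⟩ := exists_pack _ hw
    obtain ⟨β, -, hb⟩ := hx
    have h0 : u = 0 := P.ok.alg.defn u (by
      conv_lhs => rw [hb]
      rw [P.kia.adjd, ← hb, (harm a P hs hu).2]
      simpa using P.kia.ip_smul_l 0 0 β)
    have h1 := a.f20_smul 0 (0 : Mx d)
    rw [← a.m20_f20 _ (hs.alt e x h), ← hu e x h, h0, vl_zero, ← zero_smul ℂ (f20 (0 : Mx d)),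
      ← h1, a.m20_f20 _ (by simp), zero_smul]

end Vale.Agent.P301Z.Lat
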