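import Vale.Agent.P301Z.Lat.HdSk

/-!
# P301, block LAT: closed square integrable forms of type `(2,0)` are smooth (row HOL2)
-/

open scoped Manifold ContDiff Topology Matrix
open Filter MeasureTheory
open Vale.Agent.P272.K Vale.Agent.P272.K.INT Vale.Agent.P299.IX Vale.Agent.P299.IX.Fock
open Vale.Agent.P281Z.Hg Vale.Agent.P281Z.Hg.G6H

set_option linter.unusedSectionVars false

noncomputable section

namespace Vale.Agent.P301Z.Lat

namespace Hol2X

variable {d : ℕ}

theorem dzb_le' {u : Cm d → Fo d} {z : Cm d} (j : Fin d)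
    (h : ∀ᶠ y in 𝓝 z, ∀ I, ah j ∈ I → u y I = 0) (I : FI (d + d)) :
    ‖dzb j (fun y => u y I) z‖ ≤ ‖dT u z‖ := by
  refine le_trans (le_of_eq ?_) (norm_iot (ah j) _ I)
  have h1 : ∀ c, iot (ah j) *ᵥ Dv c u z = 0 := fun c => by
    ext K
    rw [iot_mulVec, Pi.zero_apply]
    split_ifs
    · rfl
    · have h2 : (fun y => u y (insert (ah j) K)) =ᶠ[𝓝 z] fun _ => 0 :=
        h.mono fun y hy => hy _ (Finset.mem_insert_self _ _)
      refine mul_eq_zero_of_right _ ?_
      induction c using F1bH.idx with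
      | h i => rw [Dv, k1aT.dr_hl, INT.dz_congr h2, P272.K.dz_const]
      | h' i => rw [Dv, k1aT.dr_ah, INT.dzb_congr h2, P272.K.dzb_const]
  have h2 : ∀ c, iot (ah j) *ᵥ (eps c *ᵥ Dv c u z) = if ah j = c then Dv c u z else 0 := fun c => by
    rw [Matrix.mulVec_mulVec, eq_sub_of_add_eq (car (ah j) c), Matrix.sub_mulVec,
      ← Matrix.mulVec_mulVec, h1, Matrix.mulVec_zero, sub_zero]
    split_ifs <;> simp
  rw [dT, Matrix.mulVec_sum, Finset.sum_congr rfl fun c _ => h2 c, Finset.sum_ite_eq,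
    if_pos (Finset.mem_univ _), Dv, k1aT.dr_ah]

theorem van {u : Fo d} (h1 : pm d 2 *ᵥ u = u) (h2 : dg 2 *ᵥ u = u) (j : Fin d) (I : FI (d + d))
    (hI : ah j ∈ I) : u I = 0 := by
  by_contra h0
  have a := congrFun h1 I
  have b := congrFun h2 I
  rw [pm, Matrix.mulVec_diagonal] at a
  rw [dg_mulVec] at b
  have a' : tp I = 2 := by
    by_contra h
    rw [if_neg h, zero_mul] at a
    exact h0 a.symm
  have b' : I.card = 2 := by
    by_contra h
    rw [if_neg h] at b
    exact h0 b.symm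
  exact F1bH.ah_lt j (Finset.card_filter_eq_iff.1 (a'.trans b'.symm) _ hI)

theorem sq_le (u : Fo d) : ‖u‖ ^ 2 ≤ ∑ I, ‖u I‖ ^ 2 := by
  have h : 0 ≤ ∑ I, ‖u I‖ ^ 2 := by positivity
  rw [← Real.le_sqrt (norm_nonneg _) h, pi_norm_le_iff_of_nonneg (Real.sqrt_nonneg _)]
  exact fun I => Real.le_sqrt_of_sq_le
    (Finset.single_le_sum (f := fun I => ‖u I‖ ^ 2) (fun _ _ => by positivity) (Finset.mem_univ I))

variable {M : Type} [TopologicalSpace M] [ChartedSpace (Cm d) M] [T2Space M]
  [CompactSpace M] [IsManifold 𝓘(ℂ, Cm d) ω M]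
  {X : Cx (SF d M) d} {w : Rw d M (Matrix (Fin d) (Fin d) ℂ)} {K : KP X}

theorem chart_lim' (hX : RealX X) (hK : RealK w K) (hl : IsL2 K.nrm)
    (hb : K.KIb) {v : ℕ → SF d M} (hc : K.Cau v) (hd : K.Null fun s => X.d (v s))
    (ht : ∀ s, K.pr 2 (v s) = v s ∧ X.dg 2 (v s) = v s) {e : Chart d M}
    (he : e ∈ atlas (Cm d) M) {L : Set M} (hL : IsCompact L) (hs : L ⊆ e.source)
    (I : FI (d + d)) :
    ∃ f : Cm d → ℂ, DifferentiableOn ℂ f (e.target ∩ e.symm ⁻¹' interior L) ∧
      ∀ K' ⊆ e.target ∩ e.symm ⁻¹' interior L, IsCompact K' →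
        Tendsto (fun s => ∫ z in K', ‖vl (v s) e z I - f z‖ ^ 2) atTop (𝓝 0) := by
  have hcp : IsCompact (e '' L) := hL.image_of_continuousOn (e.continuousOn.mono hs)
  have hsub : e '' L ⊆ e.target := by
    rintro _ ⟨x, hx, rfl⟩
    exact e.map_source (hs hx)
  obtain ⟨C, hC0, hC⟩ := hl.res e he L hL hs
  obtain ⟨f, h3, h4, -⟩ := loc_weyl (U := e.target ∩ e.symm ⁻¹' interior L)
    (e.isOpen_inter_preimage_symm isOpen_interior) hcp
    (fun z hz => ⟨e.symm z, interior_subset hz.2, e.right_inv hz.1⟩) e.open_target hsub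
    (σ := fun s z => vl (v s) e z I) (fun s => contDiffOn_pi.1 (vl_smooth (v s) he) _) (by
      intro ε hε
      obtain ⟨N, hN⟩ := hc (Real.sqrt (ε / (C + 1))) (by positivity)
      refine ⟨N, fun r hr s hs' => lt_of_le_of_lt (le_trans (int_le he hL hs (v r - v s)
        (fun z => by positivity) fun z _ => pow_le_pow_left₀ (norm_nonneg _)
          (norm_le_pi_norm (vl (v r - v s) e z) I) 2) (hC _)) ?_⟩
      have h6 : K.nrm (v r - v s) ^ 2 < ε / (C + 1) :=
        (Real.lt_sqrt (hb.nn _)).1 (hN r hr s hs')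
      rw [lt_div_iff₀ (by positivity)] at h6
      nlinarith [sq_nonneg (K.nrm (v r - v s))]) (by
      intro j
      have h6 := (hd.pow 2).const_mul C
      rw [zero_pow two_ne_zero, mul_zero] at h6
      refine squeeze_zero (fun s => integral_nonneg fun z => by positivity) (fun s => ?_) h6
      refine le_trans (int_le he hL hs (X.d (v s)) (fun z => by positivity) fun z hz => ?_) (hC _)
      refine pow_le_pow_left₀ (norm_nonneg _) ?_ 2
      have h7 := hX.d (v s) e _ (at_symm he hz)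
      rw [e.right_inv hz] at h7
      rw [h7]
      refine dzb_le' j ?_ I
      filter_upwards [e.open_target.mem_nhds hz] with y hy
      have h8 := hK.pr 2 (v s) e _ (at_symm he hy)
      have h9 := hX.dg 2 (v s) e _ (at_symm he hy)
      rw [(ht s).1, e.right_inv hy] at h8
      rw [(ht s).2, e.right_inv hy] at h9
      exact van h8.symm h9.symm j)
  exact ⟨f, h3, h4⟩

theorem main (hX : RealX X) (hK : RealK w K) (hl : IsL2 K.nrm)
    (hb : K.KIb) {v : ℕ → SF d M} (hc : K.Cau v) (hd : K.Null fun s => X.d (v s))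
    (ht : ∀ s, K.pr 2 (v s) = v s ∧ X.dg 2 (v s) = v s) : ∃ σ, K.Null fun s => v s - σ := by
  have g1 := g1T d M
  set P := part d M with hP
  have hcs : ∀ i, IsCompact (tsupport (P.ρ i)) := fun i => (isClosed_tsupport _).isCompact
  choose L hL hL1 hL2 using fun i => exists_compact_between (hcs i) (P.e i).open_source (P.supp i)
  choose f hf1 hf2 using fun i I => chart_lim' hX hK hl hb hc hd ht (P.mem i) (hL i) (hL2 i) I
  have hU : ∀ i, IsOpen ((P.e i).target ∩ (P.e i).symm ⁻¹' interior (L i)) := fun i =>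
    (P.e i).isOpen_inter_preimage_symm isOpen_interior
  have hex : ∀ i, ∃ σ : SF d M, (∀ z ∈ (P.e i).target, vl σ (P.e i) z =
      fun I => (P.ρ i ((P.e i).symm z) : ℂ) * f i I z) ∧
      ∀ x, x ∉ tsupport (P.ρ i) → σ ∈ ZP x := by
    intro i
    refine g1.loc (P.e i) _ _ (P.mem i) (hcs i) (P.supp i) (fun z hz => ?_) fun z hz hz' => ?_
    · refine ContDiffAt.contDiffWithinAt ?_
      by_cases h : (P.e i).symm z ∈ tsupport (P.ρ i)
      · have h3 := P.smooth i (P.e i) _ (at_symm (P.mem i) hz)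
        rw [(P.e i).right_inv hz] at h3
        refine contDiffAt_pi.2 fun I => ?_
        have h4 : ContDiffAt ℂ ∞ (f i I) z :=
          (Vale.Agent.P268.analyticOnNhd_of_differentiableOn (hU i) (hf1 i I) z
            ⟨hz, hL1 i h⟩).contDiffAt
        exact (Complex.ofRealCLM.contDiff.contDiffAt.comp z h3).mul (h4.restrict_scalars ℝ)
      · refine (contDiffAt_const (c := (0 : Fo d))).congr_of_eventuallyEq ?_
        filter_upwards [((P.e i).continuousAt_symm hz).eventually
          ((isClosed_tsupport (P.ρ i)).isOpen_compl.mem_nhds h)] with y hy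
        funext I
        rw [image_eq_zero_of_notMem_tsupport hy, Complex.ofReal_zero, zero_mul, Pi.zero_apply]
    · funext I
      rw [image_eq_zero_of_notMem_tsupport fun h => hz' ⟨_, h, (P.e i).right_inv hz⟩,
        Complex.ofReal_zero, zero_mul, Pi.zero_apply]
  choose σ hσ1 hσ2 using hex
  choose T hT using fun i => g1.op _ (g1.fn (P.ρ i) (P.smooth i))
  have hTv : ∀ i u (e : Chart d M) x, At e x →
      vl (T i u) e (e x) = (P.ρ i x : ℂ) • vl u e (e x) := by
    intro i u e x hx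
    rw [hT i u e x hx]
    beta_reduce
    rw [e.left_inv hx.2, Matrix.smul_mulVec, Matrix.one_mulVec]
  have hsum : ∀ u, ∑ i, T i u = u := by
    intro u
    refine g1.ext _ _ fun x => ⟨chartAt (Cm d) x, ⟨chart_mem_atlas _ x, mem_chart_source _ x⟩, ?_⟩
    rw [vl_sum, Finset.sum_congr rfl fun i _ => hTv i u _ x
      ⟨chart_mem_atlas _ x, mem_chart_source _ x⟩, ← Finset.sum_smul, ← Complex.ofReal_sum, P.sum,
      Complex.ofReal_one, one_smul]
  have hρ1 : ∀ i x, ‖(P.ρ i x : ℂ)‖ ≤ 1 := by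
    intro i x
    rw [Complex.norm_real, Real.norm_of_nonneg (P.nonneg i x), ← P.sum x]
    exact Finset.single_le_sum (fun j _ => P.nonneg j x) (Finset.mem_univ i)
  have hpiece : ∀ i, Tendsto (fun s => K.nrm (T i (v s) - σ i)) atTop (𝓝 0) := by
    intro i
    obtain ⟨C, hC0, hC⟩ := hl.ext (P.e i) (P.mem i) _ (hcs i) (P.supp i)
    have hc' : IsCompact (P.e i '' tsupport (P.ρ i)) :=
      (hcs i).image_of_continuousOn ((P.e i).continuousOn.mono (P.supp i))
    have hsub : P.e i '' tsupport (P.ρ i) ⊆ (P.e i).target ∩ (P.e i).symm ⁻¹' interior (L i) := by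
      rintro _ ⟨x, hx, rfl⟩
      refine ⟨(P.e i).map_source (P.supp i hx), ?_⟩
      rw [Set.mem_preimage, (P.e i).left_inv (P.supp i hx)]
      exact hL1 i hx
    have hlim := tendsto_finsetSum Finset.univ fun I _ => hf2 i I _ hsub hc'
    rw [Finset.sum_const_zero] at hlim
    refine tendsto_of_sq (C := C) (fun s => hb.nn _) (fun s => ?_) hlim
    refine (hC _ fun x hx => Submodule.sub_mem _ (fun e he => ?_) (hσ2 i x hx)).trans ?_
    · rw [hTv i _ e x he, image_eq_zero_of_notMem_tsupport hx, Complex.ofReal_zero, zero_smul]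
    · refine mul_le_mul_of_nonneg_left ?_ hC0
      have hint : ∀ I, IntegrableOn (fun z => ‖vl (v s) (P.e i) z I - f i I z‖ ^ 2)
          (P.e i '' tsupport (P.ρ i)) := fun I => ContinuousOn.integrableOn_compact hc'
        (((((contDiffOn_pi.1 (vl_smooth (v s) (P.mem i)) I).continuousOn.mono
          fun z hz => (hsub hz).1).sub ((hf1 i I).continuousOn.mono hsub)).norm).pow 2)
      rw [← integral_finsetSum _ fun I _ => hint I]
      refine integral_mono_of_nonneg (Eventually.of_forall fun z => by positivity)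
        (integrable_finsetSum _ fun I _ => hint I)
        ((ae_restrict_iff' hc'.measurableSet).2 (Eventually.of_forall fun z hz => ?_))
      have hz1 := (hsub hz).1
      have h3 := hTv i (v s) (P.e i) _ (at_symm (P.mem i) hz1)
      rw [(P.e i).right_inv hz1] at h3
      refine (sq_le _).trans (Finset.sum_le_sum fun I _ => pow_le_pow_left₀ (norm_nonneg _) ?_ 2)
      rw [vl_sub, h3, hσ1 i z hz1, Pi.sub_apply, Pi.smul_apply, smul_eq_mul, ← mul_sub, norm_mul]
      exact mul_le_of_le_one_left (norm_nonneg _) (hρ1 i _)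
  refine ⟨∑ i, σ i, ?_⟩
  have h3 := tendsto_finsetSum Finset.univ fun i _ => hpiece i
  rw [Finset.sum_const_zero] at h3
  refine squeeze_zero (fun s => hb.nn _) (fun s => ?_) h3
  refine le_trans (le_of_eq ?_) (nrm_sum hb Finset.univ fun i => T i (v s) - σ i)
  rw [Finset.sum_sub_distrib, hsum]

end Hol2X

theorem hol2 : HOL2 := fun V _ _ h _ hc hd ht =>
  Hol2X.main (dR_real V) h.rk h.l2 h.kib hc hd ht

end Vale.Agent.P301Z.Lat
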