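import Vale.Agent.P301Z.Lat.Pk
import Vale.Agent.P284Y.O.Pot
import Mathlib.Analysis.Complex.AbsMax

/-!
# P301, block LAT, row IHS: marked Kähler manifolds with vanishing first Chern class
-/

open scoped Manifold ContDiff ComplexOrder Topology Matrix
open Filter
open Vale.Agent.P272.K Vale.Agent.P299.IX Vale.Agent.P299.IX.Fock
open Vale.Agent.P281Z (Mf)
open Vale.Agent.P281Z.Hg
open Vale.Agent.P301.H599 (IsHolTwoForm Smooth ddc)

noncomputable section

namespace Vale.Agent.P301Z.Lat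

namespace IhsH

section nondeg

variable {d : ℕ} {V : Mf d} {s : Fld V} {φ : Chart d V.X → Cm d → ℝ} {u : V.X → ℝ}

/-- the norm of the determinant of `s` -/
def nf (s : Fld V) (φ : Chart d V.X → Cm d → ℝ) (u : V.X → ℝ) (x : V.X) : ℝ :=
  ‖(s (chartAt (Cm d) x) (chartAt (Cm d) x x)).det‖ *
    Real.exp (-(φ (chartAt (Cm d) x) (chartAt (Cm d) x x) - u x))

theorem nf_eq (hs : IsHolTwoForm s) (hφ : IsCanonicalMetric φ) (u : V.X → ℝ) {e : Chart d V.X}
    {x : V.X} (hx : At e x) :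
    nf s φ u x = ‖(s e (e x)).det‖ * Real.exp (-(φ e (e x) - u x)) := by
  have hc := at_chart x
  have hJ : 0 < ‖(jacM e (chartAt (Cm d) x) x).det‖ := norm_pos_iff.2 (jacM_isUnit hx hc).ne_zero
  have e1 : ∀ a b c : ℝ, -(a + b - c) = -(a - c) + -b := fun a b c => by ring
  rw [nf, hs.change e _ x hx hc, hφ.change e _ x hx hc, Matrix.det_mul, Matrix.det_mul,
    Matrix.det_transpose, norm_mul, norm_mul, e1, Real.exp_add, Real.exp_neg (Real.log _),
    Real.exp_log (by positivity)]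
  field_simp

theorem det_an (hs : IsHolTwoForm s) {e : Chart d V.X} {x : V.X} (hx : At e x) :
    AnalyticAt ℂ (fun z => (s e z).det) (e x) := by
  simp only [Matrix.det_apply']
  refine Finset.analyticAt_fun_sum _ fun σ _ => analyticAt_const.mul ?_
  exact Finset.analyticAt_fun_prod _ fun i _ => hs.holo e x hx (σ i) i

theorem nf_loc (hs : IsHolTwoForm s) (hφ : IsCanonicalMetric φ) (hu : Smooth (d := d) u)
    (h : ∀ e x, At e x → cHess (φ e) (e x) = ddc u e (e x)) {e : Chart d V.X} {x : V.X}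
    (hx : At e x) : ∃ G : Cm d → ℂ, AnalyticAt ℂ G (e x) ∧
      ∀ᶠ z in 𝓝 (e x), nf s φ u (e.symm z) = ‖G z‖ := by
  have two : (2 : WithTop ℕ∞) ≤ ∞ := by norm_cast
  obtain ⟨g, hg, h1⟩ := Vale.Agent.P284Y.O.plh_re (f := fun z => φ e z - u (e.symm z))
    (z := e x) (by
      filter_upwards [hx.nhds_target] with z hz
      have hz' := At.of_target hx.1 hz
      have a1 := hφ.smooth e _ hz'
      have a2 := hu e _ hz'
      have a3 := h e _ hz'
      rw [e.right_inv hz] at a1 a2 a3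
      refine ⟨a1.sub a2, ?_⟩
      rw [C2.cHess_sub (a1.of_le two) (a2.of_le two), a3]
      exact sub_self _)
  refine ⟨fun z => (s e z).det * Complex.exp (-g z), (det_an hs hx).mul hg.neg.cexp', ?_⟩
  filter_upwards [hx.nhds_target, h1] with z hz h2
  rw [nf_eq hs hφ u (At.of_target hx.1 hz), e.right_inv hz, h2, norm_mul, Complex.norm_exp,
    Complex.neg_re]

theorem back {e : Chart d V.X} {x : V.X} (hx : At e x) {P : V.X → Prop}
    (h : ∀ᶠ z in 𝓝 (e x), P (e.symm z)) : ∀ᶠ y in 𝓝 x, P y := by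
  filter_upwards [(e.continuousAt hx.2).eventually h, e.open_source.mem_nhds hx.2] with y h1 h2
  rwa [e.left_inv h2] at h1

theorem nondeg [PreconnectedSpace V.X] (hs : IsHolTwoForm s) (hφ : IsCanonicalMetric φ)
    (hu : Smooth (d := d) u) (h : ∀ e x, At e x → cHess (φ e) (e x) = ddc u e (e x))
    {e1 : Chart d V.X} {x1 : V.X} (h1 : At e1 x1) (hne : (s e1 (e1 x1)).det ≠ 0) :
    ∀ e x, At e x → (s e (e x)).det ≠ 0 := by
  have hc : Continuous (nf s φ u) := by
    refine continuous_iff_continuousAt.2 fun x => ?_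
    have hx := at_chart x
    obtain ⟨G, hG, h2⟩ := nf_loc hs hφ hu h hx
    have h3 : ContinuousAt (fun y => ‖G (chartAt (Cm d) x y)‖) x :=
      (hG.continuousAt.comp ((chartAt (Cm d) x).continuousAt hx.2)).norm
    refine h3.congr (back hx (P := fun y => ‖G (chartAt (Cm d) x y)‖ = nf s φ u y) ?_)
    filter_upwards [h2, hx.nhds_target] with z h4 h5
    rw [(chartAt (Cm d) x).right_inv h5, h4]
  obtain ⟨x0, -, h0⟩ := isCompact_univ.exists_isMaxOn ⟨x1, Set.mem_univ _⟩ hc.continuousOn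
  have hpos : 0 < nf s φ u x0 := by
    refine lt_of_lt_of_le ?_ (h0 (Set.mem_univ x1))
    rw [nf_eq hs hφ u h1]
    exact mul_pos (norm_pos_iff.2 hne) (Real.exp_pos _)
  have hcl : IsClopen {x | nf s φ u x = nf s φ u x0} := by
    refine ⟨isClosed_eq hc continuous_const, isOpen_iff_mem_nhds.2 fun x hx0 => ?_⟩
    have hx := at_chart x
    obtain ⟨G, hG, h2⟩ := nf_loc hs hφ hu h hx
    have h3 : nf s φ u x0 = ‖G (chartAt (Cm d) x x)‖ := by
      have h4 := h2.self_of_nhds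
      rw [(chartAt (Cm d) x).left_inv hx.2] at h4
      rw [← h4]
      exact Eq.symm hx0
    have h4 : IsLocalMax (norm ∘ G) (chartAt (Cm d) x x) := by
      filter_upwards [h2] with z h5
      rw [Function.comp_apply, Function.comp_apply, ← h5, ← h3]
      exact h0 (Set.mem_univ _)
    have h5 := Complex.norm_eventually_eq_of_isLocalMax
      (hG.eventually_analyticAt.mono fun z hz => hz.differentiableAt) h4
    refine back hx (P := fun y => nf s φ u y = nf s φ u x0) ?_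
    filter_upwards [h2, h5] with z h6 h7
    rw [h6, h7, h3]
  intro e x hx hz
  have h2 : x ∈ {x | nf s φ u x = nf s φ u x0} := by
    rw [hcl.eq_univ ⟨x0, rfl⟩]
    exact Set.mem_univ x
  have h3 : nf s φ u x = nf s φ u x0 := h2
  rw [nf_eq hs hφ u hx, hz, norm_zero, zero_mul] at h3
  exact hpos.ne h3

end nondeg

section types

variable {d : ℕ} {V : Mf d} {u v : Fs V} {k : ℕ}

theorem ty_add (hu : Ty k u) (hv : Ty k v) : Ty k (u + v) := fun e x hx => by
  rw [vl_add, Matrix.mulVec_add, hu e x hx, hv e x hx]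

theorem ty_smul (c : ℂ) (hu : Ty k u) : Ty k (c • u) := fun e x hx => by
  rw [vl_smul, Matrix.mulVec_smul, hu e x hx]

theorem ty_cj0 (a : PWA) (hc : Cl2 V u) (hu : Ty 0 u) : Ty 2 ((dR V).cj u) := fun e x hx => by
  have h := (hu e x hx).symm.trans (a.inv02 _ (hc.dg hx))
  rw [vl_cj u hx, h, f1b.cjv_cjv, a.pm20]

theorem ty_cj1 (a : PWA) (hc : Cl2 V u) (hu : Ty 1 u) : Ty 1 ((dR V).cj u) := fun e x hx => by
  have h := (hu e x hx).symm.trans (a.inv11 _ (hc.dg hx))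
  rw [vl_cj u hx, h, a.cjv11, a.pm11]

end types

variable {n r : ℕ} {B : BB n r}

/-- Hodge decomposition of real classes -/
theorem dec (a : PWA) (h20 : D20) (h11 : D11) (hd : HD) (Y : MK B) (hk : Y.V.Kah)
    (x : Fin r → ℝ) : ∃ s p b v, Y.Per s p ∧ Y.C11 b v ∧ rc x = p + star p + rc v := by
  obtain ⟨u, hu, hux⟩ := Y.m.onto (rc x)
  obtain ⟨u2, u1, u0, c2, t2, c1, t1, c0, t0, hex⟩ := hd Y.V hk Y.sc u hu
  have e1 : rc x = Y.m.c u2 + Y.m.c u1 + Y.m.c u0 := by
    rw [← hux, (Y.m.eq_of hu ((c2.add c1).add c0)).2 hex, map_add, map_add]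
  have e2 : rc x = star (Y.m.c u2) + star (Y.m.c u1) + star (Y.m.c u0) := by
    rw [← star_add, ← star_add, ← e1, star_rc]
  have cs := (c2.add c0.cj).smul (1 / 2)
  obtain ⟨s, hs, hs'⟩ := h20.of cs (ty_smul _ (ty_add t2 (ty_cj0 a c0 t0)))
  have cb := (c1.add c1.cj).smul (1 / 2)
  have rb : ReF Y.V ((1 / 2 : ℂ) • (u1 + (dR Y.V).cj u1)) := by
    unfold ReF
    rw [map_smulₛₗ, map_add, (dR_ok Y.V).cjcj, add_comm _ u1, map_div₀, map_one, map_ofNat]
  obtain ⟨b, hb, hb'⟩ := h11.of cb rb (ty_smul _ (ty_add t1 (ty_cj1 a c1 t1)))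
  have hre : star (Y.m.c ((1 / 2 : ℂ) • (u1 + (dR Y.V).cj u1))) =
      Y.m.c ((1 / 2 : ℂ) • (u1 + (dR Y.V).cj u1)) := by
    rw [← Y.m.cj _ cb, rb]
  obtain ⟨v, hv⟩ := exists_rc hre
  refine ⟨s, _, b, v, ⟨hs, _, hs', cs, rfl⟩, ⟨hb, _, hb', cb, hv⟩, ?_⟩
  rw [← hv]
  simp only [map_smul, map_add, Y.m.cj _ c0, Y.m.cj _ c1]
  funext i
  have f1 := congrFun e1 i
  have f2 := congrFun e2 i
  simp only [Pi.add_apply, Pi.star_apply, Pi.smul_apply, smul_eq_mul, star_mul', star_add,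
    star_star, star_div₀, star_one, star_ofNat] at f1 f2 ⊢
  linear_combination (1 / 2 : ℂ) * f1 + (1 / 2 : ℂ) * f2

/-- a positive vector orthogonal to `k` -/
theorem exists_pos (B : BB n r) (k : Fin r → ℝ) : ∃ x, 0 < qR B.q x x ∧ qR B.q x k = 0 := by
  obtain ⟨e, he, -⟩ := B.sig
  have h00 : qR B.q (e 0) (e 0) = 1 := by simpa using he 0 0
  have h11 : qR B.q (e 1) (e 1) = 1 := by simpa using he 1 1
  have h01 : qR B.q (e 0) (e 1) = 0 := by simpa using he 0 1
  have h10 : qR B.q (e 1) (e 0) = 0 := by simpa using he 1 0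
  by_cases h : qR B.q (e 0) k = 0
  · exact ⟨e 0, by rw [h00]; exact one_pos, h⟩
  · refine ⟨qR B.q (e 1) k • e 0 + (-qR B.q (e 0) k) • e 1, ?_, ?_⟩
    · simp only [qR_add_l, qR_add_r, qR_smul_l, qR_smul_r, h00, h11, h01, h10]
      nlinarith [mul_self_pos.2 h, mul_self_nonneg (qR B.q (e 1) k)]
    · simp only [qR_add_l, qR_smul_l]
      ring

theorem bar {p : Fin r → ℂ} {v : Fin r → ℝ} (h : qC B.q p (rc v) = 0) :
    qC B.q (star p) (rc v) = 0 := by
  rw [← star_rc v, qC_star, h, star_zero]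

/-- some holomorphic two-form has `q (p, p̄) ≠ 0` -/
theorem exists_per (a : PWA) (h20 : D20) (h11 : D11) (hd : HD) (rl : REL) (h : HR) (Y : MK B)
    {w k} (hw : Y.Kc w k) (hk : 0 < qR B.q k k) : ∃ s p, Y.Per s p ∧ qC B.q p (star p) ≠ 0 := by
  obtain ⟨x, hx, hxk⟩ := exists_pos B k
  obtain ⟨s, p, b, v, hs, hb, e⟩ := dec a h20 h11 hd Y ⟨w, hw.1⟩ x
  refine ⟨s, p, hs, fun h0 => ?_⟩
  have a1 := rl.p11 hs hw.2
  have a2 := rl.p11 hs hb
  have a3 := rl.pp hs hs
  have a4 : qC B.q (star p) (star p) = 0 := by rw [qC_star, a3, star_zero]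
  have b1 : qR B.q v k = 0 := by
    have e1 := qC_rc B.q x k
    rw [e, qC_add_l, qC_add_l, a1, bar a1, qC_rc, hxk, zero_add, zero_add] at e1
    exact_mod_cast e1
  have b2 : qR B.q v v = qR B.q x x := by
    have e1 := qC_rc B.q x x
    rw [e] at e1
    simp only [qC_add_l, qC_add_r] at e1
    rw [qC_comm _ B.symm (star p) p, qC_comm _ B.symm (rc v) p, qC_comm _ B.symm (rc v) (star p),
      a2, bar a2, a3, a4, h0, qC_rc] at e1
    simp only [zero_add] at e1
    exact_mod_cast e1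
  linarith [(h.prim hw hk hb b1).1]

/-- the form is nondegenerate somewhere -/
theorem exists_ne (c : PWC) (v : VOL) (rl : REL) {Y : MK B} {s p} (hs : Y.Per s p)
    (h : qC B.q p (star p) ≠ 0) : ∃ e x, At e x ∧ (s e (e x)).det ≠ 0 := by
  by_contra hcon
  have a3 := rl.pp hs hs
  have a4 : qC B.q (star p) (star p) = 0 := by rw [qC_star, a3, star_zero]
  obtain ⟨hs, u, hu, cu, rfl⟩ := hs
  have h1 := v.real (u + (dR Y.V).cj u) (fun _ _ => 0) fun e x hx => by
    rw [vl_add, vl_cj u hx, hu e x hx, Complex.ofReal_zero]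
    exact c.ss0 _ (hs.alt e x hx) (by_contra fun h2 => hcon ⟨e, x, hx, h2⟩)
  rw [INT.intX_zero, Y.fuj _ (cu.add cu.cj), map_add, Y.m.cj _ cu, Complex.ofReal_zero] at h1
  simp only [qC_add_l, qC_add_r] at h1
  rw [qC_comm _ B.symm (star (Y.m.c u)) (Y.m.c u), a3, a4, zero_add, add_zero, ← two_mul] at h1
  exact mul_ne_zero (Complex.ofReal_ne_zero.2 B.Cpos.ne')
    (pow_ne_zero _ (mul_ne_zero two_ne_zero h)) h1

end IhsH

open IhsH in
/-- **row IHS** -/
theorem ihs_of (a : PWA) (c : PWC) (h20 : D20) (h11 : D11) (v : VOL) (hd : HD) (_sg : SIG)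
    (r : REL) (h : HR) : IHS := by
  intro n r' B Y w k φ hw hk hφ h0
  have := Y.sc
  obtain ⟨s, p, hs, hp⟩ := exists_per a h20 h11 hd r h Y hw hk
  obtain ⟨e1, x1, h1, hne⟩ := exists_ne c v r hs hp
  have z : ∀ y, qR B.q 0 y = 0 := fun y => by simp [qR]
  obtain ⟨u, hu, h2⟩ := (h.prim hw hk h0 (z k)).2 (z 0)
  exact ⟨s, p, ⟨hs, nondeg hs.1 hφ hu (fun e x hx => (h2 e x hx).trans (zero_add _)) h1 hne⟩,
    hw, hk⟩

end Vale.Agent.P301Z.Lat
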