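import Vale.Agent.P301Z.Lat.LefA

/-!
# P301, block LAT: the Lefschetz theorem on `(1,1)`-classes
-/

open scoped Manifold ContDiff ComplexOrder Topology Matrix
open Filter Metric
open Vale.Agent.P272.K Vale.Agent.P299.IX Vale.Agent.P299.IX.Fock
open Vale.Agent.P281Z (Mf)
open Vale.Agent.P281Z.Hg
open Vale.Agent.P301.H599 (LineBundle IsMetric curvature)

noncomputable section

namespace Vale.Agent.P301Z.Lat
namespace LefX

variable {d : ℕ} {V : Mf d}

/-- the real part of a form -/
def re (v : Fs V) : Fs V := (2 : ℂ)⁻¹ • (v + (dR V).cj v)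

lemma re_sub (u v : Fs V) : re (u - v) = re u - re v := by
  rw [re, re, re, map_sub, ← smul_sub, add_sub_add_comm]

lemma re_d (v : Fs V) : (dR V).d (re v) = re ((dR V).d v) := by
  rw [re, re, map_smul, map_add, (dR_ok V).cjd]

lemma re_cj (v : Fs V) : (dR V).cj (re v) = re v := by
  rw [re, map_smulₛₗ, map_add, (dR_ok V).cjcj, add_comm, map_inv₀, map_ofNat]

lemma re_eq {v : Fs V} (h : (dR V).cj v = v) : re v = v := by
  rw [re, h, ← two_smul ℂ v, smul_smul, inv_mul_cancel₀ two_ne_zero, one_smul]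

lemma re_zp {v : Fs V} {p : V.X} (h : v ∈ ZP p) : re v ∈ ZP p := by
  refine Submodule.smul_mem _ _ (Submodule.add_mem _ h fun e he => ?_)
  rw [vl_cj v he, h e he, cjv, star_zero, Matrix.mulVec_zero]

lemma cj_one (c : ℤ) : (dR V).cj ((c : ℂ) • oneF V) = (c : ℂ) • oneF V := by
  rw [map_smulₛₗ, map_intCast]
  congr 1
  exact ext_F fun e x hx => by rw [vl_cj _ hx, oneF_spec V e x hx, f1b.cjv_ev]

/-- a real zigzag -/
lemma zig {α : Fs V} (hr : (dR V).cj α = α) (hi : IntF V α) :
    ∃ (B : V.X → Set V.X) (γ : V.X → Fs V) (f : V.X → V.X → Fs V) (c : V.X → V.X → V.X → ℤ),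
      (∀ x, B x ∈ 𝓝 x) ∧ (∀ x, (dR V).cj (γ x) = γ x) ∧ (∀ x y, (dR V).cj (f x y) = f x y) ∧
      (∀ x, ∀ p ∈ B x, (dR V).d (γ x) - α ∈ ZP p) ∧
      (∀ x y, ∀ p ∈ B x, p ∈ B y → (dR V).d (f x y) - (γ y - γ x) ∈ ZP p) ∧
      ∀ x y z, ∀ p ∈ B x, p ∈ B y → p ∈ B z →
        f y z - (f x z - f x y) - (c x y z : ℂ) • oneF V ∈ ZP p := by
  letI := ms V
  obtain ⟨ε, hε, c, γ, h0, -, h1, h2⟩ := hi
  refine ⟨fun x => {p | dist x p < ε}, fun x => re (γ [x]), fun x y => re (γ [x, y]),
    fun x y z => c [x, y, z], fun x => ?_, fun _ => re_cj _, fun _ _ => re_cj _,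
    fun x p hp => ?_, fun x y p hp hq => ?_, fun x y z p hp hq hs => ?_⟩
  · have h3 : IsOpen {p | dist x p < ε} := isOpen_lt (continuous_const.dist continuous_id)
      continuous_const
    exact h3.mem_nhds (by simpa using hε)
  · have h3 : (dR V).d (γ [x]) - (γ [] - 0) ∈ ZP p := h1 [x] (by simp) p fun y hy => by
      rw [List.mem_singleton.1 hy]
      exact hp
    have h4 := re_zp h3
    rwa [sub_zero, h0, re_sub, ← re_d, re_eq hr] at h4
  · have h3 : (dR V).d (γ [x, y]) - (γ [y] - (γ [x] - 0)) ∈ ZP p :=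
      h1 [x, y] (by simp) p fun w hw => by
        rcases List.mem_cons.1 hw with rfl | hw
        · exact hp
        · rw [List.mem_singleton.1 hw]
          exact hq
    have h4 := re_zp h3
    rwa [sub_zero, re_sub, re_sub, ← re_d] at h4
  · have h3 : γ [y, z] - (γ [x, z] - (γ [x, y] - 0)) - (c [x, y, z] : ℂ) • oneF V ∈ ZP p :=
      h2 [x, y, z] (by simp) p fun w hw => by
        rcases List.mem_cons.1 hw with rfl | hw
        · exact hp
        rcases List.mem_cons.1 hw with rfl | hw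
        · exact hq
        · rw [List.mem_singleton.1 hw]
          exact hs
    have h4 := re_zp h3
    rwa [sub_zero, re_sub, re_sub, re_sub, re_eq (cj_one _)] at h4

lemma fn_im {v : Fs V} (h : (dR V).cj v = v) (p : V.X) : (fn v p).im = 0 := by
  have h1 := vl_cj v (at_chart p)
  rw [h] at h1
  have h2 := congrFun h1 ∅
  rw [cjv0] at h2
  exact Complex.conj_eq_iff_im.1 h2.symm

end LefX

open LefX in
/-- **LEF** -/
theorem lef_of (A : PWA) (h11 : D11) : LEF := by
  intro d V a u ha hu hi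
  have hr : (dR V).cj (((2 * Real.pi : ℝ) : ℂ)⁻¹ • u) = ((2 * Real.pi : ℝ) : ℂ)⁻¹ • u := by
    rw [map_smulₛₗ, map_inv₀, Complex.conj_ofReal, (h11.cl ha hu).2]
  obtain ⟨B, γ, f, c, hB, hγ, hf, h1, h2, h3⟩ := zig hr hi
  have hd : ∀ x, ∀ p ∈ B x, ∀ e, At e p → vl ((dR V).d (γ x)) e (e p) =
      ((2 * Real.pi : ℝ) : ℂ)⁻¹ • f11 (a e (e p)) := fun x p hp e he => by
    rw [zp_eq (h1 x p hp) he, vl_smul, hu.val he]
  choose U φ hU hx hUB hφ using fun x => pot (γ := γ x) (hB x) fun p hp e he i j => by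
    rw [hd x p hp e he, A.mat_smul, Matrix.smul_apply, mat_aa A, smul_zero]
  let L : LineBundle d V.X V.X :=
    { U := U
      isOpen := hU
      cover := fun x => ⟨x, hx x⟩
      g := fun x y p => Complex.exp (-(2 * Real.pi * Complex.I) * (fn (f x y) p - (φ y p - φ x p)))
      holo := by
        intro x y e p he hp hq
        refine (analyticAt_const.mul ?_).cexp
        refine Vale.Agent.P277.H60.L.analyticAt_of_dzb ?_
        filter_upwards [near he (((hU x).inter (hU y)).mem_nhds ⟨hp, hq⟩)] with z hz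
        have k1 := hφ x e _ hz.1 hz.2.1.1
        have k2 := hφ y e _ hz.1 hz.2.1.2
        have k3 := (fn_sm (f x y) hz.1).differentiableAt (by simp)
        have k4 := fun l => fn_dzb (f x y) hz.1 l
        have k5 := zp_eq (h2 x y _ (hUB x hz.2.1.1) (hUB y hz.2.1.2)) hz.1
        rw [k5] at k4
        rw [hz.2.2] at k1 k2 k3 k4
        have k6 := k1.1.differentiableAt (by simp)
        have k7 := k2.1.differentiableAt (by simp)
        refine ⟨k3.fun_sub (k7.fun_sub k6), fun l => ?_⟩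
        rw [C2.dzb_sub _ k3 (k7.fun_sub k6), C2.dzb_sub _ k7 k6, k4, k1.2, k2.2, vl_sub,
          Pi.sub_apply, sub_self]
      ne_zero := fun _ _ _ _ _ => Complex.exp_ne_zero _
      cocycle := by
        intro x y z p hp hq hs
        have k1 := congrFun (zp_eq (h3 x y z p (hUB x hp) (hUB y hq) (hUB z hs)) (at_chart p)) ∅
        rw [vl_smul, oneF_spec V _ p (at_chart p)] at k1
        have k2 : fn (f y z) p - (fn (f x z) p - fn (f x y) p) = c x y z := by
          refine Eq.trans k1 ?_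
          simp [ev]
        rw [← Complex.exp_add, Complex.exp_eq_exp_iff_exists_int]
        refine ⟨-c x y z, ?_⟩
        push_cast
        linear_combination (-(2 * Real.pi * Complex.I)) * k2 }
  have hm : IsMetric L fun x p => 4 * Real.pi * (φ x p).im := by
    refine ⟨fun x e p he hp => ?_, fun x y p _ _ => ?_⟩
    · exact contDiffAt_const.mul (Complex.imCLM.contDiff.contDiffAt.comp (e p) (hφ x e p he hp).1)
    · show _ = _ + Real.log (‖Complex.exp (-(2 * Real.pi * Complex.I) *
        (fn (f x y) p - (φ y p - φ x p)))‖ ^ 2)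
      rw [Complex.norm_exp, Real.log_pow, Real.log_exp]
      simp [fn_im (hf x y) p]
      ring
  refine ⟨L, _, hm, fun e p he => ?_⟩
  rw [(h11.curv hm).2 p e p he (hx p)]
  refine hess A (g := vl (γ p) e) (hφ p e p he (hx p)).1 ?_ ?_ ?_
  · filter_upwards [near he ((hU p).mem_nhds (hx p))] with z hz
    have k1 := (hφ p e _ hz.1 hz.2.1).2
    rwa [hz.2.2] at k1
  · filter_upwards [near he univ_mem] with z hz
    have k1 := vl_cj (γ p) hz.1
    rw [hγ, hz.2.2] at k1
    exact k1.symm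
  · rw [← (dR_real V).d _ e p he, hd p p (hUB p (hx p)) e he]

end Vale.Agent.P301Z.Lat
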