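import Vale.Agent.P301Z.Lat.Pk

/-!
# P301, block LAT, row MARK: markings of the cohomology of degree two
-/

open scoped Manifold ContDiff ComplexOrder Topology Matrix
open Filter
open Vale.Agent.P272.K Vale.Agent.P299.IX Vale.Agent.P299.IX.Fock
open Vale.Agent.P281Z (Mf)
open Vale.Agent.P281Z.Hg Vale.Agent.P281Z.Hg.Lt

noncomputable section

namespace Vale.Agent.P301Z.Lat

namespace MarkH

section abs

variable {S : Type} [AddCommGroup S] [Module ℂ S] {D : ℕ} {X : Cx S D} {M : Type} [MetricSpace M]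
  {E : LC M X} {ε : ℝ} {m : ℕ}

theorem nex (h : E.OK) (hR : E.R1 m) (hU2 : E.U2 m) (hU1 : E.U1 m) (hP : PER M m) (hN : E.NC)
    {z : S} (hz : X.Cl m z) (hn : z ∈ X.Nul) : ∃ β, z = X.d β := by
  obtain ⟨ε, hε, A, C, hA, hZ⟩ := hR
  obtain ⟨r, c, p0, -, p2, p3, -⟩ := hP ε hε
  let per : S →ₗ[ℂ] Fin r → ℂ := LinearMap.pi fun i => ∑ l ∈ (c i).support, (c i l : ℂ) • A l
  have hper : ∀ u i, per u i = evc (fun l => A l u) (c i) := fun u i => by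
    simp [per, evc, Finsupp.sum, LinearMap.sum_apply]
  have hb : ∀ u i, ‖per u i‖ ≤ (∑ l ∈ (c i).support, ‖(c i l : ℂ)‖ * C) * E.nrm u := fun u i => by
    rw [hper, evc, Finsupp.sum, Finset.sum_mul]
    refine norm_sum_le_of_le _ fun l hl => ?_
    rw [norm_mul, mul_assoc]
    exact mul_le_mul_of_nonneg_left (hA l u (p0 i l hl).1) (norm_nonneg _)
  have hc : ∀ u, X.Cl m u → Coc ε m fun l => A l u := fun u hu => zg_coc vt1 h (hZ u hu)
  have e0 : ∀ β, X.Cl m (X.d β) → per (X.d β) = 0 := fun β hβ => funext fun i => by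
    obtain ⟨η, k1, k2⟩ := hU2 ε hε
    exact (hper _ i).trans (p2 _ η (hc _ hβ) k1 (k2 β _ (hZ _ hβ)) i)
  have Nz : per z = 0 := funext fun i => by
    obtain ⟨y, hy⟩ := hN z hn
    have k1 : ∀ y, per (X.dg m (X.d y)) = 0 := fun y => by
      obtain ⟨β, k⟩ : ∃ β, X.dg m (X.d y) = X.d β := by
        cases m with
        | zero => exact ⟨0, (LinearMap.congr_fun h.cx.dg0_d y).trans (map_zero _).symm⟩
        | succ m => exact ⟨_, LinearMap.congr_fun (h.cx.dg_d m) y⟩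
      rw [k]
      refine e0 β ⟨h.cx.dd β, ?_⟩
      rw [← k]
      exact LinearMap.congr_fun ((h.cx.dg_mul m m).trans (if_pos rfl)) _
    have k2 := (squeeze_zero (fun s => h.nn _) (fun s => h.dgb m _) hy).const_mul
      (∑ l ∈ (c i).support, ‖(c i l : ℂ)‖ * C)
    rw [mul_zero] at k2
    refine norm_le_zero_iff.1 (ge_of_tendsto' k2 fun s => ?_)
    refine le_of_eq_of_le ?_ (hb _ i)
    rw [map_sub, map_sub, hz.2, k1, sub_zero]
  obtain ⟨η, k1, k2⟩ := p3 _ (hc z hz) fun i => (hper z i).symm.trans (congrFun Nz i)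
  exact hU1 _ z _ (lt_min hε k1) (zg_mono (min_le_left _ _) (hZ z hz))
    (cob_mono (min_le_right _ _) k2)

/-- the zigzag of an exact form -/
def gx (u β : S) : List M → S
  | [] => u
  | [_] => β
  | _ => 0

theorem int_d (h : X.OK) {β : S} (hβ : X.dg 1 β = β) : E.IsInt 2 (X.d β) := by
  have h2 : X.dg 2 (X.d β) = X.d β := by
    have := LinearMap.congr_fun (h.dg_d 1) β
    simp only [Module.End.mul_apply] at this
    rw [this, hβ]
  refine ⟨1, one_pos, 0, gx (X.d β) β, rfl, fun l j e => ?_, fun l e z _ => ?_, fun l e z _ => ?_⟩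
  · match l, e with
    | [], e => obtain rfl : j = 2 := by simpa using e
               exact h2
    | [_], e => obtain rfl : j = 1 := by simp at e; omega
                exact hβ
    | _ :: _ :: _, _ => exact map_zero _
  · match l, e with
    | [], _ => simp [gx, dl, h.dd]
    | [_], _ => simp [gx, dl]
    | [_, _], _ => simp [gx, dl]
    | _ :: _ :: _ :: _, e => simp at e
  · match l, e with
    | [_, _, _], _ => simp [gx, dl, zl]

theorem zg_cj (h : X.OK) (hZ : ∀ x u, u ∈ E.Z x → X.cj u ∈ E.Z x) (h1 : X.cj E.one = E.one)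
    {u : S} {a : List M → ℤ} (k : E.Zg ε m u (zl a)) : E.Zg ε m (X.cj u) (zl a) := by
  obtain ⟨γ, rfl, k1, k2, k3⟩ := k
  have e : ∀ l, dl (fun l' => X.cj (γ l')) l = X.cj (dl γ l) := vt1.map X.cj.toAddMonoidHom γ
  refine ⟨fun l => X.cj (γ l), rfl, fun l j hl => ?_, fun l hl z hz => ?_, fun l hl z hz => ?_⟩
  · rw [← h.cjdg, k1 l j hl]
  · rw [e, ← h.cjd, ← map_sub]
    exact hZ _ _ (k2 l hl z hz)
  · have := hZ _ _ (k3 l hl z hz)
    rw [map_sub, map_smulₛₗ, h1, zl, map_intCast] at this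
    rw [e]
    exact this

theorem cj_int (h : X.OK) (hU1 : E.U1 m) (hZ : ∀ x u, u ∈ E.Z x → X.cj u ∈ E.Z x)
    (h1 : X.cj E.one = E.one) {u : S} (k : E.IsInt m u) : X.cj u - u ∈ X.Nul := by
  obtain ⟨ε, hε, a, k⟩ := k
  obtain ⟨β, e⟩ := hU1 ε _ _ hε (CmH.zg_sub (zg_cj h hZ h1 k) k)
    ⟨0, rfl, fun l _ _ => (sub_self _).trans (vt1.map (0 : ℂ →+ ℂ) 0 l).symm⟩
  rw [e]
  exact ex_nul h β

theorem coord {n : ℕ} {b : Fin n → S} (hb : X.Bas m b) : ∃ c : S →ₗ[ℂ] (Fin n → ℂ),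
    ∀ u k, u - ∑ i, k i • b i ∈ X.Nul → c u = k := by
  let φ : (Fin n → ℂ) →ₗ[ℂ] S ⧸ X.Nul := X.Nul.mkQ ∘ₗ Fintype.linearCombination ℂ b
  have hφ : LinearMap.ker φ = ⊥ := LinearMap.ker_eq_bot'.2 fun k hk => hb.ind k
    ((Submodule.Quotient.mk_eq_zero _).1 hk)
  obtain ⟨g, hg⟩ := φ.exists_leftInverse_of_injective hφ
  refine ⟨g ∘ₗ X.Nul.mkQ, fun u k hu => ?_⟩
  have e : X.Nul.mkQ u = φ k := (Submodule.Quotient.eq _).2 hu
  rw [LinearMap.comp_apply, e]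
  exact LinearMap.congr_fun hg k

end abs

variable {d d' : ℕ}

theorem cj_ZP {V : Mf d} (x : V.X) (u : Fs V) (h : u ∈ ZP x) : (dR V).cj u ∈ ZP x := fun e he => by
  rw [vl_cj u he, h e he]
  simp [cjv]

theorem cj_one (V : Mf d) : (dR V).cj (oneF V) = oneF V :=
  one_eq fun e x hx => by rw [vl_cj _ hx, oneF_spec V e x hx, f1b.cjv_ev]

theorem ex (V : Mf d) (hV : V.Kah) : ∃ r, Nonempty (Mark V r) := by
  letI := ms V
  obtain ⟨w, hw⟩ := hV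
  obtain ⟨K, P⟩ := exists_pack V hw
  obtain ⟨n, b, hb⟩ := P.lb 2
  obtain ⟨c, hc⟩ := coord hb.toBas
  have nx : ∀ u, Cl2 V u → u ∈ (dR V).Nul → Ex2 V u := fun u hu hn =>
    (nex P.eok (P.r1 2).1 (P.r1 2).2 (P.i1 2).2 (P.per 2) P.kh.nc hu hn).elim fun _ e =>
      Ex2.of_d hu.2 e
  have xn : ∀ u, Ex2 V u → u ∈ (dR V).Nul := fun u ⟨β, _, e⟩ => e ▸ ex_nul (dR_ok V) β
  have sp : ∀ u, Cl2 V u → u - ∑ i, c u i • b i ∈ (dR V).Nul := fun u hu =>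
    (hb.span u hu).elim fun k hk => by rwa [hc u k hk]
  have bcl : ∀ k : Fin n → ℂ, Cl2 V (∑ i, k i • b i) := fun k =>
    Cl2.sum _ fun i _ => Cl2.smul _ (hb.cl i)
  refine ⟨n, ⟨⟨c, fun u hu => ⟨fun e => nx u hu ?_, fun e => hc u 0 ?_⟩,
    fun x => ⟨_, bcl x, hc _ x (by rw [sub_self]; exact zero_mem _)⟩,
    fun u hu => ⟨fun e => ?_, fun ⟨k, e⟩ => ?_⟩, fun u hu => hc _ _ ?_⟩⟩⟩
  · simpa [e] using sp u hu
  · simpa using xn u e
  · obtain ⟨k, hk⟩ := hb.crd u ((intF_iff V K 2 u).1 e)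
    exact ⟨k, hc u _ hk⟩
  · obtain ⟨β, h1, h2⟩ := nx _ (hu.sub (bcl _)) (sp u hu)
    refine (intF_iff V K 2 u).2 ?_
    have h3 : u = (dR V).d β + ∑ i, k i • b i := by
      rw [← h2, e]
      simp only [Int.cast_smul_eq_zsmul, sub_add_cancel]
    rw [h3]
    exact (IntS vt1 (lcK V K) 2).add_mem (int_d (dR_ok V) h1)
      (sum_mem fun i _ => (IntS vt1 (lcK V K) 2).zsmul_mem (hb.int i) _)
  · have h1 := xn _ (nx _ (hu.sub (bcl _)) (sp u hu)).cj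
    have h2 := (dR V).Nul.sum_mem fun i (_ : i ∈ Finset.univ) => (dR V).Nul.smul_mem
      (star (c u i)) (cj_int (dR_ok V) (P.i1 2).2 cj_ZP (cj_one V) (hb.int i))
    have h3 := add_mem h1 h2
    simp only [map_sub, map_sum, map_smulₛₗ, smul_sub, Finset.sum_sub_distrib, starRingEnd_apply,
      sub_add_sub_cancel] at h3
    exact h3

variable {V : Mf d} {V' : Mf d'} {f : V.X → V'.X}

theorem lin {T : Fs V' → Fs V} (hf : Smo d d' f) (hT : IsPb f T) :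
    ∃ T0 : Fs V' →ₗ[ℂ] Fs V, IsPb f T0 ∧ T = T0 := by
  obtain ⟨⟨T0, h0⟩, h1, -⟩ := pb1T d V.X d' V'.X f hf
  exact ⟨T0, h0, h1 _ _ hT h0⟩

theorem mor {T : Fs V' →ₗ[ℂ] Fs V} (hf : Smo d d' f) (hT : IsPb f T) (ν : Fs V → ℝ)
    (ν' : Fs V' → ℝ) : letI := ms V; letI := ms V'
    LC.Mor (X := dR V) (X' := dR V') ⟨ZP, oneF V, ν⟩ ⟨ZP, oneF V', ν'⟩ f T := by
  letI := ms V
  letI := ms V'
  obtain ⟨h1, h2, -, h4, h5, -⟩ :=
    (pb1T d V.X d' V'.X f hf).2.2.2 T _ _ hT (dR_real V) (dR_real V')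
  exact ⟨hf.cont, h1, h2, one_eq (h4 _ (oneF_spec V')), h5⟩

theorem pb {T : Fs V' → Fs V} (hf : Smo d d' f) (hT : IsPb f T) (u : Fs V') :
    (Cl2 V' u → Cl2 V (T u)) ∧ (Ex2 V' u → Ex2 V (T u)) ∧ (IntF V' u → IntF V (T u)) := by
  letI := ms V
  letI := ms V'
  obtain ⟨T0, h0, rfl⟩ := lin hf hT
  have h := mor hf h0 (fun _ => 0) fun _ => 0
  refine ⟨fun hu => ⟨by rw [← h.d, hu.1, map_zero], by rw [← h.dg, hu.2]⟩, ?_,
    fun hu => rows.cm.int h 2 u hu⟩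
  rintro ⟨β, h1, rfl⟩
  exact ⟨T0 β, by rw [← h.dg, h1], h.d β⟩

theorem inv {V V' : Mf d} {f : V.X → V'.X} {g : V'.X → V.X} (hf : Smo d d f) (hg : Smo d d g)
    (e : ∀ x, g (f x) = x) {T : Fs V' → Fs V} {T' : Fs V → Fs V'} (hT : IsPb f T)
    (hT' : IsPb g T') (u : Fs V) : T (T' u) = u := by
  obtain ⟨h1, h2, h3⟩ := rows.pbc d V.X d V'.X
  have h4 := (h3 d V.X f g hf hg).2 T T' hT hT'
  rw [show g ∘ f = id from funext e] at h4
  exact congrFun ((pb1T d V.X d V.X id h2).2.1 _ _ h4 h1) u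

theorem tr {r : ℕ} {V V' : Mf d} (m : Mark V' r) (φ : V.X ≃ₜ V'.X) (h : Smo d d φ)
    (h' : Smo d d φ.symm) :
    ∃ m' : Mark V r, ∀ T : Fs V' → Fs V, IsPb φ T → ∀ u, m'.c (T u) = m.c u := by
  obtain ⟨T, hT⟩ := (pb1T d V.X d V'.X φ h).1
  obtain ⟨T', hT'⟩ := (pb1T d V'.X d V.X φ.symm h').1
  have e1 := inv h h' φ.symm_apply_apply hT hT'
  have e2 := fun {T : Fs V' → Fs V} (hT : IsPb φ T) => inv h' h φ.apply_symm_apply hT' hT
  have e3 := ((pb1T d V'.X d V.X φ.symm h').2.2.2 T' _ _ hT' (dR_real V') (dR_real V)).2.2.1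
  refine ⟨⟨m.c ∘ₗ T', fun u hu => (m.ker _ ((pb h' hT' u).1 hu)).trans
    ⟨fun k => e1 u ▸ (pb h hT _).2.1 k, (pb h' hT' u).2.1⟩, fun x => ?_,
    fun u hu => Iff.trans ⟨(pb h' hT' u).2.2, fun k => e1 u ▸ (pb h hT _).2.2 k⟩
      (m.int _ ((pb h' hT' u).1 hu)), fun u hu => ?_⟩, fun T hT u => congrArg m.c (e2 hT u)⟩
  · obtain ⟨u, h1, h2⟩ := m.onto x
    exact ⟨T u, (pb h hT u).1 h1, (congrArg m.c (e2 hT u)).trans h2⟩
  · exact (congrArg m.c (e3 u)).trans (m.cj _ ((pb h' hT' u).1 hu))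

theorem close (V' : Mf d') (hV' : V'.Kah) : ∃ ε : ℝ, 0 < ε ∧ ∀ {d : ℕ} (V : Mf d), V.Kah →
    ∀ (f g : V.X → V'.X) (T T' : Fs V' → Fs V), Smo d d' f → Smo d d' g → IsPb f T → IsPb g T' →
    (∀ x, (ms V').dist (f x) (g x) < ε) → ∀ u, Cl2 V' u → Ex2 V (T u - T' u) := by
  letI := ms V'
  obtain ⟨w', hw'⟩ := hV'
  obtain ⟨K', P'⟩ := exists_pack V' hw'
  obtain ⟨ε, hε, H⟩ := rows.cm.close (lcK V' K') 2 P'.eok
  refine ⟨ε, hε, fun {d} V ⟨w, hw⟩ f g T T' hf hg hT hT' hd u hu => ?_⟩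
  letI := ms V
  obtain ⟨K, P⟩ := exists_pack V hw
  have h1 := ((pb hf hT u).1 hu).sub ((pb hg hT' u).1 hu)
  obtain ⟨T0, h0, rfl⟩ := lin hf hT
  obtain ⟨T0', h0', rfl⟩ := lin hg hT'
  obtain ⟨y, hy⟩ := H P.eok (mor hf h0 _ _) (mor hg h0' _ _) hd u hu
  exact Ex2.of_d h1.2 hy

end MarkH

/-- **MARK** -/
theorem mark : MARK where
  ex := MarkH.ex
  pb := MarkH.pb
  tr := MarkH.tr
  close := MarkH.close
  htpy {d d' V V'} hV hV' {P _ _} H T hc hs hT u hu p p' := by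
    letI := ms V'
    obtain ⟨ε, hε, h⟩ := MarkH.close V' hV'
    refine PreconnectedSpace.induction₂' (fun p p' => Ex2 V (T p u - T p' u)) (fun p => ?_)
      ⟨fun a b c h1 h2 => by simpa using h1.add h2⟩ p p'
    filter_upwards [tube (G := fun q : P × V.X => H q.1 q.2) (t := p)
      (fun x => hc.continuousAt) hε] with q hq
    have h1 := h V hV _ _ _ _ (hs q) (hs p) (hT q) (hT p) hq u hu
    exact ⟨by simpa using h1.neg, h1⟩

end Vale.Agent.P301Z.Lat
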