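import Vale.Agent.P301Z.Lat.Sk

/-!
# P301, block LAT: nondegenerate two-forms at a point
-/

open scoped ComplexOrder Topology Matrix
open Vale.Agent.P272.K Vale.Agent.P299.IX Vale.Agent.P299.IX.Fock
open Vale.Agent.P281Z.Hg

noncomputable section

namespace Vale.Agent.P301Z.Lat

namespace PwcA

variable {n d : ℕ}

theorem wg_tw (B : Mx n) : wg (tw B) = ∑ a, (1 / 2 : ℂ) • (eps a * epsV (B a)) := by
  rw [tw, F1aH.wg_sum]
  refine Finset.sum_congr rfl fun a _ => ?_
  rw [F1aH.wg_sum, epsV, Finset.mul_sum, Finset.smul_sum]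
  refine Finset.sum_congr rfl fun b _ => ?_
  rw [F1aH.wg_smul, F1aH.wg_eps, F1aH.wg_eps, F1aH.wg_ev, mul_one, Matrix.mul_smul, smul_smul]
  congr 1
  ring

theorem comm_epsV (B : Mx n) (w : Fin n → ℂ) : wg (tw B) * epsV w = epsV w * wg (tw B) := by
  rw [wg_tw, Finset.sum_mul, Finset.mul_sum]
  refine Finset.sum_congr rfl fun a _ => ?_
  rw [Matrix.smul_mul, Matrix.mul_smul, mul_assoc, epsV_epsV (B a) w, mul_neg, ← mul_assoc,
    eps_epsV, neg_mul, neg_neg, mul_assoc]

theorem iot_wg {B : Mx n} (hB : Bᵀ = -B) (k : Fin n) :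
    iot k * wg (tw B) = wg (tw B) * iot k + epsV (B k) := by
  have h1 : ∀ a, iot k * (eps a * epsV (B a)) = eps a * epsV (B a) * iot k +
      ((if k = a then epsV (B a) else 0) + B k a • eps a) := fun a => by
    have e1 : iot k * eps a = (if k = a then 1 else 0) - eps a * iot k :=
      eq_sub_of_add_eq (car k a)
    have e2 : iot k * epsV (B a) = B a k • 1 - epsV (B a) * iot k :=
      eq_sub_of_add_eq (iot_epsV k (B a))
    have e3 : B a k = -B k a := congrFun (congrFun hB k) a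
    rw [← mul_assoc, e1, sub_mul, mul_assoc, e2, mul_sub, Matrix.mul_smul, mul_one, e3, neg_smul,
      ite_mul, one_mul, zero_mul, mul_assoc]
    abel
  rw [wg_tw, Finset.mul_sum, Finset.sum_mul]
  simp only [Matrix.mul_smul, Matrix.smul_mul, h1, smul_add, Finset.sum_add_distrib,
    ← Finset.smul_sum, Finset.sum_ite_eq, Finset.mem_univ, if_true]
  rw [← epsV, ← add_smul]
  norm_num

theorem iot_pow {B : Mx n} (hB : Bᵀ = -B) (k : Fin n) (j : ℕ) :
    iot k *ᵥ ((wg (tw B) ^ (j + 1)) *ᵥ ev ∅) =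
      ((j : ℂ) + 1) • (epsV (B k) *ᵥ ((wg (tw B) ^ j) *ᵥ ev ∅)) := by
  induction j with
  | zero =>
    rw [zero_add, pow_one, Matrix.mulVec_mulVec, iot_wg hB, Matrix.add_mulVec,
      ← Matrix.mulVec_mulVec, iot_ev_empty]
    simp
  | succ j ih =>
    rw [pow_succ' _ (j + 1), ← Matrix.mulVec_mulVec, Matrix.mulVec_mulVec _ (iot k), iot_wg hB,
      Matrix.add_mulVec, ← Matrix.mulVec_mulVec, ih, Matrix.mulVec_smul,
      Matrix.mulVec_mulVec _ (wg (tw B)), comm_epsV, ← Matrix.mulVec_mulVec,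
      Matrix.mulVec_mulVec _ (wg (tw B)), ← pow_succ', Nat.cast_succ, add_smul (_ + 1 : ℂ),
      one_smul]

theorem dg_wg (B : Mx n) (p : ℕ) : dg (p + 1 + 1) * wg (tw B) = wg (tw B) * dg p := by
  have h1 : ∀ w : Fin n → ℂ, dg (p + 1) * epsV w = epsV w * dg p := fun w => by
    rw [epsV, Finset.mul_sum, Finset.sum_mul]
    exact Finset.sum_congr rfl fun a _ => by rw [Matrix.mul_smul, Matrix.smul_mul, dg_eps]
  rw [wg_tw, Finset.sum_mul, Finset.mul_sum]
  refine Finset.sum_congr rfl fun a _ => ?_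
  rw [Matrix.smul_mul, Matrix.mul_smul, ← mul_assoc, dg_eps, mul_assoc, h1, mul_assoc]

theorem dg_pow (B : Mx n) (j : ℕ) :
    dg (2 * j) *ᵥ ((wg (tw B) ^ j) *ᵥ ev ∅) = (wg (tw B) ^ j) *ᵥ ev ∅ := by
  induction j with
  | zero =>
    funext I
    rw [dg_mulVec, pow_zero, Matrix.one_mulVec]
    split_ifs with h
    · rfl
    · have hI : I ≠ ∅ := fun e => h (by simp [e])
      simp [ev, hI]
  | succ j ih =>
    rw [pow_succ', ← Matrix.mulVec_mulVec, Matrix.mulVec_mulVec _ (dg _),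
      show 2 * (j + 1) = 2 * j + 1 + 1 by ring, dg_wg, ← Matrix.mulVec_mulVec, ih]

theorem card_of {B : Mx n} {j : ℕ} {I : FI n} (h : ((wg (tw B) ^ j) *ᵥ ev ∅) I ≠ 0) :
    I.card = 2 * j := by
  by_contra hc
  apply h
  rw [← dg_pow, dg_mulVec, if_neg hc]

theorem pow_ne {B : Mx n} (hB : Bᵀ = -B) (hd : B.det ≠ 0) (j : ℕ) (hj : 2 * j ≤ n + 1) :
    (wg (tw B) ^ j) *ᵥ ev ∅ ≠ 0 := by
  induction j with
  | zero =>
    intro h
    simpa [ev] using congrFun h ∅
  | succ j ih =>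
    intro h
    obtain ⟨I, hI⟩ := Function.ne_iff.1 (ih (by omega))
    have hc := card_of hI
    obtain ⟨a, -, ha⟩ := Finset.exists_mem_notMem_of_card_lt_card
      (show I.card < (Finset.univ : Finset (Fin n)).card by simp; omega)
    have h1 : ∀ k, epsV (B k) *ᵥ ((wg (tw B) ^ j) *ᵥ ev ∅) = 0 := fun k => by
      have h2 := iot_pow hB k j
      rw [h, Matrix.mulVec_zero] at h2
      exact (smul_eq_zero.1 h2.symm).resolve_left (by exact_mod_cast Nat.succ_ne_zero j)
    have h2 : eps a = ∑ k, B⁻¹ a k • epsV (B k) := by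
      simp only [← epsV_smul]
      rw [← epsV_sum, ← epsV_single]
      congr 1
      funext l
      have h3 := congrFun (congrFun (Matrix.nonsing_inv_mul B hd.isUnit) a) l
      rw [Matrix.mul_apply, Matrix.one_apply] at h3
      simp [Finset.sum_apply, h3, Pi.single_apply, eq_comm]
    have h3 : eps a *ᵥ ((wg (tw B) ^ j) *ᵥ ev ∅) = 0 := by
      rw [h2, Matrix.sum_mulVec]
      exact Finset.sum_eq_zero fun k _ => by rw [Matrix.smul_mulVec, h1, smul_zero]
    have h4 := congrFun h3 (insert a I)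
    rw [eps_mulVec, if_pos (Finset.mem_insert_self a I), Finset.erase_insert ha] at h4
    exact mul_ne_zero (left_ne_zero_of_mul_eq_one (sg_mul_self a _)) hI h4

theorem Bq_ev (y : Fk n) : Bq (ev ∅) y = (∏ i : Fin n, (-1 : ℂ) ^ i.val) * y Finset.univ := by
  rw [Bq, ev, single_dotProduct, one_mul, Matrix.mulVec, dotProduct,
    Finset.sum_eq_single Finset.univ]
  · rw [F1aH.hst_apply, if_pos (by simp)]
  · intro I _ hI
    rw [F1aH.hst_apply, if_neg, zero_mul]
    intro h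
    exact hI (by simpa using h.symm)
  · simp

theorem ne (a : PWA) (b : PWB) (B : Mx (d + d)) (hB : Bᵀ = -B) : pw (tw B) ≠ 0 ↔ B.det ≠ 0 := by
  constructor
  · intro h hd
    obtain ⟨v, hv, h1⟩ := Matrix.exists_mulVec_eq_zero_iff.2 hd
    obtain ⟨k, hk⟩ := Function.ne_iff.1 hv
    have hk' : v k ≠ 0 := hk
    have h2 : v ᵥ* B = 0 := by
      rw [← Matrix.mulVec_transpose, hB, Matrix.neg_mulVec, h1, neg_zero]
    have h3 : (1 - Matrix.vecMulVec (Pi.single k (v k)⁻¹) v).det = 0 := by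
      refine Matrix.exists_mulVec_eq_zero_iff.1 ⟨Pi.single k (v k)⁻¹, fun e => ?_, ?_⟩
      · simpa [hk'] using congrFun e k
      · rw [Matrix.sub_mulVec, Matrix.one_mulVec, Matrix.vecMulVec_mulVec]
        simp [hk']
    have h4 := b.lam (1 - Matrix.vecMulVec (Pi.single k (v k)⁻¹) v) (tw B)
    have h5 := a.lr_tw (1 - Matrix.vecMulVec (Pi.single k (v k)⁻¹) v) B
    rw [sub_mul, one_mul, Matrix.vecMulVec_mul, h2, Matrix.vecMulVec_zero, sub_zero,
      Matrix.transpose_sub, Matrix.transpose_one, mul_sub, mul_one, Matrix.transpose_vecMulVec,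
      Matrix.mul_vecMulVec, h1, Matrix.zero_vecMulVec, sub_zero] at h5
    rw [show lam (1 - Matrix.vecMulVec (Pi.single k (v k)⁻¹) v) *ᵥ tw B = tw B from h5, h3,
      zero_mul] at h4
    exact h h4
  · intro hd
    obtain ⟨I, hI⟩ := Function.ne_iff.1 (pow_ne hB hd d (by omega))
    have hc := card_of hI
    obtain rfl : I = Finset.univ := Finset.eq_univ_of_card I (by simp; omega)
    rw [pw, Bq_ev]
    exact mul_ne_zero (b.tc_ne d)
      (mul_ne_zero (Finset.prod_ne_zero_iff.2 fun i _ => pow_ne_zero _ (by norm_num)) hI)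

theorem bl4_add (A B C D A' B' C' D' : Mx d) :
    bl4 A B C D + bl4 A' B' C' D' = bl4 (A + A') (B + B') (C + C') (D + D') := by
  ext i j
  exact congrFun (congrFun (Matrix.fromBlocks_add A B C D A' B' C' D') _) _

theorem map_skew {S : Mx d} (hS : Sᵀ = -S) : (S.map star)ᵀ = -S.map star := by
  ext i j
  have h : S j i = -S i j := congrFun (congrFun hS i) j
  simp [h]

theorem bl4_skew {S : Mx d} (hS : Sᵀ = -S) (W : Mx d) :
    (bl4 S W (-Wᵀ) (S.map star))ᵀ = -bl4 S W (-Wᵀ) (S.map star) := by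
  have h : (Matrix.fromBlocks S W (-Wᵀ) (S.map star))ᵀ =
      -Matrix.fromBlocks S W (-Wᵀ) (S.map star) := by
    rw [Matrix.fromBlocks_transpose, Matrix.fromBlocks_neg, hS, map_skew hS]
    simp
  ext i j
  exact congrFun (congrFun h _) _

theorem st (M : Mx d) (v : Fin d → ℂ) : star (M *ᵥ v) = M.map star *ᵥ star v := by
  ext i
  simp [Matrix.mulVec, dotProduct]

theorem det_ne {S W : Mx d} (hS : Sᵀ = -S) (hW : W.PosDef) :
    (bl4 S (Complex.I • W) (-(Complex.I • W)ᵀ) (S.map star)).det ≠ 0 := by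
  rw [bl4, Matrix.det_reindex_self]
  intro h
  obtain ⟨v, hv, h0⟩ := Matrix.exists_mulVec_eq_zero_iff.2 h
  rw [Matrix.fromBlocks_mulVec] at h0
  have h1 : S *ᵥ (v ∘ Sum.inl) + (Complex.I • W) *ᵥ (v ∘ Sum.inr) = 0 :=
    funext fun i => congrFun h0 (Sum.inl i)
  have h2 : (-(Complex.I • W)ᵀ) *ᵥ (v ∘ Sum.inl) + S.map star *ᵥ (v ∘ Sum.inr) = 0 :=
    funext fun i => congrFun h0 (Sum.inr i)
  have hv' : v ∘ Sum.inl = 0 → v ∘ Sum.inr = 0 → False := fun e1 e2 =>
    hv (funext fun x => by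
      cases x with
      | inl i => exact congrFun e1 i
      | inr i => exact congrFun e2 i)
  generalize v ∘ Sum.inl = x at h1 h2 hv'
  generalize v ∘ Sum.inr = y at h1 h2 hv'
  have e1 : (-(Complex.I • W)ᵀ).map star = Complex.I • W := by
    ext i j
    have h3 : star (W j i) = W i j := congrFun (congrFun hW.isHermitian.eq i) j
    simp [← h3]
  have e2 : (S.map star).map star = S := by
    ext i j
    simp
  have h3 := congrArg star h2
  rw [star_add, st, st, e1, e2, star_zero] at h3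
  have h4 := congrArg (star y ⬝ᵥ ·) h1
  have h5 := congrArg (x ⬝ᵥ ·) h3
  simp only [dotProduct_add, Matrix.smul_mulVec, dotProduct_smul, dotProduct_zero,
    smul_eq_mul] at h4 h5
  have h6 : x ⬝ᵥ S *ᵥ star y = -(star y ⬝ᵥ S *ᵥ x) := by
    rw [Matrix.dotProduct_mulVec, ← Matrix.mulVec_transpose, hS, Matrix.neg_mulVec,
      neg_dotProduct, dotProduct_comm]
  have h7 : star y ⬝ᵥ W *ᵥ y + star (star x) ⬝ᵥ W *ᵥ star x = 0 := by
    rw [star_star]
    refine mul_left_cancel₀ Complex.I_ne_zero ?_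
    linear_combination h4 + h5 - h6
  have p1 := hW.posSemidef.dotProduct_mulVec_nonneg y
  have p2 := hW.posSemidef.dotProduct_mulVec_nonneg (star x)
  obtain ⟨q1, q2⟩ := (add_eq_zero_iff_of_nonneg p1 p2).1 h7
  refine hv' ?_ ?_
  · by_contra hx
    exact (hW.dotProduct_mulVec_pos (star_ne_zero.2 hx)).ne' q2
  · by_contra hy
    exact (hW.dotProduct_mulVec_pos hy).ne' q1

theorem cj_add (u v : Fo d) : cjv (u + v) = cjv u + cjv v := by
  rw [cjv, star_add, Matrix.mulVec_add, cjv, cjv]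

theorem cj_smul (t : ℝ) (u : Fo d) : cjv ((t : ℂ) • u) = (t : ℂ) • cjv u := by
  rw [cjv, star_smul, Matrix.mulVec_smul, cjv, Complex.star_def, Complex.conj_ofReal]

theorem sum_tw (a : PWA) (S W : Mx d) : f11 W + f20 S + cjv (f20 S) =
    tw (bl4 S (Complex.I • W) (-(Complex.I • W)ᵀ) (S.map star)) := by
  rw [a.f02_tw, a.f11_tw, a.f20_tw, ← a.tw_add, ← a.tw_add, bl4_add, bl4_add]
  simp only [add_zero, zero_add]

theorem tame (a : PWA) (b : PWB) (S W : Mx d) (hS : Sᵀ = -S) (hW : W.PosDef) :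
    0 < pw (f11 W + f20 S + cjv (f20 S)) := by
  have hne : ∀ S : Mx d, Sᵀ = -S → (pw (f11 W + f20 S + cjv (f20 S))).im = 0 ∧
      (pw (f11 W + f20 S + cjv (f20 S))).re ≠ 0 := fun S hS => by
    have h1 := b.cjv (f11 W + f20 S + cjv (f20 S)) (by rw [sum_tw a, a.dg_tw])
    rw [cj_add, cj_add, a.cjv11, hW.isHermitian.eq, f1b.cjv_cjv, add_right_comm] at h1
    have h2 := Complex.conj_eq_iff_im.1 h1.symm
    refine ⟨h2, fun h3 => ?_⟩
    have h4 := (ne a b _ (bl4_skew hS _)).2 (det_ne hS hW)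
    rw [← sum_tw a] at h4
    exact h4 (Complex.ext h3 h2)
  have hc : Continuous fun t : ℝ =>
      (pw (f11 W + f20 ((t : ℂ) • S) + cjv (f20 ((t : ℂ) • S)))).re := by
    simp only [a.f20_smul, cj_smul]
    exact Complex.continuous_re.comp (b.cont.comp (by fun_prop))
  refine Complex.pos_iff.2 ⟨?_, (hne S hS).1.symm⟩
  by_contra hle
  have h0 : 0 < W.det.re := (Complex.pos_iff.1 hW.det_pos).1
  obtain ⟨t, -, ht⟩ := intermediate_value_Icc' (zero_le_one' ℝ) hc.continuousOn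
    (show (0 : ℝ) ∈ Set.Icc _ _ from ⟨by simpa using hle, by
      simp only [a.f20_smul, cj_smul]
      simpa [b.det] using h0.le⟩)
  exact (hne _ (by rw [Matrix.transpose_smul, hS, smul_neg])).2 ht

theorem ss_ne (a : PWA) (b : PWB) (S : Mx d) (hS : Sᵀ = -S) :
    pw (f20 S + cjv (f20 S)) ≠ 0 ↔ S.det ≠ 0 := by
  have h1 := ne a b _ (bl4_skew hS 0)
  have h2 : f20 S + cjv (f20 S) = tw (bl4 S 0 (-0ᵀ) (S.map star)) := by
    rw [a.f02_tw, a.f20_tw, ← a.tw_add, bl4_add]
    simp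
  have h3 : (S.map star).det = star S.det := ((starRingEnd ℂ).map_det S).symm
  rw [h2, h1, bl4, Matrix.det_reindex_self, Matrix.det_fromBlocks_zero₁₂, h3]
  simp

end PwcA

open PwcA in
theorem pwc_of (a : PWA) (b : PWB) : PWC where
  ne B hB := ne a b B hB
  tame S W hS hW := tame a b S W hS hW
  ss {d} S hS hd := by
    refine lt_of_le_of_ne ?_ ((ss_ne a b S hS).2 hd).symm
    have hc : Continuous fun t : ℝ => pw ((t : ℂ) • f11 (1 : Mx d) + f20 S + cjv (f20 S)) :=
      b.cont.comp (by fun_prop)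
    have h1 := (hc.tendsto 0).mono_left (nhdsWithin_le_nhds (s := Set.Ioi 0))
    simp only [Complex.ofReal_zero, zero_smul, zero_add] at h1
    refine ge_of_tendsto h1 (eventually_nhdsWithin_of_forall fun t ht => ?_)
    rw [← a.f11_smul]
    exact (tame a b S _ hS (Matrix.PosDef.one.smul (by exact_mod_cast ht))).le
  ss0 S hS hd := by
    by_contra h
    exact (ss_ne a b S hS).1 h hd

end Vale.Agent.P301Z.Lat
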