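import Vale.Agent.P281Z.Hg.Vt1

/-! # P301, block LAT: the zigzag is multiplicative -/

open Vale.Agent.P281Z.Hg

set_option linter.all false

noncomputable section

namespace Vale.Agent.P301Z.Lat.Rt

section
variable {M S : Type} [AddCommGroup S] [Module ℂ S]

/-- the cup product of a cochain with a cochain of forms -/
def cup (m : ℕ) (b : List M → ℂ) (γ : List M → S) (l : List M) : S :=
  b (l.take (m + 1)) • γ (l.drop m)

lemma dl_congr {a b : List M → S} {l : List M}
    (e : ∀ l' : List M, l'.length + 1 = l.length → a l' = b l') : dl a l = dl b l := by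
  induction l generalizing a b with
  | nil => rfl
  | cons x l ih =>
    show a l - dl (fun l' => a (x :: l')) l = b l - dl (fun l' => b (x :: l')) l
    rw [e l rfl, ih fun l' h => e (x :: l') (by simp [← h])]

lemma dl_smul (c : ℂ) (a : List M → S) (l : List M) : dl (fun l' => c • a l') l = c • dl a l :=
  vt1.map (DistribMulAction.toAddMonoidHom S c) a l

lemma dl_cup (m : ℕ) (b : List M → ℂ) (γ : List M → S) (l : List M) (hl : m + 2 ≤ l.length) :
    dl (cup m b γ) l = dl b (l.take (m + 2)) • γ (l.drop (m + 1)) +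
      ((-1 : ℂ) ^ m * b (l.take (m + 1))) • dl γ (l.drop m) := by
  induction m generalizing b l with
  | zero =>
    match l, hl with
    | x :: y :: r, _ =>
      have h1 : dl (cup 0 b γ) (x :: y :: r) =
          b [y] • γ (y :: r) - b [x] • dl (fun l' => γ (x :: l')) (y :: r) := by
        rw [← dl_smul]
        rfl
      have h2 : dl b [x, y] = b [y] - b [x] := by simp [dl]
      have h3 : dl γ (x :: y :: r) = γ (y :: r) - dl (fun l' => γ (x :: l')) (y :: r) := rfl
      simp only [List.take_succ_cons, List.take_zero, List.drop_succ_cons, List.drop_zero, zero_add,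
        pow_zero, one_mul]
      rw [h1, h2, h3, sub_smul, smul_sub]
      abel
  | succ m ih =>
    match l, hl with
    | x :: l, hl =>
      have hl' : m + 2 ≤ l.length := by simpa using hl
      have h1 : dl (cup (m + 1) b γ) (x :: l) =
          b (l.take (m + 2)) • γ (l.drop (m + 1)) - dl (cup m (fun l' => b (x :: l')) γ) l := rfl
      have h2 : dl b (x :: l.take (m + 2)) =
          b (l.take (m + 2)) - dl (fun l' => b (x :: l')) (l.take (m + 2)) := rfl
      simp only [List.take_succ_cons, List.drop_succ_cons]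
      rw [h1, ih _ l hl', h2, sub_smul, pow_succ, mul_neg_one, neg_mul, neg_smul]
      abel

end

variable {S : Type} [AddCommGroup S] [Module ℂ S] {D : ℕ} {X : Cx S D} {M : Type} [MetricSpace M]
  {E : LC M X}

lemma zz_mono {ε η : ℝ} (h : η ≤ ε) {m : ℕ} {γ : List M → S} {a : List M → ℂ}
    (k : E.Zz ε m γ a) : E.Zz η m γ a :=
  ⟨k.deg, fun l hl z hz => k.mid l hl z fun x hx => (hz x hx).trans_le h,
    fun l hl z hz => k.fin l hl z fun x hx => (hz x hx).trans_le h⟩

lemma coc_at (h1 : ∀ (c : ℂ) x, c • E.one ∈ E.Z x → c = 0) {ε : ℝ} {m : ℕ} {γ : List M → S}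
    {a : List M → ℂ} (k : E.Zz ε m γ a) {l : List M} (hl : l.length = m + 2) {z : M}
    (hz : Nr ε l z) : dl a l = 0 := by
  refine h1 _ z ?_
  have h2 : dl (fun l' => a l' • E.one) l = dl a l • E.one :=
    vt1.map (LinearMap.toSpanSingleton ℂ S E.one).toAddMonoidHom a l
  have h3 : dl (fun l' => dl γ l' - a l' • E.one) l ∈ (E.Z z).toAddSubgroup := by
    refine vt1.mem _ _ l fun l' hs hl' => ?_
    exact k.fin l' (by omega) z fun x hx => hz x (hs.subset hx)
  have h4 : dl (dl γ) l = dl (fun l' => dl γ l' - a l' • E.one) l +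
      dl (fun l' => a l' • E.one) l := by
    rw [← vt1.add]
    congr 1
    funext l'
    simp
  rw [vt1.dldl, h2] at h4
  have h5 : dl a l • E.one = -dl (fun l' => dl γ l' - a l' • E.one) l :=
    eq_neg_of_add_eq_zero_right h4.symm
  rw [h5]
  exact (E.Z z).neg_mem h3

theorem cup_int (T : Module.End ℂ S) (h1 : ∀ (c : ℂ) x, c • E.one ∈ E.Z x → c = 0)
    (hd : ∀ y, X.d (T y) = T (X.d y)) (hZ : ∀ x y, y ∈ E.Z x → T y ∈ E.Z x)
    (hg : ∀ j y, X.dg j y = y → X.dg (j + 2) (T y) = T y) (hT : E.IsInt 2 (T E.one)) (m : ℕ)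
    (y : S) (hy : E.IsInt m y) : E.IsInt (m + 2) (T y) := by
  obtain ⟨ε1, hε1, a, γ, hγ0, hγ'⟩ := hT
  obtain ⟨ε2, hε2, b, δ, hδ0, hδ'⟩ := hy
  have hγ := zz_mono (min_le_left ε1 ε2) hγ'
  have hδ := zz_mono (min_le_right ε1 ε2) hδ'
  set ε := min ε1 ε2 with hε
  let θ : List M → S := fun l => if l.length ≤ m then T (δ l) else
    ((-1 : ℂ) ^ (m * (l.length - m - 1))) • cup m (zl b) γ l
  have hθ1 : ∀ l : List M, l.length ≤ m → θ l = T (δ l) := fun l h => if_pos h
  have hθ2 : ∀ (l : List M) (j : ℕ), l.length = m + 1 + j →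
      θ l = ((-1 : ℂ) ^ (m * j)) • cup m (zl b) γ l := by
    intro l j h
    have h2 : l.length - m - 1 = j := by omega
    simp only [θ]
    rw [if_neg (by omega), h2]
  have hlow : ∀ l : List M, l.length ≤ m + 1 → dl θ l = T (dl δ l) := by
    intro l h
    rw [dl_congr (b := fun l' => T (δ l')) fun l' h' => hθ1 l' (by omega)]
    exact vt1.map T.toAddMonoidHom δ l
  have hhigh : ∀ (l : List M) (j : ℕ) z, l.length = m + 2 + j → Nr ε l z →
      dl θ l = ((-1 : ℂ) ^ (m * (j + 1)) * zl b (l.take (m + 1))) • dl γ (l.drop m) := by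
    intro l j z h hz
    rw [dl_congr (b := fun l' => ((-1 : ℂ) ^ (m * j)) • cup m (zl b) γ l')
      fun l' h' => hθ2 l' j (by omega), dl_smul, dl_cup m _ _ l (by omega),
      coc_at h1 hδ (l := l.take (m + 2)) (by simp; omega)
        (fun x hx => hz x (List.mem_of_mem_take hx)), zero_smul, zero_add, smul_smul, mul_add,
      mul_one, pow_add, mul_assoc]
  refine ⟨ε, lt_min hε1 hε2, fun l => b (l.take (m + 1)) * a (l.drop m), θ, ?_, ?_, ?_, ?_⟩
  · rw [hθ1 [] (Nat.zero_le _), hδ0]
  · intro l j h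
    by_cases hl : l.length ≤ m
    · obtain ⟨i, rfl⟩ : ∃ i, j = i + 2 := ⟨j - 2, by omega⟩
      rw [hθ1 l hl]
      exact hg i _ (hδ.deg l i (by omega))
    · rw [hθ2 l (l.length - m - 1) (by omega), cup, map_smul, map_smul,
        hγ.deg (l.drop m) j (by simp; omega)]
  · intro l h z hz
    by_cases hl : l.length ≤ m
    · rw [hθ1 l hl, hlow l (by omega), hd, ← map_sub]
      exact hZ z _ (hδ.mid l hl z hz)
    by_cases hl1 : l.length = m + 1
    · obtain ⟨x, hx⟩ : ∃ x, l.drop m = [x] := List.length_eq_one_iff.1 (by simp; omega)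
      have h2 := hγ.mid (l.drop m) (by simp; omega) z fun x hx => hz x (List.mem_of_mem_drop hx)
      have h3 : dl γ (l.drop m) = T E.one := by
        rw [hx, ← hγ0]
        simp [dl]
      have h4 := hZ z _ (hδ.fin l hl1 z hz)
      rw [h3] at h2
      rw [hθ2 l 0 (by omega), hlow l hl1.le, cup, mul_zero, pow_zero, one_smul, map_smul,
        List.take_of_length_le hl1.le]
      rw [map_sub, map_smul] at h4
      have h5 := (E.Z z).sub_mem ((E.Z z).smul_mem (zl b l) h2) h4
      rw [smul_sub, sub_sub_sub_cancel_right] at h5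
      exact h5
    · rw [hθ2 l 1 (by omega), hhigh l 0 z (by omega) hz, cup, smul_smul, map_smul, zero_add,
        ← smul_sub]
      exact (E.Z z).smul_mem _ (hγ.mid (l.drop m) (by simp; omega) z
        fun x hx => hz x (List.mem_of_mem_drop hx))
  · intro l h z hz
    have h2 := hγ.fin (l.drop m) (by simp; omega) z fun x hx => hz x (List.mem_of_mem_drop hx)
    have h3 : (-1 : ℂ) ^ (m * (1 + 1)) = 1 := Even.neg_one_pow ⟨m, by ring⟩
    rw [hhigh l 1 z (by omega) hz, h3, one_mul]
    have h4 := (E.Z z).smul_mem (zl b (l.take (m + 1))) h2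
    rw [smul_sub, smul_smul] at h4
    simpa only [zl, Int.cast_mul] using h4

end Vale.Agent.P301Z.Lat.Rt
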