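import Mathlib.Algebra.Polynomial.Roots
import Mathlib.LinearAlgebra.Dual.Lemmas
import Mathlib.Topology.Instances.Rat
import Mathlib.Analysis.SpecificLimits.Basic
import Mathlib.Data.Matrix.Basic
import Mathlib.Data.Complex.Basic
import Mathlib.RingTheory.Localization.Integer
import Mathlib.RingTheory.Localization.FractionRing

/-! # P301, block LAT: a real form whose power is integral on the lattice is rational -/

open Polynomial

set_option linter.all false

noncomputable section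

namespace Vale.Agent.P301Z.Lat.Rt

lemma coeff_rat {P : ℝ[X]} (h : ∀ t : ℕ, ∃ s : ℚ, P.eval (t : ℝ) = s) (j : ℕ) :
    ∃ s : ℚ, P.coeff j = s := by
  by_contra hne
  have h1 : P.coeff j ∉ Submodule.span ℚ ({1} : Set ℝ) := by
    intro h2
    obtain ⟨s, hs⟩ := Submodule.mem_span_singleton.1 h2
    exact hne ⟨s, by rw [← hs, Rat.smul_one_eq_cast]⟩
  obtain ⟨f, hf, hf0⟩ := Submodule.exists_dual_map_eq_bot_of_notMem h1 inferInstance
  have hf1 : ∀ s : ℚ, f (s : ℝ) = 0 := by
    intro s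
    have h3 : f (s : ℝ) ∈ (Submodule.span ℚ ({1} : Set ℝ)).map f :=
      Submodule.mem_map_of_mem (Submodule.mem_span_singleton.2 ⟨s, Rat.smul_one_eq_cast ℝ s⟩)
    rw [hf0] at h3
    exact h3
  let Q : ℚ[X] := ∑ i ∈ Finset.range (P.natDegree + 1), monomial i (f (P.coeff i))
  have hQ : Q = 0 := by
    refine Polynomial.eq_zero_of_infinite_isRoot Q ?_
    refine (Set.infinite_range_of_injective (f := fun t : ℕ => (t : ℚ)) Nat.cast_injective).mono ?_
    rintro _ ⟨t, rfl⟩
    obtain ⟨s, hs⟩ := h t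
    have h4 := hf1 s
    rw [← hs, Polynomial.eval_eq_sum_range, map_sum] at h4
    show Q.eval (t : ℚ) = 0
    rw [← h4, Polynomial.eval_finset_sum]
    refine Finset.sum_congr rfl fun i _ => ?_
    have h5 : P.coeff i * (t : ℝ) ^ i = ((t : ℚ) ^ i) • P.coeff i := by
      rw [Rat.smul_def]
      push_cast
      ring
    rw [eval_monomial, h5, map_smul, smul_eq_mul, mul_comm]
  apply hf
  by_cases hj : j ≤ P.natDegree
  · have h6 : Q.coeff j = f (P.coeff j) := by
      simp only [Q, finset_sum_coeff, coeff_monomial]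
      rw [Finset.sum_ite_eq' (Finset.range (P.natDegree + 1)) j,
        if_pos (Finset.mem_range.2 (Nat.lt_succ_of_le hj))]
    rw [← h6, hQ, coeff_zero]
  · rw [coeff_eq_zero_of_natDegree_lt (not_le.1 hj), map_zero]

lemma coeff_pow (a b : ℝ) (n : ℕ) :
    ((1 + C b * X + C a * X * X : ℝ[X]) ^ n).coeff 0 = 1 ∧
    ((1 + C b * X + C a * X * X : ℝ[X]) ^ n).coeff 1 = n * b ∧
    ((1 + C b * X + C a * X * X : ℝ[X]) ^ n).coeff 2 = n * a + n * (n - 1) / 2 * b ^ 2 := by
  induction n with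
  | zero => simp [coeff_one]
  | succ n ih =>
    obtain ⟨h0, h1, h2⟩ := ih
    set P := (1 + C b * X + C a * X * X : ℝ[X]) ^ n with hP
    have h3 : (1 + C b * X + C a * X * X : ℝ[X]) ^ (n + 1) =
        P + C b * P * X + C a * P * X * X := by
      rw [pow_succ, ← hP]
      ring
    rw [h3]
    refine ⟨?_, ?_, ?_⟩
    · simp [h0]
    · rw [coeff_add, coeff_add, coeff_mul_X (C b * P) 0, coeff_mul_X (C a * P * X) 0, coeff_C_mul,
        h0, h1, mul_coeff_zero, coeff_X_zero]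
      push_cast
      ring
    · rw [coeff_add, coeff_add, coeff_mul_X (C b * P) 1, coeff_mul_X (C a * P * X) 1,
        coeff_mul_X (C a * P) 0, coeff_C_mul, coeff_C_mul, h0, h1, h2]
      push_cast
      ring

lemma rat_of_pow {a b : ℝ} {n : ℕ} (hn : 0 < n)
    (h : ∀ t : ℕ, ∃ s : ℚ, (1 + b * t + a * t * t) ^ n = s) : ∃ s : ℚ, a = s := by
  have h0 : ∀ t : ℕ, ∃ s : ℚ,
      ((1 + C b * X + C a * X * X : ℝ[X]) ^ n).eval (t : ℝ) = s := by
    intro t
    obtain ⟨s, hs⟩ := h t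
    exact ⟨s, by rw [← hs]; simp⟩
  obtain ⟨-, h1, h2⟩ := coeff_pow a b n
  obtain ⟨s1, hs1⟩ := coeff_rat h0 1
  obtain ⟨s2, hs2⟩ := coeff_rat h0 2
  have hn' : (n : ℝ) ≠ 0 := Nat.cast_ne_zero.2 hn.ne'
  have hb : b = s1 / n := by
    rw [← hs1, h1]
    field_simp
  refine ⟨(s2 - n * (n - 1) / 2 * (s1 / n) ^ 2) / n, ?_⟩
  push_cast
  rw [← hb, ← hs2, h2]
  field_simp
  ring

variable {r : ℕ}

/-- the bilinear form of a real matrix -/
def bf (q : Matrix (Fin r) (Fin r) ℝ) (x y : Fin r → ℝ) : ℝ := ∑ i, ∑ j, q i j * (x i * y j)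

lemma bf_line (q : Matrix (Fin r) (Fin r) ℝ) (g a : Fin r → ℝ) (t : ℝ) :
    bf q (fun i => g i + t * a i) (fun i => g i + t * a i) =
      bf q g g + (bf q g a + bf q a g) * t + bf q a a * t * t := by
  simp only [bf, Finset.sum_mul, ← Finset.sum_add_distrib, add_mul]
  refine Finset.sum_congr rfl fun i _ => Finset.sum_congr rfl fun j _ => ?_
  ring

lemma exists_int_pos (q : Matrix (Fin r) (Fin r) ℝ) {x : Fin r → ℝ} (hx : 0 < bf q x x) :
    ∃ g : Fin r → ℤ, 0 < bf q (fun i => g i) (fun i => g i) := by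
  have hc : Continuous fun y : Fin r → ℝ => bf q y y := by
    unfold bf
    fun_prop
  have hd : DenseRange fun (y : Fin r → ℚ) (i : Fin r) => (y i : ℝ) :=
    DenseRange.piMap fun _ => Rat.denseRange_cast
  obtain ⟨y, hy⟩ := hd.exists_mem_open (isOpen_lt continuous_const hc) ⟨x, hx⟩
  obtain ⟨b, hb⟩ := IsLocalization.exist_integer_multiples_of_finite (nonZeroDivisors ℤ) y
  choose g hg using hb
  have hb0 : ((b : ℤ) : ℝ) ≠ 0 := Int.cast_ne_zero.2 (nonZeroDivisors.coe_ne_zero b)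
  have h1 : ∀ i, (g i : ℝ) = (b : ℤ) * (y i : ℝ) := by
    intro i
    have h2 := hg i
    rw [zsmul_eq_mul, eq_intCast] at h2
    exact_mod_cast congrArg (fun s : ℚ => (s : ℝ)) h2
  refine ⟨g, ?_⟩
  have h3 : bf q (fun i => g i) (fun i => g i) =
      ((b : ℤ) : ℝ) ^ 2 * bf q (fun i => y i) (fun i => y i) := by
    simp only [bf, h1, Finset.mul_sum]
    refine Finset.sum_congr rfl fun i _ => Finset.sum_congr rfl fun j _ => ?_
    ring
  rw [h3]
  exact mul_pos (by positivity) hy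

lemma bf_single (q : Matrix (Fin r) (Fin r) ℝ) (i j : Fin r) :
    bf q (Pi.single i 1) (Pi.single j 1) = q i j := by
  simp [bf, Pi.single_apply, Finset.sum_ite_eq']

/-- **rationality** -/
theorem rat_form (q : Matrix (Fin r) (Fin r) ℝ) (hs : q.transpose = q) {n : ℕ} (hn : 0 < n)
    {C : ℝ} (hC : C ≠ 0) {c : ℂ} {x : Fin r → ℝ} (hx : 0 < bf q x x)
    (h : ∀ g : Fin r → ℤ, ∃ k : ℤ,
      ((C * bf q (fun i => g i) (fun i => g i) ^ n : ℝ) : ℂ) = c * k) :
    ∃ (lam : ℝ) (q' : Matrix (Fin r) (Fin r) ℤ), 0 < lam ∧ q'.transpose = q' ∧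
      ∀ i j, q i j = lam * q' i j := by
  obtain ⟨g, hg⟩ := exists_int_pos q hx
  set A : ℝ := bf q (fun i => g i) (fun i => g i) with hA
  obtain ⟨k0, hk0⟩ := h g
  have hne : ((C * A ^ n : ℝ) : ℂ) ≠ 0 := Complex.ofReal_ne_zero.2 (mul_ne_zero hC (by positivity))
  have hk : (k0 : ℂ) ≠ 0 := fun h0 => hne (by rw [hk0, h0, mul_zero])
  have hsq : ∀ a : Fin r → ℤ, ∃ s : ℚ, bf q (fun i => a i) (fun i => a i) / A = s := by
    intro a
    refine rat_of_pow (b := (bf q (fun i => g i) (fun i => a i) +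
      bf q (fun i => a i) (fun i => g i)) / A) hn fun t => ?_
    obtain ⟨k, hk1⟩ := h fun i => g i + t * a i
    refine ⟨k / k0, ?_⟩
    have h1 := bf_line q (fun i => g i) (fun i => a i) t
    push_cast at hk1
    have h2 : ((C * bf q (fun i => (g i : ℝ) + t * a i) (fun i => (g i : ℝ) + t * a i) ^ n : ℝ) : ℂ) *
        k0 = (C * A ^ n : ℝ) * k := by
      rw [hk0]
      push_cast
      rw [hk1]
      ring
    have h3 : C * bf q (fun i => (g i : ℝ) + t * a i) (fun i => (g i : ℝ) + t * a i) ^ n * k0 =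
        C * A ^ n * k := by exact_mod_cast h2
    have hk' : (k0 : ℝ) ≠ 0 := by exact_mod_cast hk
    have h4 : 1 + (bf q (fun i => g i) (fun i => a i) + bf q (fun i => a i) (fun i => g i)) / A * t +
        bf q (fun i => a i) (fun i => a i) / A * t * t =
        bf q (fun i => (g i : ℝ) + t * a i) (fun i => (g i : ℝ) + t * a i) / A := by
      rw [h1, ← hA]
      field_simp
    rw [h4, div_pow]
    push_cast
    rw [div_eq_div_iff (by positivity) hk']
    exact mul_left_cancel₀ hC (by linarith)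
  have hsym : ∀ i j, q j i = q i j := fun i j => congrFun (congrFun hs i) j
  have hent : ∀ p : Fin r × Fin r, ∃ s : ℚ, q p.1 p.2 / A = s := by
    rintro ⟨i, j⟩
    have e : ∀ i : Fin r, (fun l => (((Pi.single i 1 : Fin r → ℤ) l : ℤ) : ℝ)) = Pi.single i 1 := by
      intro i
      funext l
      simp [Pi.single_apply]
    obtain ⟨s1, h1⟩ := hsq (Pi.single i 1)
    obtain ⟨s2, h2⟩ := hsq (Pi.single j 1)
    obtain ⟨s3, h3⟩ := hsq fun l => (Pi.single i 1 : Fin r → ℤ) l + (Pi.single j 1 : Fin r → ℤ) l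
    have h4 := bf_line q (Pi.single i 1) (Pi.single j 1) 1
    have h5 : (fun l => (((Pi.single i 1 : Fin r → ℤ) l + (Pi.single j 1 : Fin r → ℤ) l : ℤ) : ℝ)) =
        fun l => (Pi.single i 1 : Fin r → ℝ) l + 1 * (Pi.single j 1 : Fin r → ℝ) l := by
      funext l
      simp [Pi.single_apply]
    rw [h5, h4, bf_single, bf_single, bf_single, bf_single, hsym i j] at h3
    rw [e, bf_single] at h1 h2
    refine ⟨(s3 - s1 - s2) / 2, ?_⟩
    push_cast
    rw [← h1, ← h2, ← h3]
    ring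
  choose s hs' using hent
  obtain ⟨b, hb⟩ := IsLocalization.exist_integer_multiples_of_finite (nonZeroDivisors ℤ) s
  choose m hm using hb
  have hb0 : ((b : ℤ) : ℝ) ≠ 0 := Int.cast_ne_zero.2 (nonZeroDivisors.coe_ne_zero b)
  have h1 : ∀ p, (m p : ℝ) = (b : ℤ) * (q p.1 p.2 / A) := by
    intro p
    have h2 := hm p
    rw [zsmul_eq_mul, eq_intCast] at h2
    rw [hs']
    exact_mod_cast congrArg (fun s : ℚ => (s : ℝ)) h2
  refine ⟨A / ((b : ℤ) : ℝ) ^ 2, Matrix.of fun i j => (b : ℤ) * m (i, j), by positivity, ?_, ?_⟩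
  · ext i j
    simp only [Matrix.transpose_apply, Matrix.of_apply]
    have h2 : (m (j, i) : ℝ) = m (i, j) := by rw [h1, h1, hsym]
    rw [show m (j, i) = m (i, j) by exact_mod_cast h2]
  · intro i j
    simp only [Matrix.of_apply]
    push_cast
    rw [h1]
    field_simp

end Vale.Agent.P301Z.Lat.Rt
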