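import Vale.Agent.P301Z.Lat.Sk
import Vale.Agent.P301Z.Lat.RatA
import Vale.Agent.P301Z.Lat.Cup0

/-! # P301, block LAT: rows RAT and CUP -/

open scoped Matrix

set_option linter.all false

noncomputable section

namespace Vale.Agent.P301Z.Lat

theorem cup : CUP := fun _ _ _ _ _ _ _ _ T h1 hd hZ hg hT m y hy =>
  Rt.cup_int T h1 hd hZ hg hT m y hy

theorem rat : RAT := by
  intro r n q C lam hn hs hC h
  have key : ∀ (t : ℝ) (q' : Matrix (Fin r) (Fin r) ℤ), 0 < t → (∀ i j, q i j = t * q' i j) →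
      ∃ (t : ℝ) (q' : Matrix (Fin r) (Fin r) ℤ), 0 < t ∧ ∀ i j, (q' i j : ℝ) = t * q i j := by
    intro t q' ht h1
    refine ⟨t⁻¹, q', inv_pos.2 ht, fun i j => ?_⟩
    rw [h1, inv_mul_cancel_left₀ ht.ne']
  by_cases h1 : ∃ x, 0 < Rt.bf q x x
  · obtain ⟨x, hx⟩ := h1
    obtain ⟨t, q', ht, -, h2⟩ := Rt.rat_form q hs hn hC (c := lam) hx fun g => by
      obtain ⟨j, hj⟩ := h g
      exact ⟨j, hj.trans (mul_comm _ _)⟩
    exact key t q' ht h2
  have hneg : ∀ x, Rt.bf (-q) x x = -Rt.bf q x x := by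
    intro x
    simp [Rt.bf]
  by_cases h2 : ∃ x, 0 < Rt.bf (-q) x x
  · obtain ⟨x, hx⟩ := h2
    obtain ⟨t, q', ht, -, h2⟩ := Rt.rat_form (-q) (by rw [Matrix.transpose_neg, hs]) hn
      (C := C * (-1) ^ n) (mul_ne_zero hC (pow_ne_zero _ (by norm_num))) (c := lam) hx fun g => by
      obtain ⟨j, hj⟩ := h g
      refine ⟨j, Eq.trans ?_ (hj.trans (mul_comm _ _))⟩
      rw [hneg, mul_assoc, ← mul_pow, neg_one_mul, neg_neg]
      rfl
    refine key t (-q') ht fun i j => ?_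
    have h3 := h2 i j
    rw [Matrix.neg_apply] at h3
    rw [Matrix.neg_apply, Int.cast_neg]
    linarith
  have h0 : ∀ x, Rt.bf q x x = 0 := by
    intro x
    have h3 : ¬ 0 < Rt.bf q x x := fun h => h1 ⟨x, h⟩
    have h4 : ¬ 0 < Rt.bf (-q) x x := fun h => h2 ⟨x, h⟩
    rw [hneg] at h4
    linarith
  refine key 1 0 one_pos fun i j => ?_
  have h3 := Rt.bf_line q (Pi.single i 1) (Pi.single j 1) 1
  rw [h0, h0, h0, Rt.bf_single, Rt.bf_single] at h3
  have h4 : q j i = q i j := congrFun (congrFun hs i) j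
  simp only [Matrix.zero_apply, Int.cast_zero]
  linarith

end Vale.Agent.P301Z.Lat
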