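import Vale.Agent.P301Z.Lat.Asm
import Vale.Agent.P301Z.Lat.Pwa
import Vale.Agent.P301Z.Lat.Pwb
import Vale.Agent.P301Z.Lat.Pwc
import Vale.Agent.P301Z.Lat.D20
import Vale.Agent.P301Z.Lat.D11
import Vale.Agent.P301Z.Lat.Vol
import Vale.Agent.P301Z.Lat.Mark
import Vale.Agent.P301Z.Lat.Hr
import Vale.Agent.P301Z.Lat.Lef
import Vale.Agent.P301Z.Lat.C1i
import Vale.Agent.P301Z.Lat.Ihs
import Vale.Agent.P301Z.Lat.Hd
import Vale.Agent.P301Z.Lat.Hol2
import Vale.Agent.P301Z.Lat.Intv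
import Vale.Agent.P301Z.Lat.Rat

/-!
# P301, block LAT: the closed rows, and the output from the rows HD and FUJ
-/

namespace Vale.Agent.P301Z.Lat

theorem pwb : PWB := pwb_of pwa

theorem pwc : PWC := pwc_of pwa pwb

theorem d20 : D20 := d20_of pwa

theorem d11 : D11 := d11_of pwa

theorem vol : VOL := vol_of pwa pwb

theorem rel : REL := rel_of pwa pwb pwc d20 d11 vol

theorem hr : HR := hr_of pwb vol rel

theorem lef : LEF := lef_of pwa d11

theorem c1i : C1I := c1i_of pwa d11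

theorem intv : INTV := intv_of vol

theorem lat_of2 (hD : HD) (fj : FUJ) : LAT :=
  lat_of pwa pwb pwc d20 d11 vol hD mark hr lef c1i
    (ihs_of pwa pwc d20 d11 vol hD sig rel hr) fj

end Vale.Agent.P301Z.Lat
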