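import Vale.Agent.P301Z.Lat.FujB

/-! # P301, block LAT: the Beauville form and the Fujiki relation -/

open scoped Manifold ContDiff ComplexOrder Topology Matrix
open Vale.Agent.P272.K Vale.Agent.P299.IX Vale.Agent.P299.IX.Fock
open Vale.Agent.P281Z (Mf)
open Vale.Agent.P281Z.Hg
open Vale.Agent.P301.H599 (IsHolTwoForm IsSymplectic SameClass Smooth ddc)
open Vale.Agent.P272.K.INT (IsClosedForm IsDensity intX)
open Vale.Agent.P301.H450 (IsHK SData vol exists_rf q_self q_addH q_add_left q_add_right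
  q_smul_left q_smul_right q_symm q_congr hodge_prim)

set_option linter.all false

noncomputable section

namespace Vale.Agent.P301Z.Lat

namespace FujH

variable {n r : ℕ} {V : Mf (n + n)} {w s W a b : Fld V} {σ β u v : Fs V} {κ : ℝ}

theorem ty_cj {j k : ℕ} (hjk : j + k = 2) (hu : Cl2 V u) (ht : Ty j u) :
    Ty k ((dR V).cj u) := fun e x hx => by
  have h := f1b.cjv_pm (vl u e (e x)) j k
  rw [hjk, hu.dg hx, ht e x hx, ← f1b.cjv_dg, hu.dg hx] at h
  rw [vl_cj u hx]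
  exact h.symm

theorem ty2 (A : PWA) (h20 : D20) (hs : IsSymplectic (n + n) V.X w s) (hσ : Is20 s σ)
    (hu : Cl2 V u) (ht : Ty 2 u) : ∃ x : ℂ, u = x • σ := by
  obtain ⟨s', h1, h2⟩ := h20.of hu ht
  obtain ⟨x, hx⟩ := hs.unique s' h1
  refine ⟨x, ext_F fun e y hy => ?_⟩
  rw [h2 e y hy, hx e y hy, A.f20_smul, vl_smul, hσ e y hy]

theorem real_rep (A : PWA) (h20 : D20) (h11 : D11) (hH : HD) (sc : SimplyConnectedSpace V.X)
    (m : Mark V r) (hs : IsSymplectic (n + n) V.X w s) (hσ : Is20 s σ) (k : Fin r → ℝ) :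
    ∃ (x : ℂ) (b : Fld V) (β : Fs V), R11 b ∧ Is11 b β ∧
      m.c (x • σ + β + star x • (dR V).cj σ) = rc k := by
  obtain ⟨a, ha, hk⟩ := m.onto (rc k)
  obtain ⟨u, b, v, hu, tu, hb, tb, hv, tv, hex⟩ := hH V ⟨w, hs.kahler⟩ sc a ha
  obtain ⟨x, rfl⟩ := ty2 A h20 hs hσ hu tu
  obtain ⟨y, hy⟩ := ty2 A h20 hs hσ hv.cj (ty_cj (j := 0) rfl hv tv)
  have hv' : v = star y • (dR V).cj σ := by
    rw [← (dR_ok V).cjcj v, hy, map_smulₛₗ]
    rfl
  subst hv'
  have hc : Cl2 V σ := h20.cl ⟨w, hs.kahler⟩ hs.form hσ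
  have h1 := (m.eq_of ha ((hu.add hb).add hv)).2 hex
  rw [hk, map_add, map_add, map_smul, map_smul, m.cj σ hc] at h1
  have h2 := congrArg star h1
  rw [star_rc, star_add, star_add, star_smul, star_smul, star_star, star_star, ← m.cj b hb] at h2
  have hβ : Cl2 V ((2 : ℂ)⁻¹ • (b + (dR V).cj b)) := (hb.add hb.cj).smul _
  obtain ⟨c, hc1, hc2⟩ := h11.of hβ (by
    show (dR V).cj _ = _
    rw [map_smulₛₗ, map_add, (dR_ok V).cjcj, add_comm b, map_inv₀, map_ofNat]) (fun e y hy => by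
    rw [vl_smul, vl_add, Matrix.mulVec_smul, Matrix.mulVec_add, tb e y hy,
      ty_cj (j := 1) (k := 1) rfl hb tb e y hy])
  refine ⟨(2 : ℂ)⁻¹ * (x + y), c, _, hc1, hc2, ?_⟩
  rw [map_add, map_add, map_smul, map_smul, map_smul, map_add, m.cj σ hc]
  have h3 : rc k = (2 : ℂ)⁻¹ • (rc k + rc k) := by module
  have h4 : star ((2 : ℂ)⁻¹ * (x + y)) = (2 : ℂ)⁻¹ * (star x + star y) := by simp
  rw [h3, h4]
  nth_rw 2 [h2]
  nth_rw 1 [h1]
  module

theorem lin_eq (x y : ℝ) (a b : Fld V) :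
    (fun e z => (x : ℂ) • a e z + (y : ℂ) • b e z) = x • a + y • b := by
  funext e z
  ext i j
  simp

theorem sm_eq (x : ℝ) (a : Fld V) : (fun e z => (x : ℂ) • a e z) = x • a := by
  funext e z
  ext i j
  simp

/-- pairs of a number and a closed real `(1,1)`-form -/
def TT (hw : R11 w) : Submodule ℝ (ℂ × Fld V) where
  carrier := {p | R11 p.2}
  add_mem' {p q} hp hq := by
    have h := R11.lin 1 1 hp hq
    rwa [lin_eq, one_smul, one_smul] at h
  zero_mem' := by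
    have h := R11.lin 0 0 hw hw
    rwa [lin_eq, zero_smul, add_zero] at h
  smul_mem' c p hp := by
    have h := R11.lin c 0 hp hp
    rwa [lin_eq, zero_smul, add_zero] at h

variable {hw : R11 w}

/-- the form of a pair -/
def rep (h11 : D11) (σ : Fs V) (p : TT hw) : Fs V :=
  p.1.1 • σ + (h11.ex (a := p.1.2) p.2).choose + star p.1.1 • (dR V).cj σ

theorem rep_eq (h11 : D11) (p : TT hw) (h : Is11 p.1.2 β) :
    rep h11 σ p = p.1.1 • σ + β + star p.1.1 • (dR V).cj σ := by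
  rw [rep, (h11.ex (a := p.1.2) p.2).choose_spec.uniq h]

theorem rep_lin (A : PWA) (h11 : D11) (x y : ℝ) (p q : TT hw) :
    rep h11 σ (x • p + y • q) = (x : ℂ) • rep h11 σ p + (y : ℂ) • rep h11 σ q := by
  obtain ⟨β, hβ⟩ := h11.ex (a := p.1.2) p.2
  obtain ⟨γ, hγ⟩ := h11.ex (a := q.1.2) q.2
  have h := Is11.lin A (x : ℂ) (y : ℂ) hβ hγ
  rw [lin_eq] at h
  rw [rep_eq h11 p hβ, rep_eq h11 q hγ, rep_eq h11 (x • p + y • q) h]
  have h1 : (x • p + y • q).1.1 = x * p.1.1 + y * q.1.1 := by simp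
  have h2 : star (x * p.1.1 + y * q.1.1 : ℂ) = x * star p.1.1 + y * star q.1.1 := by simp
  rw [h1, h2]
  module

/-- the real class of a pair -/
def cl (A : PWA) (h11 : D11) (m : Mark V r) (σ : Fs V) : TT hw →ₗ[ℝ] (Fin r → ℝ) where
  toFun p i := (m.c (rep h11 σ p) i).re
  map_add' p q := by
    have h := rep_lin (σ := σ) A h11 1 1 p q
    rw [one_smul, one_smul] at h
    funext i
    simp [h]
  map_smul' c p := by
    have h := rep_lin (σ := σ) A h11 c 0 p p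
    rw [zero_smul, add_zero] at h
    funext i
    simp [h]

variable [ConnectedSpace V.X]

/-- the quadratic form on pairs -/
def BT (S : SData s W κ) : TT hw →ₗ[ℝ] TT hw →ₗ[ℝ] ℝ :=
  LinearMap.mk₂ ℝ (fun p q => (p.1.1 * star q.1.1).re + QQ s p.1.2 q.1.2)
    (fun p p' q => by
      have h := q_add_left S (a := p.1.2) (a' := p'.1.2) (b := q.1.2) p.2.toIsClosedForm
        p'.2.toIsClosedForm q.2.toIsClosedForm
      show ((p.1.1 + p'.1.1) * _).re + QQ s (fun e z => p.1.2 e z + p'.1.2 e z) _ = _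
      unfold QQ
      rw [h, add_mul, Complex.add_re]
      ring)
    (fun c p q => by
      have h := q_smul_left (s := s) (a := p.1.2) (b := q.1.2) c
      rw [sm_eq] at h
      show ((c • p.1.1) * _).re + QQ s (c • p.1.2) _ = c * _
      unfold QQ
      rw [h, smul_mul_assoc, Complex.smul_re, smul_eq_mul]
      ring)
    (fun p q q' => by
      have h := q_add_right S (a := p.1.2) (b := q.1.2) (b' := q'.1.2) p.2.toIsClosedForm
        q.2.toIsClosedForm q'.2.toIsClosedForm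
      show (_ * star (q.1.1 + q'.1.1)).re + QQ s _ (fun e z => q.1.2 e z + q'.1.2 e z) = _
      unfold QQ
      rw [h, star_add, mul_add, Complex.add_re]
      ring)
    (fun c p q => by
      have h := q_smul_right S (a := p.1.2) (b := q.1.2) c
      rw [sm_eq] at h
      show (_ * star (c • q.1.1)).re + QQ s _ (c • q.1.2) = c * _
      unfold QQ
      rw [h, star_smul, star_trivial, mul_smul_comm, Complex.smul_re, smul_eq_mul]
      ring)

theorem BT_apply (S : SData s W κ) (p q : TT hw) :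
    BT S p q = (p.1.1 * star q.1.1).re + QQ s p.1.2 q.1.2 := rfl

theorem BT_symm (S : SData s W κ) (p q : TT hw) : BT S p q = BT S q p := by
  rw [BT_apply, BT_apply, QQ, QQ, q_symm S]
  simp [mul_comm]

theorem rep_cl (h20 : D20) (h11 : D11) (hs : IsSymplectic (n + n) V.X w s) (hσ : Is20 s σ)
    (p : TT hw) : Cl2 V (rep h11 σ p) :=
  cl3 h20 h11 hs hσ p.2 (h11.ex (a := p.1.2) p.2).choose_spec _ _

theorem rep_c (A : PWA) (h11 : D11) (m : Mark V r) (h20 : D20)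
    (hs : IsSymplectic (n + n) V.X w s) (hσ : Is20 s σ) (p : TT hw) :
    m.c (rep h11 σ p) = rc (cl A h11 m σ p) := by
  obtain ⟨β, hβ⟩ := h11.ex (a := p.1.2) p.2
  have h1 : (dR V).cj (rep h11 σ p) = rep h11 σ p := by
    rw [rep_eq h11 p hβ, map_add, map_add, map_smulₛₗ, map_smulₛₗ, (dR_ok V).cjcj,
      (h11.cl p.2 hβ).2]
    simp only [starRingEnd_apply, star_star]
    abel
  have h2 := m.cj _ (rep_cl h20 h11 hs hσ p)
  rw [h1] at h2
  funext i
  exact (Complex.conj_eq_iff_re.1 (congrFun h2 i).symm).symm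

theorem vol_cls (hV : VOL) (m : Mark V r) (hu : Cl2 V u) (hv : Cl2 V v) (h : m.c u = m.c v) :
    Vol u = Vol v := by
  rw [← hV.cls hv ((m.eq_of hu hv).1 h), add_sub_cancel]

theorem vol_rep (A : PWA) (P : PWB) (h20 : D20) (h11 : D11) (hV : VOL) (hn : 0 < n)
    (hs : IsSymplectic (n + n) V.X w s) (hσ : Is20 s σ) (S : SData s W κ) (p : TT hw) :
    Vol (rep h11 σ p) = ((vol s * BT S p p ^ n : ℝ) : ℂ) := by
  rw [rep, vol_tri A P h20 h11 hV hn hs hσ p.2 (h11.ex (a := p.1.2) p.2).choose_spec, BT_apply,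
    Complex.star_def, Complex.mul_conj, Complex.ofReal_re]
  push_cast
  ring

theorem QQ_zero (b : Fld V) : QQ s 0 b = 0 := by
  have h := q_smul_left (s := s) (a := b) (b := b) 0
  rw [sm_eq, zero_smul, zero_mul] at h
  rw [QQ, h, zero_div]

theorem core (A : PWA) (P : PWB) (h20 : D20) (h11 : D11) (hV : VOL) (hH : HD) (hn : 0 < n)
    (sc : SimplyConnectedSpace V.X) (m : Mark V r) (hs : IsSymplectic (n + n) V.X w s)
    (hσ : Is20 s σ) (S : SData s W κ) : Function.Surjective (cl (hw := hw) A h11 m σ) ∧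
    ∃ q : Matrix (Fin r) (Fin r) ℝ, q.transpose = q ∧
      (∀ x y : TT hw, BT S x y = Rt.bf q (cl A h11 m σ x) (cl A h11 m σ y)) ∧
      ∀ u k, Cl2 V u → m.c u = rc k → Vol u = ((vol s * Rt.bf q k k ^ n : ℝ) : ℂ) := by
  have hv := Vale.Agent.P301.H450.vol_pos S
  have hc := rep_c (hw := hw) A h11 m h20 hs hσ
  have hcl := rep_cl (hw := hw) h20 h11 hs hσ
  have hvol := vol_rep (hw := hw) A P h20 h11 hV hn hs hσ S
  have hsur : Function.Surjective (cl (hw := hw) A h11 m σ) := fun k => by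
    obtain ⟨x, b, β, hb, hβ, h⟩ := real_rep A h20 h11 hH sc m hs hσ k
    obtain ⟨p, hp⟩ : ∃ p : TT hw, p.1 = (x, b) := ⟨⟨_, hb⟩, rfl⟩
    refine ⟨p, rc_inj ?_⟩
    rw [← hc, rep_eq h11 p (β := β) (by rw [hp]; exact hβ), hp, h]
  have h0 : R11 (0 : Fld V) := (TT hw).zero_mem
  obtain ⟨g, hg⟩ : ∃ p : TT hw, p.1 = (1, 0) := ⟨⟨(1, 0), h0⟩, rfl⟩
  obtain ⟨q, hq, hB⟩ := Rt.desc hn _ hsur (BT S) (BT_symm S) (fun x y h => by
    have h1 := vol_cls hV m (hcl x) (hcl y) (by rw [hc, hc, h])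
    rw [hvol, hvol] at h1
    exact mul_left_cancel₀ hv.ne' (Complex.ofReal_injective h1)) (x₀ := g)
    (by rw [BT_apply, hg, QQ_zero]; simp)
  refine ⟨hsur, q, hq, hB, fun u k hu h => ?_⟩
  obtain ⟨p, rfl⟩ := hsur k
  rw [← hB, ← hvol]
  exact vol_cls hV m hu (hcl p) (by rw [h, hc])

theorem frame (A : PWA) (h20 : D20) (h11 : D11) (hn : 0 < n) (m : Mark V r)
    (hs : IsSymplectic (n + n) V.X w s) (hσ : Is20 s σ) (hk : IsHK s W κ) :
    ∃ f : Fin 3 → TT hw, (∀ i j, BT (SData.of hs hk) (f i) (f j) = if i = j then 1 else 0) ∧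
      ∀ p : TT hw, (∀ i, BT (SData.of hs hk) p (f i) = 0) → cl A h11 m σ p ≠ 0 →
        BT (SData.of hs hk) p p < 0 := by
  have S := SData.of hs hk
  have hz' : ∀ b, QQ s b 0 = 0 := fun b => by rw [QQ, q_symm S]; exact QQ_zero b
  have h0 : R11 (0 : Fld V) := (TT hw).zero_mem
  have hW := R11.kahler hk.kahler
  have hκ := hk.pos
  have h1 := Real.mul_self_sqrt hκ.le
  have h2 := (Real.sqrt_pos.2 hκ).ne'
  obtain ⟨g, hg⟩ : ∃ g : TT hw, g.1 = (0, W) := ⟨⟨_, hW⟩, rfl⟩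
  obtain ⟨g0, hg0⟩ : ∃ g : TT hw, g.1 = (1, 0) := ⟨⟨_, h0⟩, rfl⟩
  obtain ⟨g1, hg1⟩ : ∃ g : TT hw, g.1 = (Complex.I, 0) := ⟨⟨_, h0⟩, rfl⟩
  refine ⟨![g0, g1, (√κ)⁻¹ • g], fun i j => ?_, fun p h hp => ?_⟩
  · fin_cases i <;> fin_cases j <;>
      simp [-SetLike.val_smul, map_smul, BT_apply, QQ_zero, hz', QQ_hk hn S, hg, hg0, hg1]
    field_simp
    linarith
  · have h3 := h 0
    have h4 := h 1
    have h5 := h 2
    simp [-SetLike.val_smul, map_smul, BT_apply, hz', h2, hg, hg0, hg1] at h3 h4 h5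
    have h6 : p.1.1 = 0 := Complex.ext h3 h4
    have hd := dpos hn S
    obtain ⟨h7, h8⟩ := hodge_prim (by omega) hs hk ⟨p.2.toIsClosedForm, p.2.herm⟩
      ((div_eq_zero_iff.1 h5).resolve_right hd.ne')
    rw [BT_apply, h6, zero_mul, Complex.zero_re, zero_add]
    refine div_neg_of_neg_of_pos (h7.lt_of_ne fun h9 => hp ?_) hd
    obtain ⟨φ, hφ, h10⟩ := h8 h9
    obtain ⟨β, hβ⟩ := h11.ex (a := p.1.2) p.2
    have h11' : Is11 (ddc φ) β := fun e x hx => by
      show _ = f11 _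
      rw [hβ.val hx, h10 e x hx]
    refine rc_inj ?_
    rw [← rep_c A h11 m h20 hs hσ, rep_eq h11 p hβ, h6, star_zero, zero_smul, zero_smul, zero_add,
      add_zero, rc_zero]
    exact (m.ker β (h11.cl p.2 hβ).1).2 (h11.ddc hφ h11')

theorem cplx (hV : VOL) (m : Mark V r) {q : Matrix (Fin r) (Fin r) ℝ} {c t : ℝ}
    {q' : Matrix (Fin r) (Fin r) ℤ} (ht : 0 < t) (hq : ∀ x y, qR q' x y = t * Rt.bf q x y)
    (hre : ∀ u k, Cl2 V u → m.c u = rc k → Vol u = ((c * Rt.bf q k k ^ n : ℝ) : ℂ))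
    (hu : Cl2 V u) : Vol u = ((c / t ^ n : ℝ) : ℂ) * qC q' (m.c u) (m.c u) ^ n := by
  obtain ⟨a, b, hab⟩ : ∃ a b, m.c u = rc a + Complex.I • rc b := ⟨_, _, re_im _⟩
  obtain ⟨u₁, h1, e1⟩ := m.onto (rc a)
  obtain ⟨u₂, h2, e2⟩ := m.onto (rc b)
  obtain ⟨Q, -, hQ⟩ := hV.line u₁ u₂
  have h3 := Rt.poly_ext (P := Q) (c := (c : ℝ)) (A := (Rt.bf q a a : ℝ))
    (b := (Rt.bf q a b + Rt.bf q b a : ℝ)) (a := (Rt.bf q b b : ℝ)) (n := n) one_pos
    (fun y _ _ => by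
      rw [← hQ, hre _ (fun i => a i + y * b i) (h1.add (h2.smul _))
        (by rw [map_add, map_smul, e1, e2]; funext i; simp [rc]), Rt.bf_line]
      push_cast
      ring) Complex.I
  rw [vol_cls hV m hu (h1.add (h2.smul Complex.I)) (by rw [map_add, map_smul, e1, e2, hab]),
    hQ, h3, hab]
  simp only [qC_add_l, qC_add_r, qC_smul_l, qC_smul_r, qC_rc, hq]
  have h4 : (t : ℂ) ≠ 0 := Complex.ofReal_ne_zero.2 ht.ne'
  push_cast
  rw [div_mul_eq_mul_div, mul_div_assoc, ← div_pow]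
  congr 2
  field_simp
  ring

end FujH

open FujH in
/-- **row FUJ** -/
theorem fuj_of (A : PWA) (P : PWB) (h20 : D20) (h11 : D11) (hV : VOL) (hH : HD) (hI : INTV)
    (hR : RAT) : FUJ := by
  intro n r V m w s hn sc hs
  obtain ⟨u₀, κ, -, hk⟩ := exists_rf hs hs.kahler
  have hw := R11.kahler hs.kahler
  have hv := Vale.Agent.P301.H450.vol_pos (SData.of hs hk)
  obtain ⟨σ, hσ⟩ := h20.ex hs.form
  obtain ⟨hsur, q, hq, hB, hre⟩ := core (hw := hw) A P h20 h11 hV hH hn sc m hs hσ (SData.of hs hk)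
  obtain ⟨f, hf, hneg⟩ := frame (hw := hw) A h20 h11 hn m hs hσ hk
  obtain ⟨lam, hlam⟩ := hI V ⟨w, hs.kahler⟩ inferInstance
  obtain ⟨t, q', ht, hq'⟩ := hR r n q (vol s) lam hn hq hv.ne' fun k => by
    obtain ⟨u, hu, h⟩ := m.onto fun i => (k i : ℂ)
    obtain ⟨j, hj⟩ := hlam u hu ((m.int u hu).2 ⟨k, h⟩)
    refine ⟨j, ?_⟩
    rw [← hj, hre u (zr k) hu (by rw [h]; funext i; simp [rc, zr])]
    rfl
  have hqR : ∀ x y, qR q' x y = t * Rt.bf q x y := fun x y => by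
    simp only [qR, Rt.bf, hq', Finset.mul_sum, mul_assoc]
  have h1 := Real.mul_self_sqrt ht.le
  have h2 := (Real.sqrt_pos.2 ht).ne'
  refine ⟨⟨q', vol s / t ^ n, hn, ?_, by positivity, fun i => cl A h11 m σ ((√t)⁻¹ • f i), ?_, ?_⟩,
    fun u hu => cplx hV m ht hqR hre hu, ?_⟩
  · ext i j
    have h : q j i = q i j := congrFun (congrFun hq i) j
    exact Int.cast_injective (α := ℝ) (by rw [Matrix.transpose_apply, hq', hq', h])
  · intro i j
    rw [hqR, ← hB, map_smul, map_smul, LinearMap.smul_apply, hf, smul_eq_mul, smul_eq_mul]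
    nth_rw 1 [← h1]
    field_simp
  · intro v h hv0
    obtain ⟨p, rfl⟩ := hsur v
    rw [hqR, ← hB]
    refine mul_neg_of_pos_of_neg ht (hneg p (fun i => ?_) hv0)
    have h3 := h i
    rw [hqR, ← hB, map_smul, smul_eq_mul] at h3
    simpa [ht.ne', h2] using h3
  · intro u hu k h
    obtain ⟨p, hp⟩ : ∃ p : TT hw, p.1 = (0, w) := ⟨⟨_, hw⟩, rfl⟩
    have h3 : cl A h11 m σ p = k := rc_inj (by
      rw [← rep_c A h11 m h20 hs hσ, rep_eq h11 p (β := u) (by rw [hp]; exact hu), ← h, hp]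
      simp)
    show 0 < qR q' k k
    rw [← h3, hqR, ← hB, BT_apply, hp]
    simpa using mul_pos ht (QQ_pos hn hs hs.kahler)

end Vale.Agent.P301Z.Lat
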