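import Vale.Agent.P301Z.Lat.HdD
import Vale.Agent.P277Z.Ln.Dol0

/-!
# P301, block LAT, row HD: the local Weyl and Dolbeault lemmas for sequences of forms
-/

open scoped Manifold ContDiff Topology Matrix ENNReal
open Filter MeasureTheory Metric
open Vale.Agent.P272.K Vale.Agent.P299.IX Vale.Agent.P299.IX.Fock
open Vale.Agent.P281Z (Mf)
open Vale.Agent.P281Z.Hg Vale.Agent.P281Z.Hg.G6H
open Vale.Agent.P277Z.Ln

noncomputable section

namespace Vale.Agent.P301Z.Lat.Hd

namespace W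

variable {d : ℕ} {α : Type} {l : Filter α} {B S : Set (Cm d)}

theorem Z_of {F : α → Cm d → Fo d} {g : α → Cm d → ℂ} (hB : MeasurableSet B) (hS : B ⊆ S)
    (hF : Tendsto (fun k => ∫⁻ z in S, ‖F k z‖ₑ) l (𝓝 0))
    (h : ∀ k, ∀ z ∈ B, ‖g k z‖ ≤ ‖F k z‖) : Dol.Z l B g := by
  refine Dol.Z.of_le hF ENNReal.one_ne_top fun k => ?_
  rw [one_mul]
  refine le_trans (setLIntegral_mono' hB fun z hz => ?_) (lintegral_mono_set hS)
  rw [← ofReal_norm, ← ofReal_norm]
  exact ENNReal.ofReal_le_ofReal (h k z hz)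

theorem sumZ {ι : Type} [Fintype ι] {F : α → Cm d → Fo d} {a : ι → α → Cm d → ℂ} (v : ι → Fo d)
    (hB : MeasurableSet B) (hc : ∀ i k, ContinuousOn (a i k) B) (ha : ∀ i, Dol.Z l B (a i))
    (h : ∀ k, ∀ z ∈ B, F k z = ∑ i, a i k z • v i) :
    Tendsto (fun k => ∫⁻ z in B, ‖F k z‖ₑ) l (𝓝 0) := by
  have h1 : Tendsto (fun k => ∑ i, Dol.L1 B (a i k) * ‖v i‖ₑ) l (𝓝 0) := by
    have := tendsto_finsetSum Finset.univ fun i _ =>
      ENNReal.Tendsto.mul_const (b := ‖v i‖ₑ) (ha i) (Or.inr enorm_ne_top)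
    simpa using this
  refine tendsto_of_tendsto_of_tendsto_of_le_of_le tendsto_const_nhds h1 (fun _ => zero_le)
    fun k => ?_
  have hm : ∀ i, AEMeasurable (fun z => ‖a i k z‖ₑ) (volume.restrict B) := fun i =>
    ((hc i k).aemeasurable hB).enorm
  calc ∫⁻ z in B, ‖F k z‖ₑ ≤ ∫⁻ z in B, ∑ i, ‖a i k z‖ₑ * ‖v i‖ₑ :=
        setLIntegral_mono' hB fun z hz => by
          rw [h k z hz]
          exact (enorm_sum_le _ _).trans_eq (Finset.sum_congr rfl fun i _ => enorm_smul _ _)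
    _ = ∑ i, Dol.L1 B (a i k) * ‖v i‖ₑ := by
        rw [lintegral_finsetSum' _ fun i _ => (hm i).mul_const _]
        exact Finset.sum_congr rfl fun i _ => lintegral_mul_const'' _ (hm i)

theorem iot_sum (a : Fin d) (w : Fin d → Fo d) :
    iot (ah a) *ᵥ ∑ c, eps (ah c) *ᵥ w c = w a - ∑ c, eps (ah c) *ᵥ (iot (ah a) *ᵥ w c) := by
  rw [Matrix.mulVec_sum, Finset.sum_congr rfl fun c _ => D20A.iot_eps (ah a) (ah c) (w c),
    Finset.sum_sub_distrib]
  simp only [F1bH.ah_inj, Finset.sum_ite_eq, Finset.mem_univ, if_true]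

theorem iot0 (a : Fin (d + d)) (v : Fo d) : (iot a *ᵥ v) ∅ = v {a} := by
  rw [iot_mulVec, if_neg (Finset.notMem_empty a), sg_min (by simp), one_mul]
  rfl

theorem van {p : ℕ} {u : Fo d} (h1 : pm d p *ᵥ u = u) (h2 : dg p *ᵥ u = u) (j : Fin d)
    (I : FI (d + d)) (hI : ah j ∈ I) : u I = 0 := by
  by_contra h0
  have a := congrFun h1 I
  have b := congrFun h2 I
  rw [pm, Matrix.mulVec_diagonal] at a
  rw [dg_mulVec] at b
  have a' : tp I = p := by
    by_contra h
    rw [if_neg h, zero_mul] at a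
    exact h0 a.symm
  have b' : I.card = p := by
    by_contra h
    rw [if_neg h] at b
    exact h0 b.symm
  exact F1bH.ah_lt j (Finset.card_filter_eq_iff.1 (a'.trans b'.symm) _ hI)

theorem dec01 {u : Fo d} (h1 : pm d 0 *ᵥ u = u) (h2 : dg 1 *ᵥ u = u) :
    u = ∑ c, u {ah c} • ev {ah c} := by
  funext I
  rw [Finset.sum_apply]
  simp only [Pi.smul_apply, ev, Pi.single_apply, smul_eq_mul, mul_ite, mul_one, mul_zero]
  by_cases h : ∃ c, I = {ah c}
  · obtain ⟨c, rfl⟩ := h
    simp only [Finset.singleton_inj, F1bH.ah_inj, Finset.sum_ite_eq, Finset.mem_univ, if_true]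
  · rw [Finset.sum_eq_zero fun c _ => if_neg fun e => h ⟨c, e⟩]
    by_contra h0
    have a := congrFun h1 I
    have b := congrFun h2 I
    rw [pm, Matrix.mulVec_diagonal] at a
    rw [dg_mulVec] at b
    have a' : tp I = 0 := by
      by_contra h
      rw [if_neg h, zero_mul] at a
      exact h0 a.symm
    have b' : I.card = 1 := by
      by_contra h
      rw [if_neg h] at b
      exact h0 b.symm
    obtain ⟨j, rfl⟩ := Finset.card_eq_one.1 b'
    induction j using F1bH.idx with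
    | h i =>
      have := Finset.card_eq_zero.1 a'
      rw [Finset.filter_singleton, if_pos (F1bH.hl_lt i)] at this
      exact Finset.singleton_ne_empty _ this
    | h' i => exact h ⟨i, rfl⟩

theorem Dv_ah (c : Fin d) (u : Cm d → Fo d) (z : Cm d) (I : FI (d + d)) :
    Dv (ah c) u z I = dzb c (fun y => u y I) z := by
  rw [Dv, k1aT.dr_ah]

variable {V : Mf d} {w : Fld V} {K : KP (dR V)} {e : Chart d V.X}

theorem Ab_at (hK : RealK w K) (u : Fs V) (he : e ∈ atlas (Cm d) V.X) {z : Cm d}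
    (hz : z ∈ e.target) : vl (K.Ab u) e z = ∑ c, eps (ah c) *ᵥ Dv (ah c) (vl u e) z := by
  have h := Ab_eq hK u (at_symm he hz)
  rwa [e.right_inv hz] at h

theorem types (hK : RealK w K) {u : Fs V} {p m : ℕ} (h1 : K.pr p u = u)
    (h2 : (dR V).dg m u = u) (he : e ∈ atlas (Cm d) V.X) {z : Cm d} (hz : z ∈ e.target) :
    pm d p *ᵥ vl u e z = vl u e z ∧ dg m *ᵥ vl u e z = vl u e z := by
  have h8 := hK.pr p u e _ (at_symm he hz)
  have h9 := (dR_real V).dg m u e _ (at_symm he hz)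
  rw [h1, e.right_inv hz] at h8
  rw [h2, e.right_inv hz] at h9
  exact ⟨h8.symm, h9.symm⟩

theorem sm (u : Fs V) (he : e ∈ atlas (Cm d) V.X) (hB : B ⊆ e.target) (I : FI (d + d)) :
    Dol.Sm B fun z => vl u e z I := fun z hz =>
  (contDiffOn_pi.1 (vl_smooth u he) I).contDiffAt (e.open_target.mem_nhds (hB hz))

theorem ball3 (x : V.X) {S S' : Set (Cm d)} (h : S ∈ 𝓝 (chartAt (Cm d) x x))
    (h' : S' ∈ 𝓝 (chartAt (Cm d) x x)) : ∃ r : ℝ, 0 < r ∧
      ball (chartAt (Cm d) x x) (3 * r) ⊆ S ∧ ball (chartAt (Cm d) x x) (3 * r) ⊆ S' ∧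
      ball (chartAt (Cm d) x x) (3 * r) ⊆ (chartAt (Cm d) x).target := by
  obtain ⟨R, hR, hs⟩ := Metric.mem_nhds_iff.1 (inter_mem (inter_mem h h')
    ((chartAt (Cm d) x).open_target.mem_nhds (mem_chart_target _ x)))
  refine ⟨R / 3, by positivity, ?_⟩
  rw [show 3 * (R / 3) = R by ring]
  exact ⟨fun z hz => (hs hz).1.1, fun z hz => (hs hz).1.2, fun z hz => (hs hz).2⟩

end W

open W

theorem wl_of (hC : CH) (hE : EXT) : WL := by
  intro d V w K P p x u t1 t2 hc hd
  obtain ⟨S, hS, hc⟩ := hc _ (at_chart x)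
  obtain ⟨S', hS', hd⟩ := hd _ (at_chart x)
  obtain ⟨r, hr, b1, b2, b3⟩ := ball3 x hS hS'
  have he := (at_chart x).1
  have hx := at_chart x
  generalize chartAt (Cm d) x = e at *
  have key : ∀ s a, ∀ z ∈ e.target,
      Dv (ah a) (vl (u s) e) z = iot (ah a) *ᵥ vl (K.Ab (u s)) e z := fun s a z hz => by
    rw [Ab_at P.rk _ he hz, iot_sum, Finset.sum_eq_zero fun c _ => ?_, sub_zero]
    have h0 : iot (ah a) *ᵥ Dv (ah c) (vl (u s) e) z = 0 := by
      funext J
      rw [iot_mulVec, Pi.zero_apply]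
      split_ifs
      · rfl
      · have h2 : (fun y => vl (u s) e y (insert (ah a) J)) =ᶠ[𝓝 z] fun _ => 0 := by
          filter_upwards [e.open_target.mem_nhds hz] with y hy
          obtain ⟨k1, k2⟩ := types P.rk (t1 s) (t2 s) he hy
          exact van k1 k2 a _ (Finset.mem_insert_self _ _)
        rw [Dv_ah, INT.dzb_congr h2, INT.dzb_const, mul_zero]
    rw [h0, Matrix.mulVec_zero]
  choose G hG hZ using fun I : FI (d + d) => Dol.weyl_loc (e x) hr
    (f := fun s z => vl (u s) e z I) (fun s => sm _ he b3 I)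
    (Z_of measurableSet_ball b1 hc fun q z _ => norm_le_pi_norm (vl (u q.1 - u q.2) e z) I)
    fun a => Z_of measurableSet_ball b2 hd fun s z hz => by
      rw [← Dv_ah, key s a z (b3 hz)]
      exact norm_iot _ _ _
  have hb : ball (e x) r ⊆ ball (e x) (3 * r) := ball_subset_ball (by linarith)
  have hb' : ball (e x) (r / 2) ⊆ ball (e x) r := ball_subset_ball (by linarith)
  have hA := fun I => Vale.Agent.P268.analyticOnNhd_of_differentiableOn isOpen_ball (hG I)
  obtain ⟨Γ, hΓ⟩ := hE (U := fun z I => G I z) he hr (hb.trans b3) fun z hz =>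
    contDiffAt_pi.2 fun I => ((hA I z hz).contDiffAt (n := ∞)).restrict_scalars ℝ
  have hn : ball (e x) (r / 2) ∈ 𝓝 (e x) := ball_mem_nhds _ (by linarith)
  refine ⟨Γ, ?_, hC hx hn (sumZ (a := fun I s z => vl (u s) e z I - G I z) ev measurableSet_ball
    (fun I s => ((sm _ he (hb'.trans (hb.trans b3)) I).cont).sub ((hG I).continuousOn.mono hb'))
    (fun I => (hZ I).mono hb') fun s z hz => ?_)⟩
  · filter_upwards [e.open_source.mem_nhds hx.2, (e.continuousAt hx.2).eventually hn] with y h1 h2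
    refine (g1T d V.X).zp _ e y ⟨he, h1⟩ ?_
    rw [Ab_eq P.rk _ ⟨he, h1⟩]
    refine Finset.sum_eq_zero fun c _ => ?_
    have h0 : Dv (ah c) (vl Γ e) (e y) = 0 := by
      funext I
      have h3 : (fun z => vl Γ e z I) =ᶠ[𝓝 (e y)] G I := by
        filter_upwards [isOpen_ball.mem_nhds h2] with z hz
        rw [hΓ z hz]
      rw [Dv_ah, INT.dzb_congr h3, INT.dzb_of_holo (hA I _ (hb' h2)).differentiableAt]
      rfl
    rw [h0, Matrix.mulVec_zero]
  · funext J
    rw [vl_sub, hΓ z hz, Finset.sum_apply]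
    simp [ev, Pi.single_apply]

theorem dl_of (hC : CH) (hE : EXT) : DL := by
  intro d V w K P x θ t1 t2 hc hd
  obtain ⟨S, hS, hc⟩ := hc _ (at_chart x)
  obtain ⟨S', hS', hd⟩ := hd _ (at_chart x)
  obtain ⟨r, hr, b1, b2, b3⟩ := ball3 x hS hS'
  have he := (at_chart x).1
  have hx := at_chart x
  generalize chartAt (Cm d) x = e at *
  obtain ⟨u, hu, z1, z2⟩ := Dol.dol (e x) hr (show r < 3 * r by linarith)
    (fun s a z => vl (θ s) e z {ah a}) (fun s a => sm _ he b3 _)
    (fun a => Z_of measurableSet_ball b1 hc fun q z _ =>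
      norm_le_pi_norm (vl (θ q.1 - θ q.2) e z) {ah a})
    fun a b => Z_of measurableSet_ball b2 hd fun s z hz => by
      have h1 : (iot (ah b) *ᵥ (iot (ah a) *ᵥ vl (K.Ab (θ s)) e z)) ∅ =
          dzb a (fun y => vl (θ s) e y {ah b}) z - dzb b (fun y => vl (θ s) e y {ah a}) z := by
        rw [Ab_at P.rk _ he (b3 hz), iot_sum, Matrix.mulVec_sub, iot_sum, Pi.sub_apply,
          Pi.sub_apply, iot0, iot0, Finset.sum_apply,
          Finset.sum_eq_zero fun c _ => eps_mulVec_empty _ _, sub_zero, Dv_ah, Dv_ah]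
      rw [← h1]
      exact (norm_iot _ _ _).trans ((pi_norm_le_iff_of_nonneg (norm_nonneg _)).2
        fun J => norm_iot _ _ J)
  have hb : ball (e x) r ⊆ ball (e x) (3 * r) := ball_subset_ball (by linarith)
  have hb' : ball (e x) (r / 2) ⊆ ball (e x) r := ball_subset_ball (by linarith)
  choose f hf using fun s => hE (U := fun z => u s z • (ev ∅ : Fo d)) he hr (hb.trans b3)
    fun z _ => (hu s).contDiffAt.smul contDiffAt_const
  have hn : ball (e x) (r / 2) ∈ 𝓝 (e x) := ball_mem_nhds _ (by linarith)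
  refine ⟨f, hC hx hn (sumZ (ι := Unit) (a := fun _ (q : ℕ × ℕ) z => u q.1 z - u q.2 z)
    (fun _ => ev ∅) measurableSet_ball
    (fun _ q => ((hu q.1).continuous.sub (hu q.2).continuous).continuousOn)
    (fun _ => z1.mono hb') fun q z hz => ?_), hC hx hn
    (sumZ (a := fun a s z => dzb a (u s) z - vl (θ s) e z {ah a}) (fun a => ev {ah a})
      measurableSet_ball (fun a s => (((Dol.Sm.of (hu s)).dzb a).sub
        (sm _ he (hb'.trans (hb.trans b3)) _)).cont) (fun a => (z2 a).mono hb') fun s z hz => ?_)⟩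
  · rw [vl_sub, hf _ z hz, hf _ z hz, ← sub_smul]
    simp
  · have hz' := b3 (hb (hb' hz))
    obtain ⟨k1, k2⟩ := types P.rk (t1 s) (t2 s) he hz'
    rw [vl_sub, Ab_at P.rk _ he hz']
    conv_lhs => rw [dec01 k1 k2]
    rw [← Finset.sum_sub_distrib]
    refine Finset.sum_congr rfl fun c _ => ?_
    have h0 : Dv (ah c) (vl (f s) e) z = dzb c (u s) z • ev ∅ := by
      funext I
      have h3 : (fun y => vl (f s) e y I) =ᶠ[𝓝 z] fun y => (ev ∅ : Fo d) I * u s y := by
        filter_upwards [isOpen_ball.mem_nhds hz] with y hy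
        rw [hf s y hy, Pi.smul_apply, smul_eq_mul, mul_comm]
      rw [Dv_ah, INT.dzb_congr h3, INT.dzb_const_mul _ ((hu s).differentiable (by simp) z),
        Pi.smul_apply, smul_eq_mul, mul_comm]
    rw [h0, Matrix.mulVec_smul, eps_ev_min (by simp), sub_smul]
    rfl

end Vale.Agent.P301Z.Lat.Hd
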