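import Vale.Agent.P301Z.Lat.HdL
import Vale.Agent.P301Z.Lat.HdW
import Vale.Agent.P301Z.Lat.Hd
import Vale.Agent.P301Z.Lat.Hol2

/-!
# P301, block LAT: row REG and the Hodge decomposition in degree two
-/

open scoped Manifold ContDiff Topology Matrix
open Filter
open Vale.Agent.P272.K Vale.Agent.P299.IX Vale.Agent.P299.IX.Fock
open Vale.Agent.P281Z (Mf)
open Vale.Agent.P281Z.Hg

noncomputable section

namespace Vale.Agent.P301Z.Lat

namespace Hd

open HdH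

variable {d : ℕ} {V : Mf d} {w : Fld V} {K : KP (dR V)} {x : V.X}

theorem dg_d (m : ℕ) (u : Fs V) : (dR V).dg (m + 1) ((dR V).d u) = (dR V).d ((dR V).dg m u) :=
  LinearMap.congr_fun ((dR_ok V).dg_d m) u

/-- the local Poincaré lemma -/
theorem lp (P : Pack V w K) {m : ℕ} {u : Fs V} (hu : (dR V).dg (m + 1) u = u)
    (h : NZ x ((dR V).d u)) : ∃ b, (dR V).dg m b = b ∧ NZ x ((dR V).d b - u) := by
  let := ms V
  obtain ⟨r, hr, hb⟩ := Metric.eventually_nhds_iff.1 h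
  obtain ⟨δ, hδ, Q, μ, C, -, h1, h2, -, h4, -⟩ := P.eok.po r hr
  have h5 : μ x u = 0 := by
    have k := LinearMap.congr_fun ((dR_ok V).dg_mul 0 (m + 1)) u
    rw [if_neg (by omega), Module.End.mul_apply, hu, LinearMap.zero_apply] at k
    rw [← h4, k, map_zero]
  have h6 : NZ x ((dR V).d (Q x u) - u) := Metric.eventually_nhds_iff.2 ⟨δ, hδ, fun y hy => by
    have k := h2 x u y (by rwa [dist_comm])
    rwa [(h1 x _ fun y hy => hb (by rwa [dist_comm])).1, h5, zero_smul, add_zero, add_zero] at k⟩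
  refine ⟨(dR V).dg m (Q x u), dg_dg m _, ?_⟩
  have h7 := h6.op ((dR_real V).dg (m + 1))
  rwa [map_sub, dg_d, hu] at h7

theorem pr0_of (P : Pack V w K) {u : Fs V} (h : (dR V).dg 0 u = u) : K.pr 0 u = u := by
  have h1 := LinearMap.congr_fun P.ok.alg.pr_sum u
  rw [LinearMap.sum_apply, Finset.sum_eq_single 0 (fun k _ hk => by
    rw [← h]
    exact LinearMap.congr_fun (P.ok.alg.pr_lt k 0 (Nat.pos_of_ne_zero hk)) u) (by simp)] at h1
  exact h1

theorem ab0 (P : Pack V w K) {u : Fs V} (h : K.pr 0 u = u) : K.Ab u = K.pr 0 ((dR V).d u) := by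
  rw [pr0_d P, h]

theorem dg_Ab (P : Pack V w K) (m : ℕ) (u : Fs V) :
    (dR V).dg (m + 1) (K.Ab u) = K.Ab ((dR V).dg m u) := LinearMap.congr_fun (P.kia.dgAb m) u

theorem cauLZ {f : ℕ → Fs V} (h : LZ atTop x fun q : ℕ × ℕ => f q.1 - f q.2) (b : Fs V) :
    LZ atTop x fun q : ℕ × ℕ => (f q.1 - b) - (f q.2 - b) :=
  h.congr fun _ => (sub_sub_sub_cancel_right _ _ _).symm

/-- local data -/
def Good (K : KP (dR V)) (a : Fs V) (η : ℕ → Fs V) (b : Fs V) (f : ℕ → Fs V) (y : V.X) : Prop :=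
  NZ y ((dR V).d b - a) ∧ (LZ atTop y fun q : ℕ × ℕ => f q.1 - f q.2) ∧
    LZ atTop y fun s => K.Ab (f s) - (η s - K.pr 0 b)

theorem pair (P : Pack V w K) {a b b' : Fs V} {η f f' : ℕ → Fs V} (hb : (dR V).dg 1 b = b)
    (hb' : (dR V).dg 1 b' = b') (hf : ∀ s, (dR V).dg 0 (f s) = f s)
    (hf' : ∀ s, (dR V).dg 0 (f' s) = f' s) (g : Good K a η b f x) (g' : Good K a η b' f' x) :
    ∃ H, (dR V).dg 0 H = H ∧ (LZ atTop x fun s => f s - f' s - H) ∧
      LZ atTop x fun s => K.Ab (f s - f' s - H) := by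
  obtain ⟨l, l0, l1⟩ := lp P (m := 0) (x := x) (u := b' - b) (by rw [map_sub, hb, hb']) (by
    have := g'.1.sub g.1
    rwa [sub_sub_sub_cancel_right, ← map_sub] at this)
  have t0 : ∀ s, (dR V).dg 0 (f s - f' s - l) = f s - f' s - l := fun s => by
    rw [map_sub, map_sub, hf, hf', l0]
  have t1 : LZ atTop x fun s => K.Ab (f s - f' s - l) :=
    ((g.2.2.sub g'.2.2).sub (l1.op (P.rk.pr 0)).lz).congr fun s => by
      simp only [map_sub, ab0 P (pr0_of P l0)]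
      abel
  obtain ⟨Γ, k1, k2⟩ := wl_of ch ext P 0 x (fun s => f s - f' s - l) (fun s => pr0_of P (t0 s)) t0
    ((g.2.1.sub g'.2.1).congr fun q => by abel) t1
  refine ⟨l + (dR V).dg 0 Γ, by rw [map_add, l0, dg_dg],
    (k2.cop ((dR_real V).dg 0)).congr fun s => by rw [map_sub, t0, sub_sub],
    (t1.sub (k1.op ((dR_real V).dg 1)).lz).congr fun s => ?_⟩
  rw [dg_Ab P, ← map_sub, sub_sub]

theorem reg : REG := by
  intro d V w K P a ha η hc ht hn
  have nl : ∀ {α : Type} {l : Filter α} {u : α → Fs V} (x : V.X), K.Nf l u → LZ l x u :=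
    fun x h => LZ.null P.l2 P.kib.nn h
  have hloc : ∀ x, ∃ (b : Fs V) (f : ℕ → Fs V), (dR V).dg 1 b = b ∧
      (∀ s, (dR V).dg 0 (f s) = f s) ∧ ∀ᶠ y in 𝓝 x, Good K a η b f y := by
    intro x
    obtain ⟨b, b1, b2⟩ := lp P (m := 1) (x := x) ha.2 (by
      rw [ha.1]
      exact Eventually.of_forall fun _ => zero_mem _)
    have t1 : ∀ s, (dR V).dg 1 (η s - K.pr 0 b) = η s - K.pr 0 b := fun s => by
      rw [map_sub, (ht s).2, dg_pr P, b1]
    obtain ⟨f, f1, f2⟩ := dl_of ch ext P x (fun s => η s - K.pr 0 b)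
      (fun s => by rw [map_sub, (ht s).1, pr_pr P, if_pos rfl]) t1
      (cauLZ (nl x (P.kib.cau_iff.1 hc)) _)
      (((nl x hn).sub (b2.op (P.rk.pr 0)).lz).congr fun s => by
        rw [map_sub, map_sub, pr0_d P, sub_sub_sub_cancel_right])
    refine ⟨b, fun s => (dR V).dg 0 (f s), b1, fun s => dg_dg 0 _, b2.ev.and (Eventually.and
      (LZ.ev ((f1.cop ((dR_real V).dg 0)).congr fun q => map_sub _ _ _))
      (LZ.ev ((f2.cop ((dR_real V).dg 1)).congr fun s => ?_)))⟩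
    rw [map_sub, t1, dg_Ab P]
  choose b f b1 f0 hG using hloc
  obtain ⟨N, c, T, h1, h2, h3, h4⟩ := part _ hG
  have hT : ∀ i x (u : ℕ → Fs V), (∀ s, (dR V).dg 0 (u s) = u s) → LZ atTop x u →
      (LZ atTop x fun s => K.Ab (u s)) → LZ atTop x fun s => K.pr 0 ((dR V).d (T i (u s))) :=
    fun i x u u0 u1 u2 => (((h4 i x u u1).2.cop (P.rk.pr 0)).add (h4 i x _ u2).1).congr fun s => by
      rw [map_sub, h3 i _ _ (P.rk.pr 0), ab0 P (pr0_of P (u0 s)), sub_add_cancel]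
  have key : ∀ x, ∃ Γ, K.pr 0 Γ = Γ ∧ NZ x (K.pr 0 ((dR V).d Γ) - K.pr 0 a) ∧
      LZ atTop x fun s => η s - K.pr 0 ((dR V).d (∑ i, T i (f (c i) s))) - Γ := by
    intro x
    have g0 := (hG x).self_of_nhds
    have hH : ∀ i, ∃ H, LZ atTop x fun s => K.pr 0 ((dR V).d (T i (f x s - f (c i) s - H))) := by
      intro i
      rcases h2 i x with h | h
      · obtain ⟨H, k0, k1, k2⟩ := pair P (b1 x) (b1 _) (f0 x) (f0 _) g0 h
        exact ⟨H, hT i x _ (fun s => by rw [map_sub, map_sub, f0, f0, k0]) k1 k2⟩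
      · exact ⟨0, LZ.of_zero (h.eventually_nhds.mono fun y hy s =>
          ((NZ.dR (hy.mono fun z hz => hz _)).op (P.rk.pr 0)).self_of_nhds)⟩
    choose H hH using hH
    refine ⟨K.pr 0 (b x + (dR V).d (∑ i, T i (H i))), by rw [pr_pr P, if_pos rfl], ?_,
      ((LZ.sum Finset.univ fun i _ => hH i).sub g0.2.2).congr fun s => ?_⟩
    · have := g0.1.op (P.rk.pr 0)
      rwa [pr0_d P, pr_pr P, if_pos rfl, ← pr0_d P, map_add, (dR_ok V).dd, add_zero, ← map_sub]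
    · rw [← map_sum, ← map_sum, ab0 P (pr0_of P (f0 x s))]
      simp only [map_sub, map_add, Finset.sum_sub_distrib, h1]
      abel
  choose G G0 G1 G2 using key
  obtain ⟨Γ, hΓ⟩ := glue fun x => ⟨G x, G2 x⟩
  have e : K.pr 0 ((dR V).d Γ) = K.pr 0 a := eq_of_nz fun x => by
    have := (((hΓ x).uniq (G2 x)).dR.op (P.rk.pr 0)).add (G1 x)
    rwa [map_sub, map_sub, sub_add_sub_cancel] at this
  refine ⟨K.pr 0 ((dR V).dg 1 Γ), by rw [pr_pr P, if_pos rfl], by rw [dg_pr P, dg_dg], ?_⟩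
  rw [← pr0_d P, ← dg_d, ← dg_pr P, e, dg_pr P, ha.2]

end Hd

/-- row HD -/
theorem hd : HD := hd_of hol2 Hd.reg

end Vale.Agent.P301Z.Lat
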