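import Vale.Agent.P301Z.Lat.Rel

/-!
# P301, block LAT: assembly of the output from the rows
-/

open scoped Manifold ContDiff ComplexOrder Topology Matrix
open Vale.Agent.P272.K Vale.Agent.P299.IX Vale.Agent.P299.IX.Fock
open Vale.Agent.P281Z (Mf)
open Vale.Agent.P281Z.Hg
open Vale.Agent.P301.H599 (IsHolTwoForm IsSymplectic SameClass Smooth ddc LineBundle IsMetric
  curvature)
open Vale.Agent.P272.K.INT (IsClosedForm IsDensity intX)

noncomputable section

namespace Vale.Agent.P301Z.Lat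

section ty
variable {d : ℕ} {V : Mf d} {u v : Fs V} {k : ℕ}

theorem Ty.add (hu : Ty k u) (hv : Ty k v) : Ty k (u + v) := fun e x hx => by
  rw [vl_add, Matrix.mulVec_add, hu e x hx, hv e x hx]

theorem Ty.smul (c : ℂ) (hu : Ty k u) : Ty k (c • u) := fun e x hx => by
  rw [vl_smul, Matrix.mulVec_smul, hu e x hx]

theorem Ty.cj {j : ℕ} (hjk : j + k = 2) (hc : Cl2 V u) (hu : Ty j u) : Ty k ((dR V).cj u) :=
  fun e x hx => by
    have h := f1b.cjv_pm (vl u e (e x)) j k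
    rw [hjk, hc.dg hx, hu e x hx, ← f1b.cjv_dg, hc.dg hx] at h
    rw [vl_cj u hx, ← h]

theorem R11.zero : R11 (V := V) fun _ _ => 0 where
  smooth _ _ _ _ _ := contDiffAt_const
  form _ _ _ _ _ := by simp
  closed _ _ _ _ _ _ := by simp [dz]
  herm _ _ _ := Matrix.isHermitian_zero

end ty

namespace AsH

variable {n r : ℕ} {B : BB n r} {Y : MK B}

theorem c11_uniq {a v v'} (h : Y.C11 a v) (h' : Y.C11 a v') : v = v' := by
  obtain ⟨-, u, hu, -, e1⟩ := h
  obtain ⟨-, u', hu', -, e2⟩ := h'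
  rw [hu.uniq hu', e2] at e1
  exact (rc_inj e1).symm

theorem c11_congr {a a' v} (h : Y.C11 a v) (ha : R11 a')
    (e : ∀ e x, At e x → a' e (e x) = a e (e x)) : Y.C11 a' v := by
  obtain ⟨-, u, hu, hc, e1⟩ := h
  exact ⟨ha, u, fun e' x hx => by rw [e e' x hx]; exact hu e' x hx, hc, e1⟩

theorem c11_zero (A : PWA) : Y.C11 (fun _ _ => 0) 0 := by
  refine ⟨R11.zero, 0, fun e x _ => ?_, Cl2.zero, by rw [map_zero, rc_zero]⟩
  have := A.f11_smul 0 (0 : Mx (n + n))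
  rw [zero_smul, zero_smul] at this
  exact this.symm

/-- real classes are sums `y + conj y + v` -/
theorem dec (h20 : D20) (h11 : D11) (hd : HD) (hK : Y.V.Kah) (x : Fin r → ℝ) :
    ∃ s y a v, Y.Per s y ∧ Y.C11 a v ∧ rc x = y + star y + rc v := by
  obtain ⟨u, hu, e0⟩ := Y.m.onto (rc x)
  obtain ⟨σ, b, τ, c1, t1, c2, t2, c3, t3, hex⟩ := hd Y.V hK Y.sc u hu
  have e1 : rc x = Y.m.c σ + Y.m.c b + Y.m.c τ := by
    rw [← e0, ← map_add, ← map_add]
    exact (Y.m.eq_of hu ((c1.add c2).add c3)).2 hex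
  have cy : Cl2 Y.V ((1 / 2 : ℂ) • (σ + (dR Y.V).cj τ)) := (c1.add c3.cj).smul _
  have cb : Cl2 Y.V ((1 / 2 : ℂ) • (b + (dR Y.V).cj b)) := (c2.add c2.cj).smul _
  have rb : ReF Y.V ((1 / 2 : ℂ) • (b + (dR Y.V).cj b)) := by
    show (dR Y.V).cj _ = _
    rw [LinearMap.map_smulₛₗ, map_add, (dR_ok Y.V).cjcj, add_comm _ b,
      map_div₀, map_one, map_ofNat]
  obtain ⟨s, hs, is⟩ := h20.of cy ((t1.add (t3.cj rfl c3)).smul _)
  obtain ⟨a, ha, ia⟩ := h11.of cb rb ((t2.add (t2.cj rfl c2)).smul _)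
  have h1 := Y.m.cj _ cb
  rw [show (dR Y.V).cj _ = _ from rb] at h1
  obtain ⟨v, hv⟩ := exists_rc h1.symm
  refine ⟨s, _, a, v, ⟨hs, _, is, cy, rfl⟩, ⟨ha, _, ia, cb, hv⟩, ?_⟩
  have e2 := congrArg star e1
  rw [star_rc] at e2
  rw [← hv, map_smul, map_smul, map_add, map_add, Y.m.cj _ c3, Y.m.cj _ c2]
  funext i
  have f1 := congrFun e1 i
  have f2 := congrFun e2 i
  simp only [Pi.add_apply, Pi.smul_apply, Pi.star_apply, smul_eq_mul, star_add, star_mul',
    star_star, star_div₀, star_one, star_ofNat] at f1 f2 ⊢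
  linear_combination (f1 + f2) / 2

theorem hd (A : PWA) (h20 : D20) (h11 : D11) (hD : HD) (R : REL) {s w p k} (h : Y.HK s w p k)
    (x : Fin r → ℝ) (hx : qC B.q p (rc x) = 0) : ∃ a, Y.C11 a x := by
  obtain ⟨s', y, a, v, h1, h2, e⟩ := dec h20 h11 hD ⟨w, h.2.1.1⟩ x
  obtain ⟨lam, hl⟩ := (R.sym h).unique s' h1.1
  have ey : y = lam • p := by
    obtain ⟨-, u', hu', -, rfl⟩ := h1
    obtain ⟨-, u, hu, -, rfl⟩ := h.1.1
    rw [← map_smul]
    congr 1
    exact ext_F fun e z hz => by rw [vl_smul, hu' e z hz, hu e z hz, hl e z hz, A.f20_smul]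
  rw [e, ey, star_smul, qC_add_r, qC_add_r, qC_smul_r, qC_smul_r, R.pp h.1.1 h.1.1,
    R.p11 h.1.1 h2, mul_zero, zero_add, add_zero] at hx
  have l0 : lam = 0 := star_eq_zero.1 ((mul_eq_zero.1 hx).resolve_right (R.ppb h).ne')
  rw [ey, l0, zero_smul, star_zero, add_zero, zero_add] at e
  exact ⟨a, rc_inj e ▸ h2⟩

theorem ddc' (R : REL) (H : HR) {w k a a' v} (hk : Y.Kc w k) (hq : 0 < qR B.q k k)
    (h : Y.C11 a v) (h' : Y.C11 a' v) : SameClass a a' := by
  have h1 := R.add 1 (-1) h h'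
  rw [show (1 : ℝ) • v + (-1 : ℝ) • v = 0 by simp] at h1
  obtain ⟨f, hf, e⟩ := (H.prim hk hq h1 (qR_zero_l _ _)).2 (qR_zero_l _ _)
  refine ⟨f, hf, fun e' x hx => ?_⟩
  have := e e' x hx
  simp only [Complex.ofReal_one, one_smul, Complex.ofReal_neg, neg_smul, zero_add] at this
  rw [← this]
  abel

theorem pi_ne : ((2 * Real.pi : ℝ) : ℂ) ≠ 0 := by exact_mod_cast Real.two_pi_pos.ne'

theorem zr_eq {l : Fin r → ℤ} (h : (2 * Real.pi) • zr l = 0) : l = 0 := by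
  have h1 := (smul_eq_zero.1 h).resolve_left Real.two_pi_pos.ne'
  funext i
  have := congrFun h1 i
  simpa [zr] using this

theorem nef (R : REL) {s w p k} {ι : Type} {L : LineBundle (n + n) Y.V.X ι} {ρ l}
    (h : Y.HK s w p k) (hl : Y.C1 L ρ l) (hn : Nef w L ρ) (h0 : l ≠ 0) : 0 < qR B.q (zr l) k := by
  have key : ∀ ε : ℝ, 0 < ε → 0 < qR B.q ((2 * Real.pi) • zr l) ((2 * Real.pi) • zr l) +
      ε * (4 * qR B.q ((2 * Real.pi) • zr l) k + 4 * ε * qR B.q k k) ∧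
      0 < qR B.q ((2 * Real.pi) • zr l) k + ε * (2 * qR B.q k k) := by
    intro ε hε
    obtain ⟨f, hf, hp⟩ := hn ε hε
    have h1 := R.add 1 (2 * ε) hl.2 h.2.1.2
    have h2 := h1.1.lin 1 1 (R11.ddc (V := Y.V) hf)
    have h3 := R.same h1 h2 ⟨f, hf, fun e x _ => by simp⟩
    have h4 : IsKahler _ := h2.kah fun e x hx => by
      have := Matrix.PosDef.posSemidef_add (hp e x hx)
        ((h.2.1.1.posDef e x hx).smul (a := (ε : ℂ)) (by exact_mod_cast hε))
      refine (congrArg Matrix.PosDef ?_).mp this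
      ext i j
      simp only [Matrix.add_apply, Matrix.smul_apply, smul_eq_mul]
      push_cast
      ring
    obtain ⟨k1, k2⟩ := R.kpos h ⟨h4, h3⟩
    generalize (2 * Real.pi) • zr l = M at *
    simp only [one_smul, qR_add_l, qR_add_r, qR_smul_l, qR_smul_r, qR_comm _ B.symm k M] at k1 k2
    constructor <;> nlinarith
  have lim : ∀ (a : ℝ) (f : ℝ → ℝ), Continuous f → (∀ ε, 0 < ε → 0 < a + ε * f ε) → 0 ≤ a := by
    intro a f hf hp
    have h1 : Filter.Tendsto (fun ε => a + ε * f ε) (𝓝[>] 0) (𝓝 (a + 0 * f 0)) :=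
      ((by fun_prop : Continuous fun ε => a + ε * f ε).tendsto 0).mono_left nhdsWithin_le_nhds
    rw [zero_mul, add_zero] at h1
    exact ge_of_tendsto h1 (eventually_nhdsWithin_of_forall fun ε hε => (hp ε hε).le)
  have a1 := lim _ (fun ε => 4 * qR B.q ((2 * Real.pi) • zr l) k + 4 * ε * qR B.q k k)
    (by fun_prop) fun ε hε => (key ε hε).1
  have a2 := lim _ (fun _ => 2 * qR B.q k k) (by fun_prop) fun ε hε => (key ε hε).2
  have a3 : qR B.q ((2 * Real.pi) • zr l) k ≠ 0 := fun h5 =>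
    absurd (R.neg h _ (R.p11 h.1.1 hl.2) h5 fun h6 => h0 (zr_eq h6)) (not_lt.2 a1)
  have a4 := lt_of_le_of_ne a2 a3.symm
  rw [qR_smul_l] at a4
  exact (mul_pos_iff_of_pos_left Real.two_pi_pos).1 a4

end AsH

open AsH in
theorem lat_of (A : PWA) (b : PWB) (c : PWC) (h20 : D20) (h11 : D11) (v : VOL) (hD : HD)
    (mk : MARK) (H : HR) (lef : LEF) (c1 : C1I) (ihs : IHS) (fj : FUJ) : LAT where
  pwa := A
  pwb := b
  pwc := c
  d20 := h20
  d11 := h11
  vol := v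
  hdec := hD
  mark := mk
  sig := sig
  rel := rel_of A b c h20 h11 v
  hr := H
  ihs := ihs
  even := by
    rintro d V w s ⟨x⟩ h
    refine (Nat.even_or_odd d).resolve_right fun ho => h.nondeg _ x (at_chart x) ?_
    have h1 := congrArg Matrix.det (h.form.alt _ x (at_chart x))
    rw [Matrix.det_transpose, Matrix.det_neg, Fintype.card_fin, ho.neg_one_pow] at h1
    linear_combination h1 / 2
  ex := by
    intro n V sc w s hn h
    obtain ⟨r, ⟨m⟩⟩ := mk.ex V ⟨w, h.kahler⟩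
    obtain ⟨B, hF, hp⟩ := fj V m w s hn sc h
    have R := rel_of A b c h20 h11 v
    obtain ⟨p, h1⟩ := R.per (⟨V, sc, m, hF⟩ : MK B) ⟨w, h.kahler⟩ h.form
    obtain ⟨k, h2⟩ := R.c11 (⟨V, sc, m, hF⟩ : MK B) (R11.kahler h.kahler)
    refine ⟨r, B, m, hF, p, k, ⟨h1, h.nondeg⟩, ⟨h.kahler, h2⟩, ?_⟩
    obtain ⟨-, u, hu, -, e⟩ := h2
    exact hp u hu k e
  tr := by
    intro n r B Y V φ h1 h2 ho
    haveI := Y.sc
    obtain ⟨m, hm⟩ := mk.tr Y.m φ h1 h2
    obtain ⟨T, t1, t2, -⟩ := rows.pb2 _ V.X Y.V.X φ _ _ h1 h2 ho (dR_real V) (dR_real Y.V)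
    refine ⟨φ.toHomotopyEquiv.simplyConnectedSpace, m, fun u hu => ?_, h1,
      fun T' hT u _ => hm T' hT u⟩
    have e := T.apply_symm_apply u
    rw [← e, v.pb φ h1 h2 ho t1, hm T t1]
    exact Y.fuj _ ((mk.pb h2 t2 u).1 hu)
  hd h x hx := hd A h20 h11 hD (rel_of A b c h20 h11 v) h x hx
  ddc hk hq h h' := ddc' (rel_of A b c h20 h11 v) H hk hq h h'
  lef := by
    intro n r B Y a l h
    obtain ⟨ha, u, hu, hc, e⟩ := id h
    obtain ⟨L, ρ, hρ, hL⟩ := lef Y.V a u ha hu ((Y.m.int _ (hc.smul _)).2 ⟨l, by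
      rw [map_smul, e, rc_smul, smul_smul, inv_mul_cancel₀ pi_ne, one_smul]
      funext i
      simp [rc, zr]⟩)
    exact ⟨L, ρ, ⟨hρ, c11_congr h (h11.curv hρ).1 hL⟩, hL⟩
  c1 := by
    intro n r B Y ι L ρ hρ
    have ha := (h11.curv hρ).1
    obtain ⟨u, hu⟩ := h11.ex ha
    have hc := (h11.cl ha hu).1
    obtain ⟨l, hl⟩ := (Y.m.int _ (hc.smul _)).1 (c1 Y.V L ρ u hρ hu)
    refine ⟨l, hρ, ha, u, hu, hc, ?_⟩
    rw [map_smul, inv_smul_eq_iff₀ pi_ne] at hl
    rw [hl, rc_smul]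
    congr 1
  iso := by
    intro n r B Y ι L ρ l h
    have h1 := (rel_of A b c h20 h11 v).vol11 h.2
    rw [qR_smul_l, qR_smul_r] at h1
    have hp := Real.two_pi_pos.ne'
    constructor
    · intro h2
      rw [INT.intX_eq_of_isIntegral h2] at h1
      have h3 := (pow_eq_zero_iff B.npos.ne').1
        ((mul_eq_zero.1 h1.symm).resolve_left B.Cpos.ne')
      exact (mul_eq_zero.1 ((mul_eq_zero.1 h3).resolve_left hp)).resolve_left hp
    · intro h2
      rw [h2, mul_zero, mul_zero, zero_pow B.npos.ne', mul_zero] at h1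
      have h3 := h.2.1.toIsClosedForm.isDensity.isIntegral
      rwa [h1] at h3
  l0 := by
    intro n r B Y w k ι L ρ l hk hq h
    have R := rel_of A b c h20 h11 v
    constructor
    · rintro rfl
      refine ddc' R H hk hq h.2 ?_
      rw [show (2 * Real.pi) • zr (0 : Fin r → ℤ) = 0 from funext fun i => by simp [zr]]
      exact c11_zero A
    · intro hs
      exact zr_eq (c11_uniq h.2 (R.same (c11_zero A) h.2.1 hs))
  nef h hl hn h0 := nef (rel_of A b c h20 h11 v) h hl hn h0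

end Vale.Agent.P301Z.Lat
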