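import Vale.Agent.P301Z.Lat.Pk

/-!
# P301, block LAT: local calculus and cut-off functions for the first Chern class
-/

open scoped Manifold ContDiff ComplexOrder Topology Matrix
open Filter Set Metric
open Vale.Agent.P272.K Vale.Agent.P299.IX Vale.Agent.P299.IX.Fock
open Vale.Agent.P281Z (Mf)
open Vale.Agent.P281Z.Hg

noncomputable section

namespace Vale.Agent.P301Z.Lat.C1

variable {d : ℕ} {f : Cm d → ℂ} {z : Cm d}

/-- the form `∂f` -/
def del (f : Cm d → ℂ) (z : Cm d) : Fo d := ∑ j, dz j f z • (eps (hl j) *ᵥ ev ∅)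

theorem Dv_fn (c : Fin (d + d)) (hf : DifferentiableAt ℝ f z) (a : Fo d) :
    Dv c (fun w => f w • a) z = dr c f z • a := by
  rw [Ka.Dv_fmul hf (differentiableAt_const a), Ka.Dv_const, smul_zero, add_zero]

theorem dT_fn (hf : DifferentiableAt ℝ f z) : dT (fun w => f w • (ev ∅ : Fo d)) z =
    del f z + ∑ j, dzb j f z • (eps (ah j) *ᵥ ev ∅) := by
  simp only [dT, Dv_fn _ hf, Matrix.mulVec_smul, Ka.sum_idx, Ka.dr_hl, Ka.dr_ah, del]

theorem pm_ev (k : ℕ) : pm d k *ᵥ (ev ∅ : Fo d) = if k = 0 then ev ∅ else 0 := by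
  funext I
  rw [mulVec_ev, pm, Matrix.diagonal_apply]
  by_cases h : I = ∅
  · subst h
    by_cases hk : k = 0 <;> simp [hk, tp, ev, eq_comm]
  · by_cases hk : k = 0 <;> simp [hk, h, ev]

theorem pm_dT (hf : DifferentiableAt ℝ f z) :
    pm d 1 *ᵥ dT (fun w => f w • (ev ∅ : Fo d)) z = del f z := by
  have h1 : ∀ j : Fin d, pm d 1 *ᵥ (eps (hl j) *ᵥ ev ∅) = eps (hl j) *ᵥ ev ∅ := fun j => by
    rw [Matrix.mulVec_mulVec, f1b.pm_hl d 0 j, ← Matrix.mulVec_mulVec, pm_ev, if_pos rfl]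
  have h2 : ∀ j : Fin d, pm d 1 *ᵥ (eps (ah j) *ᵥ ev ∅) = 0 := fun j => by
    rw [Matrix.mulVec_mulVec, f1b.pm_ah d 1 j, ← Matrix.mulVec_mulVec, pm_ev, if_neg one_ne_zero,
      Matrix.mulVec_zero]
  simp only [dT_fn hf, del, Matrix.mulVec_add, Matrix.mulVec_sum, Matrix.mulVec_smul, h1, h2,
    smul_zero, Finset.sum_const_zero, add_zero]

theorem dT_hol (hf : DifferentiableAt ℂ f z) : dT (fun w => f w • (ev ∅ : Fo d)) z = del f z := by
  simp only [dT_fn (hf.restrictScalars ℝ), dzb_of_holo hf, zero_smul, Finset.sum_const_zero,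
    add_zero]

theorem dT_del {r : Cm d → ℝ} (hr : ContDiffAt ℝ ∞ r z) :
    dT (del fun w => (r w : ℂ)) z = Complex.I • f11 (cHess r z) := by
  have h0 : ContDiffAt ℝ ∞ (fun w => (r w : ℂ)) z := C2.contDiffAt_ofReal hr
  have h2 : ContDiffAt ℝ 2 (fun w => (r w : ℂ)) z := h0.of_le (WithTop.coe_le_coe.2 le_top)
  have h1 : ∀ j, DifferentiableAt ℝ (dz j fun w => (r w : ℂ)) z := fun j =>
    C2.differentiableAt_dz j h2
  have h3 : ∀ c, Dv c (del fun w => (r w : ℂ)) z =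
      ∑ j, dr c (dz j fun w => (r w : ℂ)) z • (eps (hl j) *ᵥ ev ∅) := fun c =>
    (Ka.Dv_sum _ fun j _ => (h1 j).smul_const _).trans
      (Finset.sum_congr rfl fun j _ => Dv_fn c (h1 j) _)
  have h4 : ∑ k, ∑ j, dz k (dz j fun w => (r w : ℂ)) z •
      ((eps (hl k) * eps (hl j)) *ᵥ (ev ∅ : Fo d)) = 0 := Ka.anti fun k j => by
    rw [eps_eps, Matrix.neg_mulVec, smul_neg, C2.dz_dz_comm k j h2]
  simp only [dT, h3, Matrix.mulVec_sum, Matrix.mulVec_smul, Matrix.mulVec_mulVec, Ka.sum_idx,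
    Ka.dr_hl, Ka.dr_ah, h4, zero_add, f11, Lw, Matrix.sum_mulVec, Matrix.smul_mulVec,
    Finset.smul_sum, smul_smul]
  rw [Finset.sum_comm]
  refine Finset.sum_congr rfl fun j _ => Finset.sum_congr rfl fun k _ => ?_
  rw [eps_eps, Matrix.neg_mulVec, smul_neg, ← neg_smul, ← C2.dz_dzb_comm j k h2, ← mul_assoc,
    Complex.I_mul_I, neg_one_mul]
  rfl

theorem del_sub {r s : Cm d → ℝ} (hr : ContDiffAt ℝ ∞ r z) (hs : ContDiffAt ℝ ∞ s z)
    (hf : DifferentiableAt ℂ f z)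
    (h : ∀ᶠ w in 𝓝 z, r w = s w + Real.log (‖Complex.exp (f w)‖ ^ 2)) :
    del (fun w => (r w : ℂ)) z - del (fun w => (s w : ℂ)) z = del f z := by
  have hf' := hf.restrictScalars ℝ
  have h1 := (C2.contDiffAt_ofReal hr).differentiableAt (by simp)
  have h2 := (C2.contDiffAt_ofReal hs).differentiableAt (by simp)
  simp only [del, ← Finset.sum_sub_distrib, ← sub_smul]
  refine Finset.sum_congr rfl fun j _ => congrArg (· • _) ?_
  rw [← C2.dz_sub j h1 h2, C2.dz_congr j (g := fun w => f w + (starRingEnd ℂ) (f w)),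
    C2.dz_add j hf' (C2.differentiableAt_conj hf'), C2.dz_conj j hf', dzb_of_holo hf, map_zero,
    add_zero]
  filter_upwards [h] with w hw
  rw [hw, Complex.add_conj, Complex.norm_exp, Real.log_pow, Real.log_exp]
  push_cast
  ring

variable {V : Mf d}

theorem fn (p : V.X) {W : Set V.X} (hW : IsOpen W) (hp : p ∈ W) :
    ∃ O : Set V.X, IsOpen O ∧ p ∈ O ∧ O ⊆ W ∧ ∀ f : V.X → ℂ,
      (∀ y ∈ W, ∀ e : Chart d V.X, At e y → ContDiffAt ℝ ∞ (fun z => f (e.symm z)) (e y)) →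
      ∃ v : Fs V, (dR V).dg 0 v = v ∧ ∀ y ∈ O, ∀ e : Chart d V.X, At e y →
        vl v e =ᶠ[𝓝 (e y)] fun z => f (e.symm z) • ev ∅ := by
  set c : Chart d V.X := chartAt (Cm d) p
  have hc : At c p := at_chart p
  obtain ⟨r, hr, hb⟩ := nhds_basis_closedBall.mem_iff.1
    ((c.isOpen_inter_preimage_symm hW).mem_nhds
      ⟨hc.mem_target, show c.symm (c p) ∈ W by rwa [hc.left_inv]⟩)
  let χ : ContDiffBump (c p) := ⟨r / 2, r, half_pos hr, half_lt_self hr⟩
  have hO := c.isOpen_inter_preimage (isOpen_ball (x := c p) (ε := r / 2))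
  refine ⟨_, hO, ⟨hc.2, mem_ball_self (half_pos hr)⟩, fun y hy => ?_, fun f hf => ?_⟩
  · rw [← c.left_inv hy.1]
    exact (hb (ball_subset_closedBall (ball_subset_ball (half_le_self hr.le) hy.2))).2
  have hz : ∀ z, z ∉ closedBall (c p) r → χ =ᶠ[𝓝 z] 0 := fun z hz =>
    notMem_tsupport_iff_eventuallyEq.1 (χ.tsupport_eq ▸ hz)
  obtain ⟨v, hv, hv0⟩ := (g1T d V.X).loc c (c.symm '' closedBall (c p) r)
    (fun z => ((χ z : ℂ) * f (c.symm z)) • ev ∅) hc.1
    ((isCompact_closedBall _ _).image_of_continuousOn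
      (c.continuousOn_symm.mono fun z hz => (hb hz).1))
    (by rintro _ ⟨z, hz, rfl⟩; exact c.map_target (hb hz).1)
    (fun z hzt => by
      refine ContDiffAt.contDiffWithinAt ?_
      by_cases h : z ∈ closedBall (c p) r
      · have h1 := hf _ (hb h).2 c (At.of_target hc.1 hzt)
        rw [c.right_inv hzt] at h1
        exact ((C2.contDiffAt_ofReal χ.contDiff.contDiffAt).mul h1).smul contDiffAt_const
      · exact (contDiffAt_const (c := 0)).congr_of_eventuallyEq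
          ((hz z h).mono fun w hw => by simp [hw]))
    fun z hzt h => by
      have h1 : z ∉ closedBall (c p) r := fun h1 => h ⟨_, ⟨z, h1, rfl⟩, c.right_inv hzt⟩
      simp [(hz z h1).self_of_nhds]
  refine ⟨v, (g1T d V.X).ext _ _ fun x => ?_, fun y hy e he => ?_⟩
  · by_cases hx : x ∈ c.source
    · refine ⟨c, ⟨hc.1, hx⟩, ?_⟩
      rw [(dR_real V).dg 0 v c x ⟨hc.1, hx⟩, hv _ (c.map_source hx), f1a.dg0]
      simp [ev]
    · refine ⟨_, at_chart x, ?_⟩
      rw [(dR_real V).dg 0 v _ x (at_chart x), hv0 x (by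
        rintro ⟨z, hz, rfl⟩
        exact hx (c.map_target (hb hz).1)) _ (at_chart x), Matrix.mulVec_zero]
  · refine G2H.ev_at he ((hO.eventually_mem hy).mono fun w hw hew => ?_)
    rw [(vl_isF v).ch e c w hew ⟨hc.1, hw.1⟩, hv _ (c.map_source hw.1),
      χ.one_of_mem_closedBall (ball_subset_closedBall hw.2), c.left_inv hw.1, Matrix.mulVec_smul]
    simp only [Complex.ofReal_one, one_mul, hew.left_inv]
    exact congrArg (f w • ·) (f1a.lr_ev _)

end Vale.Agent.P301Z.Lat.C1
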