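import Vale.Agent.P301Z.Lat.RatA
import Mathlib.LinearAlgebra.BilinearMap
import Mathlib.LinearAlgebra.Pi
import Mathlib.Order.Interval.Set.Infinite
import Mathlib.Algebra.CharZero.Infinite

/-! # P301, block LAT: algebra for the Fujiki relation -/

open Polynomial

set_option linter.all false

noncomputable section

namespace Vale.Agent.P301Z.Lat.Rt

lemma lin_zero {A b a : ℝ} {n : ℕ} (hn : 0 < n) (hA : A ≠ 0)
    (h : ∀ t : ℝ, (A + b * t + a * t * t) ^ n = A ^ n) : b = 0 := by
  have h1 : (1 + C (b / A) * X + C (a / A) * X * X : ℝ[X]) ^ n = 1 := by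
    refine Polynomial.funext fun t => ?_
    have h2 : 1 + b / A * t + a / A * t * t = (A + b * t + a * t * t) / A := by field_simp
    simp only [eval_pow, eval_add, eval_one, eval_mul, eval_C, eval_X]
    rw [h2, div_pow, h, div_self (pow_ne_zero _ hA)]
  have h2 := (coeff_pow (a / A) (b / A) n).2.1
  rw [h1, coeff_one, if_neg one_ne_zero] at h2
  have h3 : (n : ℝ) ≠ 0 := Nat.cast_ne_zero.2 hn.ne'
  have h4 := (mul_eq_zero.1 h2.symm).resolve_left h3
  exact (div_eq_zero_iff.1 h4).resolve_right hA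

/-- a form whose power depends only on the class descends -/
theorem desc {T : Type} [AddCommGroup T] [Module ℝ T] {r n : ℕ} (hn : 0 < n)
    (cl : T →ₗ[ℝ] (Fin r → ℝ)) (hcl : Function.Surjective cl) (B : T →ₗ[ℝ] T →ₗ[ℝ] ℝ)
    (hs : ∀ x y, B x y = B y x) (h : ∀ x y, cl x = cl y → B x x ^ n = B y y ^ n) {x₀ : T}
    (h0 : B x₀ x₀ ≠ 0) : ∃ q : Matrix (Fin r) (Fin r) ℝ, q.transpose = q ∧
      ∀ x y, B x y = bf q (cl x) (cl y) := by
  have h1 : ∀ N, cl N = 0 → ∀ x, B x x ≠ 0 → B x N = 0 := by
    intro N hN x hx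
    have h2 := lin_zero (b := 2 * B x N) (a := B N N) hn hx fun t => by
      rw [← h (x + t • N) x (by rw [map_add, map_smul, hN, smul_zero, add_zero])]
      simp only [map_add, map_smul, LinearMap.add_apply, LinearMap.smul_apply, smul_eq_mul, hs N x]
      ring
    linarith
  have h2 : ∀ N, cl N = 0 → ∀ x, B x N = 0 := by
    intro N hN x
    by_cases hx : B x x = 0
    · by_cases h3 : B (x + x₀) (x + x₀) = 0
      · have h4 : B (x - x₀) (x - x₀) ≠ 0 := by
          simp only [map_add, map_sub, LinearMap.add_apply, LinearMap.sub_apply] at h3 ⊢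
          intro h5
          apply h0
          linarith
        have h5 := h1 N hN _ h4
        rwa [map_sub, LinearMap.sub_apply, h1 N hN x₀ h0, sub_zero] at h5
      · have h5 := h1 N hN _ h3
        rwa [map_add, LinearMap.add_apply, h1 N hN x₀ h0, add_zero] at h5
    · exact h1 N hN x hx
  choose s hs' using hcl
  have h3 : ∀ x y, B y x = B y (∑ i, cl x i • s (Pi.single i 1)) := by
    intro x y
    have h4 := h2 (x - ∑ i, cl x i • s (Pi.single i 1)) (by
      rw [map_sub, map_sum, sub_eq_zero]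
      simp only [map_smul, hs']
      exact pi_eq_sum_univ' (cl x)) y
    rwa [map_sub, sub_eq_zero] at h4
  refine ⟨Matrix.of fun i j => B (s (Pi.single i 1)) (s (Pi.single j 1)), ?_, fun x y => ?_⟩
  · ext i j
    exact hs _ _
  · rw [h3 y x, hs, h3 x, hs]
    simp only [bf, map_sum, map_smul, LinearMap.sum_apply, LinearMap.smul_apply, smul_eq_mul,
      Matrix.of_apply, Finset.mul_sum]
    rw [Finset.sum_comm]
    refine Finset.sum_congr rfl fun i _ => Finset.sum_congr rfl fun j _ => ?_
    ring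

/-- a polynomial which is a power of a quadratic polynomial on a real interval -/
lemma poly_ext {P : ℂ[X]} {c A b a : ℂ} {n : ℕ} {ε : ℝ} (hε : 0 < ε)
    (h : ∀ t : ℝ, 0 ≤ t → t ≤ ε → P.eval (t : ℂ) = c * (A + b * t + a * t * t) ^ n) (t : ℂ) :
    P.eval t = c * (A + b * t + a * t * t) ^ n := by
  have h1 : P = C c * (C A + C b * X + C a * X * X) ^ n := by
    refine Polynomial.eq_of_infinite_eval_eq _ _ ?_
    refine ((Set.Icc_infinite hε).image Complex.ofReal_injective.injOn).mono ?_
    rintro _ ⟨s, hs, rfl⟩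
    show P.eval (s : ℂ) = _
    rw [h s hs.1 hs.2]
    simp
  rw [h1]
  simp

end Vale.Agent.P301Z.Lat.Rt
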