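import Vale.Agent.P301Z.Lat.Rel
import Vale.Agent.P301Z.Lat.FujA
import Vale.Agent.P301.H450.HI
import Vale.Agent.P301.H450.Fuj

/-! # P301, block LAT: the top power of `x σ + β + z σ̄` -/

open scoped Manifold ContDiff ComplexOrder Topology Matrix
open Vale.Agent.P272.K Vale.Agent.P299.IX Vale.Agent.P299.IX.Fock
open Vale.Agent.P281Z (Mf)
open Vale.Agent.P281Z.Hg
open Vale.Agent.P301.H599 (IsHolTwoForm IsSymplectic SameClass Smooth ddc)
open Vale.Agent.P272.K.INT (IsClosedForm IsDensity intX)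
open Vale.Agent.P301.H450 (IsHK SData vol exists_rf q_self q_addH q_add_left q_add_right
  q_smul_left q_smul_right q_symm q_congr)

set_option linter.all false

noncomputable section

namespace Vale.Agent.P301Z.Lat

namespace FujH

variable {n : ℕ} {V : Mf (n + n)} {w s W a b : Fld V} {σ β ω' : Fs V} {κ : ℝ}

/-- the normalised form on closed `(1,1)`-forms -/
def QQ (s a b : Fld V) : ℝ := Vale.Agent.P301.H450.q s a b / (((n + n : ℕ) : ℝ) * vol s)

theorem vol_const {u : Fs V} {c : ℂ} {g : Chart (n + n) V.X → Cm (n + n) → ℝ}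
    (h : ∀ e x, At e x → pw (vl u e (e x)) = c * g e (e x)) : Vol u = c * (intX g : ℝ) := by
  unfold Vol itg
  rw [INT.intX_congr (D := fun e z => (pw (vl u e z)).re) (D' := fun e z => c.re * g e z)
      fun e x hx => by rw [h e x hx, Complex.re_mul_ofReal],
    INT.intX_congr (D := fun e z => (pw (vl u e z)).im) (D' := fun e z => c.im * g e z)
      fun e x hx => by rw [h e x hx, Complex.im_mul_ofReal],
    INT.intX_const_mul, INT.intX_const_mul]
  conv_rhs => rw [← Complex.re_add_im c]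
  push_cast
  ring

theorem vol_hk (P : PWB) (S : SData s W κ) (hσ : Is20 s σ) (hω : Is11 W ω') (x z : ℂ) :
    Vol (x • σ + ω' + z • (dR V).cj σ) = (x * z + κ) ^ n * (vol s : ℝ) := by
  refine vol_const fun e y hy => ?_
  have hκ := S.hk.pos
  have hp := S.hk.kahler.posDef e y hy
  have h1 := P.hk _ _ κ (S.form.alt e y hy) (S.nondeg e y hy) hp (S.hk.rel e y hy) x 1 z
  have h2 := Vale.Agent.P301.H450.det_rel hp (isUnit_iff_ne_zero.2 (S.nondeg e y hy))
    (S.hk.rel e y hy)
  have h3 : (W e (e y)).det.re = κ ^ n * ‖(s e (e y)).det‖ := by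
    refine (pow_left_inj₀ (Complex.pos_iff.1 hp.det_pos).1.le (by positivity) two_ne_zero).1 ?_
    rw [h2]
    ring
  rw [det_herm hp.isHermitian, h3, one_smul, one_pow, mul_one] at h1
  rw [vl_add, vl_add, vl_smul, vl_smul, vl_cj σ hy, hσ e y hy, hω.val hy]
  refine mul_left_cancel₀ (pow_ne_zero n (Complex.ofReal_ne_zero.2 hκ.ne')) ?_
  rw [h1]
  push_cast
  ring

variable [ConnectedSpace V.X]

theorem dpos (hn : 0 < n) (S : SData s W κ) : 0 < ((n + n : ℕ) : ℝ) * vol s :=
  mul_pos (Nat.cast_pos.2 (by omega)) (Vale.Agent.P301.H450.vol_pos S)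

theorem QQ_hk (hn : 0 < n) (S : SData s W κ) : QQ s W W = κ := by
  rw [QQ, q_self S, mul_div_cancel_right₀ _ (dpos hn S).ne']

theorem cl3 (h20 : D20) (h11 : D11) (hs : IsSymplectic (n + n) V.X w s) (hσ : Is20 s σ)
    (hb : R11 b) (hβ : Is11 b β) (x z : ℂ) : Cl2 V (x • σ + β + z • (dR V).cj σ) := by
  have h1 : Cl2 V σ := h20.cl ⟨w, hs.kahler⟩ hs.form hσ
  exact ((h1.smul x).add (h11.cl hb hβ).1).add (h1.cj.smul z)

theorem QQ_pos (hn : 0 < n) (hs : IsSymplectic (n + n) V.X w s) (hb : IsKahler b) :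
    0 < QQ s b b := by
  obtain ⟨u, κ, hu, hk⟩ := exists_rf hs hb
  have S := SData.of hs hk
  have h1 : QQ s (addH b u) (addH b u) = QQ s b b :=
    congrArg (· / _) (q_addH S (R11.kahler hb).toIsClosedForm hu)
  rw [← h1, QQ_hk hn S]
  exact hk.pos

theorem vol_kah (A : PWA) (P : PWB) (h20 : D20) (h11 : D11) (hV : VOL) (hn : 0 < n)
    (hs : IsSymplectic (n + n) V.X w s) (hσ : Is20 s σ) (hb : IsKahler b) (hβ : Is11 b β)
    (x z : ℂ) :
    Vol (x • σ + β + z • (dR V).cj σ) = (x * z + QQ s b b) ^ n * (vol s : ℝ) := by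
  obtain ⟨u, κ, hu, hk⟩ := exists_rf hs hb
  have S := SData.of hs hk
  obtain ⟨γ, hγ⟩ := h11.ex (R11.ddc (V := V) hu)
  have h1 : Is11 (addH b u) (β + γ) := fun e y hy => by
    show vl β e (e y) + vl γ e (e y) = f11 (b e (e y) + ddc u e (e y))
    rw [hβ.val hy, hγ.val hy, A.f11_add]
  have h2 : QQ s (addH b u) (addH b u) = QQ s b b :=
    congrArg (· / _) (q_addH S (R11.kahler hb).toIsClosedForm hu)
  rw [← h2, QQ_hk hn S, ← vol_hk P S hσ h1 x z,
    ← hV.cls (cl3 h20 h11 hs hσ (R11.kahler hb) hβ x z) (h11.ddc hu hγ)]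
  congr 1
  abel

theorem QQ_line (S : SData s W κ) (ha : R11 a) (hb : R11 b) (t : ℝ) :
    QQ s (fun e z => a e z + (t : ℂ) • b e z) (fun e z => a e z + (t : ℂ) • b e z) =
      QQ s a a + 2 * QQ s a b * t + QQ s b b * t * t := by
  have ca := ha.toIsClosedForm
  have cb := hb.toIsClosedForm
  have ct : IsClosedForm fun e z => (t : ℂ) • b e z := cb.smul _
  unfold QQ
  rw [q_add_left S ca ct (ca.add ct), q_add_right S ca ca ct, q_add_right S ct ca ct, q_smul_left,
    q_smul_left, q_smul_right S, q_smul_right S, q_symm S b a]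
  ring

theorem vol_tri (A : PWA) (P : PWB) (h20 : D20) (h11 : D11) (hV : VOL) (hn : 0 < n)
    (hs : IsSymplectic (n + n) V.X w s) (hσ : Is20 s σ) (hb : R11 b) (hβ : Is11 b β)
    (x z : ℂ) :
    Vol (x • σ + β + z • (dR V).cj σ) = (x * z + QQ s b b) ^ n * (vol s : ℝ) := by
  obtain ⟨u, κ, hu, hk⟩ := exists_rf hs hs.kahler
  have S := SData.of hs hk
  have hw := R11.kahler hs.kahler
  obtain ⟨ω', hω⟩ := h11.ex hw
  have hc := R11.lin 1 (-1) hb hw
  have hγ := Is11.lin A ((1 : ℝ) : ℂ) ((-1 : ℝ) : ℂ) hβ hω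
  set c : Fld V := fun e z => ((1 : ℝ) : ℂ) • b e z + ((-1 : ℝ) : ℂ) • w e z with hcd
  set γ : Fs V := ((1 : ℝ) : ℂ) • β + ((-1 : ℝ) : ℂ) • ω' with hγd
  obtain ⟨ε, hε, hε'⟩ := Vale.Agent.P301.H450.exists_small hs.kahler ⟨hc.toIsClosedForm, hc.herm⟩
  obtain ⟨Q, -, hQ⟩ := hV.line (x • σ + ω' + z • (dR V).cj σ) γ
  have h1 := Rt.poly_ext (P := Q) (c := (vol s : ℝ)) (A := x * z + QQ s w w)
    (b := 2 * QQ s w c) (a := QQ s c c) (n := n) hε (fun t h0 h1 => by
      have h2 : R11 (V := V) fun e z => w e z + (t : ℂ) • c e z := by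
        simpa using R11.lin 1 t hw hc
      have h3 : IsKahler fun e z => w e z + (t : ℂ) • c e z := by
        refine h2.kah fun e y hy => ?_
        have h5 : w e (e y) + (t : ℂ) • c e (e y) = ((1 - t / ε : ℝ) : ℂ) • w e (e y) +
            ((t / ε : ℝ) : ℂ) • (w e (e y) + (ε : ℂ) • c e (e y)) := by
          have hε0 : (ε : ℂ) ≠ 0 := Complex.ofReal_ne_zero.2 hε.ne'
          ext i j
          simp only [Matrix.add_apply, Matrix.smul_apply, smul_eq_mul]
          push_cast
          field_simp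
          ring
        rw [h5]
        rcases h0.eq_or_lt with rfl | h0'
        · simpa using hs.kahler.posDef e y hy
        · refine Matrix.PosDef.posSemidef_add ?_ ?_
          · refine (hs.kahler.posDef e y hy).posSemidef.smul (Complex.zero_le_real.2 ?_)
            rw [sub_nonneg, div_le_one hε]
            exact h1
          · exact (hε'.posDef e y hy).smul (Complex.zero_lt_real.2 (div_pos h0' hε))
      have h4 : Is11 (V := V) (fun e z => w e z + (t : ℂ) • c e z) (ω' + (t : ℂ) • γ) := by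
        simpa using Is11.lin A 1 (t : ℂ) hω hγ
      have h5 := vol_kah A P h20 h11 hV hn hs hσ h3 h4 x z
      rw [QQ_line S hw hc] at h5
      rw [← hQ, show x • σ + ω' + z • (dR V).cj σ + (t : ℂ) • γ =
        x • σ + (ω' + (t : ℂ) • γ) + z • (dR V).cj σ by abel, h5]
      push_cast
      ring) 1
  have h2 := QQ_line S hw hc 1
  have h3 : QQ s (fun e z => w e z + ((1 : ℝ) : ℂ) • c e z) (fun e z => w e z + ((1 : ℝ) : ℂ) • c e z)
      = QQ s b b := by
    have h4 : (fun e z => w e z + ((1 : ℝ) : ℂ) • c e z) = b := by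
      funext e z
      simp [hcd]
    rw [h4]
  rw [← hQ, show x • σ + ω' + z • (dR V).cj σ + (1 : ℂ) • γ = x • σ + β + z • (dR V).cj σ by
    rw [hγd]; push_cast; module] at h1
  rw [h1, ← h3, h2]
  push_cast
  ring

end FujH

end Vale.Agent.P301Z.Lat
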