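import Vale.Agent.P301Z.Lat.HdD

/-!
# P301, block LAT, row HD: change of charts for local `L¹` limits, extension from a ball
-/

open scoped Manifold ContDiff Topology Matrix ENNReal
open Filter MeasureTheory Metric
open Vale.Agent.P272.K Vale.Agent.P299.IX Vale.Agent.P299.IX.Fock
open Vale.Agent.P281Z (Mf)
open Vale.Agent.P281Z.Hg Vale.Agent.P281Z.Hg.G6H

noncomputable section

namespace Vale.Agent.P301Z.Lat.Hd

namespace CX

theorem mulVec_le {ι : Type} [Fintype ι] (A : Matrix ι ι ℂ) (v : ι → ℂ) :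
    ‖A *ᵥ v‖ ≤ (∑ K, ∑ I, ‖A K I‖) * ‖v‖ := by
  refine (pi_norm_le_iff_of_nonneg (by positivity)).2 fun K => ?_
  calc ‖(A *ᵥ v) K‖ ≤ ∑ I, ‖A K I‖ * ‖v‖ := norm_sum_le_of_le _ fun I _ => by
        rw [norm_mul]
        exact mul_le_mul_of_nonneg_left (norm_le_pi_norm v I) (norm_nonneg _)
    _ = (∑ I, ‖A K I‖) * ‖v‖ := (Finset.sum_mul _ _ _).symm
    _ ≤ _ := mul_le_mul_of_nonneg_right (Finset.single_le_sum (f := fun K => ∑ I, ‖A K I‖)
        (fun _ _ => by positivity) (Finset.mem_univ K)) (norm_nonneg _)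

end CX

theorem ch : CH := by
  intro d V α l x u e S hx hS hu e' hx'
  set T := e'.symm ≫ₕ e with hT
  have hsrc : T.source = e'.target ∩ e'.symm ⁻¹' e.source := by
    rw [hT, OpenPartialHomeomorph.trans_source]; rfl
  have hsm : ∀ z ∈ T.source, ContDiffAt ℝ ∞ (fun z => e (e'.symm z)) z := fun z hz => by
    rw [hsrc] at hz
    have h := INT.transition_contDiffAt (at_symm hx'.1 hz.1) (⟨hx.1, hz.2⟩ : At e (e'.symm z))
    rw [e'.right_inv hz.1] at h
    exact (h.of_le le_top).restrict_scalars ℝ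
  have hc : e' x ∈ T.source := by
    rw [hsrc]
    exact ⟨e'.map_source hx'.2, by rw [Set.mem_preimage, e'.left_inv hx'.2]; exact hx.2⟩
  have hf := hsm _ hc
  have hne : (fderiv ℝ (fun z => e (e'.symm z)) (e' x)).det ≠ 0 := fun h0 => by
    have h1 := congrArg Matrix.det ((g1T d V.X).jt_inv e' e x hx' hx)
    rw [Matrix.det_mul, jt, k1b'.jc_det (hf.differentiableAt (by simp)), h0] at h1
    simp at h1
  have c1 : ContinuousAt (fun z => |(fderiv ℝ (fun z => e (e'.symm z)) z).det|) (e' x) :=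
    (ContinuousLinearMap.continuous_det.continuousAt.comp
      (hf.fderiv_right (m := 0) (by simp)).continuousAt).abs
  have c2 : ContinuousAt (fun z => ∑ K, ∑ I, ‖lam (jc (fun z => e (e'.symm z)) z) K I‖) (e' x) :=
    tendsto_finsetSum _ fun K _ => tendsto_finsetSum _ fun I _ =>
      (k1b'.lr_smooth (k1b'.jc_smooth hf) K I).continuousAt.norm
  obtain ⟨δ, hδ, h1⟩ : ∃ δ : ℝ, 0 < δ ∧ ∀ᶠ z in 𝓝 (e' x),
      δ < |(fderiv ℝ (fun z => e (e'.symm z)) z).det| :=
    ⟨_, half_pos (abs_pos.2 hne), c1.eventually (lt_mem_nhds (half_lt_self (abs_pos.2 hne)))⟩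
  obtain ⟨C, hC, h2⟩ : ∃ C : ℝ, 0 ≤ C ∧ ∀ᶠ z in 𝓝 (e' x),
      ∑ K, ∑ I, ‖lam (jc (fun z => e (e'.symm z)) z) K I‖ < C :=
    ⟨_, by positivity, c2.eventually (gt_mem_nhds (lt_add_one _))⟩
  have h3 : ∀ᶠ z in 𝓝 (e' x), e (e'.symm z) ∈ S := hf.continuousAt.eventually (by
    show ∀ᶠ y in 𝓝 (e (e'.symm (e' x))), y ∈ S
    rw [e'.left_inv hx'.2]; exact hS)
  obtain ⟨O, hO, hOo, hOc⟩ := _root_.mem_nhds_iff.1
    (((h1.and h2).and h3).and (T.open_source.mem_nhds hc))
  refine ⟨O, hOo.mem_nhds hOc, ?_⟩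
  have h4 := ENNReal.Tendsto.const_mul (a := ENNReal.ofReal (C / δ)) hu
    (Or.inr ENNReal.ofReal_ne_top)
  rw [mul_zero] at h4
  refine tendsto_of_tendsto_of_tendsto_of_le_of_le tendsto_const_nhds h4 (fun _ => zero_le)
    fun k => ?_
  have h5 := lintegral_image_eq_lintegral_abs_det_fderiv_mul volume hOo.measurableSet
    (f := fun z => e (e'.symm z)) (f' := fderiv ℝ fun z => e (e'.symm z))
    (fun z hz => ((hsm z (hO hz).2).differentiableAt (by simp)).hasFDerivAt.hasFDerivWithinAt)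
    (T.injOn.mono fun z hz => (hO hz).2) fun z => ‖vl (u k) e z‖ₑ
  calc ∫⁻ z in O, ‖vl (u k) e' z‖ₑ
      ≤ ∫⁻ z in O, ENNReal.ofReal (C / δ) * (ENNReal.ofReal
          |(fderiv ℝ (fun z => e (e'.symm z)) z).det| * ‖vl (u k) e (e (e'.symm z))‖ₑ) :=
        setLIntegral_mono' hOo.measurableSet fun z hz => by
          obtain ⟨⟨⟨a1, a2⟩, -⟩, a4⟩ := hO hz
          rw [hsrc] at a4
          have h6 := (vl_isF (u k)).ch e' e _ (at_symm hx'.1 a4.1) ⟨hx.1, a4.2⟩
          rw [jt, e'.right_inv a4.1] at h6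
          rw [h6, ← ofReal_norm, ← ofReal_norm, ← ENNReal.ofReal_mul (abs_nonneg _),
            ← ENNReal.ofReal_mul (by positivity)]
          refine ENNReal.ofReal_le_ofReal ((CX.mulVec_le _ _).trans ?_)
          rw [← mul_assoc]
          refine mul_le_mul_of_nonneg_right (a2.le.trans ?_) (norm_nonneg _)
          rw [div_mul_eq_mul_div, le_div_iff₀ hδ]
          exact mul_le_mul_of_nonneg_left a1.le hC
    _ = ENNReal.ofReal (C / δ) * ∫⁻ z in (fun z => e (e'.symm z)) '' O, ‖vl (u k) e z‖ₑ := by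
        rw [lintegral_const_mul' _ _ ENNReal.ofReal_ne_top, h5]
    _ ≤ _ := mul_le_mul_right (lintegral_mono_set (by
        rintro _ ⟨z, hz, rfl⟩
        exact (hO hz).1.2)) _

theorem ext : EXT := by
  intro d V e c r U he hr hb hU
  let φ : ContDiffBump c := ⟨r / 2, 3 * r / 4, by positivity, by linarith⟩
  have hcb : closedBall c (3 * r / 4) ⊆ ball c r := closedBall_subset_ball (by linarith)
  obtain ⟨v, hv, -⟩ := (g1T d V.X).loc e (e.symm '' closedBall c (3 * r / 4))
    (fun z => (φ z : ℂ) • U z) he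
    ((isCompact_closedBall _ _).image_of_continuousOn (e.continuousOn_symm.mono (hcb.trans hb)))
    (by rintro _ ⟨z, hz, rfl⟩; exact e.map_target (hb (hcb hz)))
    (fun z _ => by
      refine ContDiffAt.contDiffWithinAt ?_
      by_cases hz : z ∈ ball c r
      · exact (Complex.ofRealCLM.contDiff.contDiffAt.comp z φ.contDiff.contDiffAt).smul (hU z hz)
      · refine (contDiffAt_const (c := (0 : Fo d))).congr_of_eventuallyEq ?_
        filter_upwards [isClosed_closedBall.isOpen_compl.mem_nhds fun h => hz (hcb h)] with y hy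
        rw [φ.zero_of_le_dist (not_le.1 fun h => hy (mem_closedBall.2 h)).le, Complex.ofReal_zero, zero_smul])
    fun z hz hz' => by
      have h1 : z ∉ closedBall c (3 * r / 4) := fun h => hz' ⟨_, ⟨z, h, rfl⟩, e.right_inv hz⟩
      rw [φ.zero_of_le_dist (not_le.1 h1).le, Complex.ofReal_zero, zero_smul]
  refine ⟨v, fun z hz => ?_⟩
  rw [hv z (hb (ball_subset_ball (by linarith) hz)),
    φ.one_of_mem_closedBall (ball_subset_closedBall hz), Complex.ofReal_one, one_smul]

end Vale.Agent.P301Z.Lat.Hd
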