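import Vale.Agent.P301Z.Lat.D20

/-!
# P301, block LAT, row HD: definitions and statements of the steps
-/

open scoped Manifold ContDiff Topology Matrix
open Filter MeasureTheory
open Vale.Agent.P272.K Vale.Agent.P299.IX Vale.Agent.P299.IX.Fock
open Vale.Agent.P281Z (Mf)
open Vale.Agent.P281Z.Hg

noncomputable section

namespace Vale.Agent.P301Z.Lat.Hd

variable {d : ℕ} {V : Mf d}

/-- the family `u` tends to zero in `L¹` near `x` -/
def LZ {α : Type} (l : Filter α) (x : V.X) (u : α → Fs V) : Prop :=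
  ∀ e, At e x → ∃ S ∈ 𝓝 (e x), Tendsto (fun k => ∫⁻ z in S, ‖vl (u k) e z‖ₑ) l (𝓝 0)

/-- `u` vanishes near `x` -/
def NZ (x : V.X) (u : Fs V) : Prop := ∀ᶠ y in 𝓝 x, u ∈ ZP y

/-- one chart is enough -/
def CH : Prop := ∀ {d : ℕ} {V : Mf d} {α : Type} {l : Filter α} {x : V.X} {u : α → Fs V}
  {e : Chart d V.X} {S : Set (Cm d)}, At e x → S ∈ 𝓝 (e x) →
  Tendsto (fun k => ∫⁻ z in S, ‖vl (u k) e z‖ₑ) l (𝓝 0) → LZ l x u

/-- forms on a ball of a chart extend from the half ball -/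
def EXT : Prop := ∀ {d : ℕ} {V : Mf d} {e : Chart d V.X} {c : Cm d} {r : ℝ} {U : Cm d → Fo d},
  e ∈ atlas (Cm d) V.X → 0 < r → Metric.ball c r ⊆ e.target →
  (∀ z ∈ Metric.ball c r, ContDiffAt ℝ ∞ U z) →
  ∃ u : Fs V, ∀ z ∈ Metric.ball c (r / 2), vl u e z = U z

/-- harmonic representatives with primitives which form a Cauchy sequence -/
def RC : Prop := ∀ {d : ℕ} {V : Mf d} {w : Fld V} {K : KP (dR V)}, Pack V w K → ∀ a, Cl2 V a →
  ∃ v y : ℕ → Fs V, K.Har v ∧ (∀ s, (dR V).dg 2 (v s) = v s) ∧ K.Cau y ∧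
    (∀ s, (dR V).dg 1 (y s) = y s) ∧ K.Null fun s => v s - a - (dR V).d (y s)

/-- the local Weyl lemma for forms of type `(p,0)` -/
def WL : Prop := ∀ {d : ℕ} {V : Mf d} {w : Fld V} {K : KP (dR V)}, Pack V w K →
  ∀ (p : ℕ) (x : V.X) (u : ℕ → Fs V), (∀ s, K.pr p (u s) = u s) →
  (∀ s, (dR V).dg p (u s) = u s) → (LZ atTop x fun q : ℕ × ℕ => u q.1 - u q.2) →
  (LZ atTop x fun s => K.Ab (u s)) →
  ∃ Γ : Fs V, NZ x (K.Ab Γ) ∧ LZ atTop x fun s => u s - Γ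

/-- the local Dolbeault lemma for forms of type `(0,1)` -/
def DL : Prop := ∀ {d : ℕ} {V : Mf d} {w : Fld V} {K : KP (dR V)}, Pack V w K →
  ∀ (x : V.X) (θ : ℕ → Fs V), (∀ s, K.pr 0 (θ s) = θ s) → (∀ s, (dR V).dg 1 (θ s) = θ s) →
  (LZ atTop x fun q : ℕ × ℕ => θ q.1 - θ q.2) → (LZ atTop x fun s => K.Ab (θ s)) →
  ∃ f : ℕ → Fs V, (LZ atTop x fun q : ℕ × ℕ => f q.1 - f q.2) ∧
    LZ atTop x fun s => K.Ab (f s) - θ s

/-- the operator `∂̄` in a chart -/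
theorem Ab_eq {w : Fld V} {K : KP (dR V)} (hK : RealK w K) (u : Fs V) {e : Chart d V.X} {x : V.X}
    (a : At e x) : vl (K.Ab u) e (e x) = ∑ c, eps (ah c) *ᵥ Dv (ah c) (vl u e) (e x) := by
  rw [← F2.pm_eps f1b fun c => Dv c (vl u e) (e x), KP.Ab, LinearMap.sum_apply, vl_sum]
  refine Finset.sum_congr rfl fun m _ => ?_
  rw [Module.End.mul_apply, Module.End.mul_apply, hK.pr m _ e x a, (dR_real V).d _ e x a,
    k1aT.congr (D20A.ev (P := fun e y => vl (K.pr m u) e y = pm d m *ᵥ vl u e y)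
      (fun e x h => hK.pr m u e x h) a), dT]
  simp only [k1aT.Dv_mul _ _ (D20A.df u a)]

end Vale.Agent.P301Z.Lat.Hd
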