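import Vale.Agent.P301Z.Lat.HdD
import Vale.Agent.P277Z.Ln.Bas

/-!
# P301, block LAT, row HD: calculus of local convergence in `L¹`
-/

open scoped Manifold ContDiff Topology Matrix ENNReal
open Filter MeasureTheory Metric
open Vale.Agent.P272.K Vale.Agent.P272.K.INT Vale.Agent.P299.IX Vale.Agent.P299.IX.Fock
open Vale.Agent.P281Z (Mf)
open Vale.Agent.P281Z.Hg
open Vale.Agent.P277Z.Ln (l1_chg tend_le ev_chart ev_at l1_add_le l1_mono eq_zero_of_l1)

noncomputable section

namespace Vale.Agent.P301Z.Lat.Hd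

variable {d : ℕ} {V : Mf d} {α : Type} {l : Filter α} {x : V.X} {u u' : α → Fs V}

theorem mat_bd {F : Cm d → Fm d} {c : Cm d} (h : ∀ I J, ContinuousAt (fun z => F z I J) c) :
    ∃ C : ℝ, ∀ᶠ z in 𝓝 c, ∀ v : Fo d, ‖F z *ᵥ v‖ ≤ C * ‖v‖ := by
  refine ⟨∑ I, ∑ J, (‖F c I J‖ + 1), ?_⟩
  filter_upwards [eventually_all.2 fun I => eventually_all.2 fun J =>
    (h I J).norm.eventually (gt_mem_nhds (lt_add_one _))] with z hz v
  refine (pi_norm_le_iff_of_nonneg (by positivity)).2 fun I => ?_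
  refine (norm_sum_le _ fun J => F z I J * v J).trans (le_trans ?_ (mul_le_mul_of_nonneg_right
    (Finset.single_le_sum (f := fun I => ∑ J, (‖F c I J‖ + 1)) (fun _ _ => by positivity)
      (Finset.mem_univ I)) (norm_nonneg v)))
  rw [Finset.sum_mul]
  refine Finset.sum_le_sum fun J _ => ?_
  rw [norm_mul]
  exact mul_le_mul (hz I J).le (norm_le_pi_norm v J) (norm_nonneg _) (by positivity)

theorem tend_bd {f g : α → Cm d → Fo d} {c : Cm d} {S : Set (Cm d)} {C : ℝ} (hS : S ∈ 𝓝 c)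
    (h : Tendsto (fun k => ∫⁻ z in S, ‖g k z‖ₑ) l (𝓝 0))
    (hb : ∀ᶠ z in 𝓝 c, ∀ k, ‖f k z‖ ≤ C * ‖g k z‖) :
    ∃ S' ∈ 𝓝 c, Tendsto (fun k => ∫⁻ z in S', ‖f k z‖ₑ) l (𝓝 0) := by
  obtain ⟨r, hr, hb'⟩ := eventually_nhds_iff_ball.1 (hb.and (show ∀ᶠ z in 𝓝 c, z ∈ S from hS))
  have h1 := ENNReal.Tendsto.const_mul (a := ENNReal.ofReal |C|) h (Or.inr ENNReal.ofReal_ne_top)
  rw [mul_zero] at h1
  refine ⟨_, ball_mem_nhds _ hr, tend_le (fun k => ?_) h1⟩
  rw [← lintegral_const_mul' _ _ ENNReal.ofReal_ne_top]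
  refine le_trans (setLIntegral_mono' measurableSet_ball fun z hz => ?_)
    (lintegral_mono_set fun z hz => (hb' z hz).2)
  rw [← ofReal_norm, ← ofReal_norm, ← ENNReal.ofReal_mul (abs_nonneg _)]
  exact ENNReal.ofReal_le_ofReal (((hb' z hz).1 k).trans
    (mul_le_mul_of_nonneg_right (le_abs_self _) (norm_nonneg _)))

theorem ch : CH := by
  intro d V α l x u e' S' b hS h e a
  obtain ⟨S, hS1, C, hC, hS2⟩ := l1_chg a b hS
  obtain ⟨C', hC'⟩ := mat_bd (F := fun z => lam (jc (fun y => e' (e.symm y)) z)) (c := e x)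
    fun I J => (k1b'.lr_smooth (k1b'.jc_smooth (G1H.tr_sm a b)) I J).continuousAt
  have h1 := ENNReal.Tendsto.const_mul (a := C) h (Or.inr hC)
  rw [mul_zero] at h1
  refine tend_bd (g := fun k z => vl (u k) e' (e' (e.symm z))) (C := C') hS1
    (tend_le (fun k => hS2 fun z => ‖vl (u k) e' z‖ₑ) h1) ?_
  filter_upwards [hC', ev_chart a (ev_at b)] with z h2 h3 k
  have h4 := (vl_isF (u k)).ch e e' _ h3.1 h3.2.2
  rw [jt, h3.2.1] at h4
  rw [h4]
  exact h2 _

theorem ext : EXT := by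
  intro d V e c r U he hr hs hU
  let χ : ContDiffBump c := ⟨r / 2, 3 * r / 4, by positivity, by linarith⟩
  have hb : closedBall c (3 * r / 4) ⊆ ball c r := closedBall_subset_ball (by linarith)
  have h0 : ∀ z, z ∉ closedBall c (3 * r / 4) → χ z = 0 := fun z hz =>
    χ.zero_of_le_dist (not_le.1 hz).le
  obtain ⟨u, hu, -⟩ := (g1T d V.X).loc e (e.symm '' closedBall c (3 * r / 4))
    (fun z => (χ z : ℂ) • U z) he ((isCompact_closedBall _ _).image_of_continuousOn
      (e.continuousOn_symm.mono (hb.trans hs)))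
    (by rintro _ ⟨z, hz, rfl⟩; exact e.map_target (hs (hb hz))) (fun z _ => by
      refine ContDiffAt.contDiffWithinAt ?_
      by_cases hz : z ∈ ball c r
      · exact (Complex.ofRealCLM.contDiff.contDiffAt.comp z χ.contDiffAt).smul (hU z hz)
      · refine (contDiffAt_const (c := (0 : Fo d))).congr_of_eventuallyEq ?_
        filter_upwards [isClosed_closedBall.isOpen_compl.mem_nhds fun h => hz (hb h)] with y hy
        rw [h0 y hy, Complex.ofReal_zero, zero_smul]) fun z hz h => by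
      rw [h0 z fun h1 => h ⟨_, ⟨z, h1, rfl⟩, e.right_inv hz⟩, Complex.ofReal_zero, zero_smul]
  refine ⟨u, fun z hz => ?_⟩
  rw [hu z (hs (ball_subset_ball (half_le_self hr.le) hz)),
    χ.one_of_mem_closedBall (ball_subset_closedBall hz), Complex.ofReal_one, one_smul]

theorem LZ.le (h : LZ l x u) (hb : ∀ e, At e x → ∃ C : ℝ, ∀ᶠ z in 𝓝 (e x), ∀ k,
    ‖vl (u' k) e z‖ ≤ C * ‖vl (u k) e z‖) : LZ l x u' := fun e a =>
  let ⟨_, hS, h1⟩ := h e a
  let ⟨_, h2⟩ := hb e a
  tend_bd hS h1 h2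

theorem LZ.congr (h : LZ l x u) (e : ∀ k, u k = u' k) : LZ l x u' := funext e ▸ h

theorem LZ.of_zero (h : ∀ᶠ y in 𝓝 x, ∀ k, u k ∈ ZP y) : LZ l x u := fun e a =>
  tend_bd (g := fun _ _ => 0) (C := 0) univ_mem (by simpa using tendsto_const_nhds)
    ((ev_chart a h).mono fun z hz k => by
    have h1 := hz.2.2 k e hz.1
    rw [hz.2.1] at h1
    simp [h1])

theorem LZ.add (h : LZ l x u) (h' : LZ l x u') : LZ l x fun k => u k + u' k := by
  intro e a
  obtain ⟨S, hS, h1⟩ := h e a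
  obtain ⟨S', hS', h2⟩ := h' e a
  obtain ⟨r, hr, hb⟩ := Metric.mem_nhds_iff.1 (inter_mem (inter_mem hS hS')
    (e.open_target.mem_nhds (e.map_source a.2)))
  refine ⟨_, ball_mem_nhds _ hr, tend_le (fun k => ?_) (by simpa using h1.add h2)⟩
  exact (l1_add_le measurableSet_ball ((G6H.vl_smooth (u k) a.1).continuousOn.mono
    fun z hz => (hb hz).2)).trans (add_le_add (l1_mono (fun z hz => (hb hz).1.1) _)
      (l1_mono (fun z hz => (hb hz).1.2) _))

theorem LZ.neg (h : LZ l x u) : LZ l x fun k => -u k :=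
  h.le fun _ _ => ⟨1, Eventually.of_forall fun _ _ => by rw [vl_neg, norm_neg, one_mul]⟩

theorem LZ.sub (h : LZ l x u) (h' : LZ l x u') : LZ l x fun k => u k - u' k :=
  (h.add h'.neg).congr fun _ => (sub_eq_add_neg _ _).symm

theorem LZ.sum {ι : Type} (s : Finset ι) {u : ι → α → Fs V} (h : ∀ i ∈ s, LZ l x (u i)) :
    LZ l x fun k => ∑ i ∈ s, u i k := by
  classical
  induction s using Finset.induction_on with
  | empty => exact LZ.of_zero (Eventually.of_forall fun y k => zero_mem _)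
  | insert a s ha ih =>
    exact ((h a (Finset.mem_insert_self _ _)).add
      (ih fun i hi => h i (Finset.mem_insert_of_mem hi))).congr fun k => by
        rw [Finset.sum_insert ha]

theorem LZ.op {F : Rw d V.X (Fm d)} {T : Fs V → Fs V}
    (hF : ∀ e x, At e x → ∀ I J, ContinuousAt (fun z => F e z I J) (e x)) (hT : IsOp F T)
    (h : LZ l x u) : LZ l x fun k => T (u k) :=
  h.le fun e a =>
    let ⟨C, hC⟩ := mat_bd (hF e x a)
    ⟨C, (hC.and (D20A.ev (P := fun e z => ∀ v, vl (T v) e z = F e z *ᵥ vl v e z)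
      (fun e x a v => hT v e x a) a)).mono fun z hz k => by rw [hz.2]; exact hz.1 _⟩

theorem LZ.cop {A : Fm d} {T : Fs V → Fs V} (hT : IsOp (fun _ _ => A) T) (h : LZ l x u) :
    LZ l x fun k => T (u k) :=
  h.op (F := fun _ _ => A) (fun _ _ _ _ _ => continuousAt_const) hT

theorem LZ.cj (h : LZ l x u) : LZ l x fun k => (dR V).cj (u k) :=
  h.le fun e a =>
    let ⟨C, hC⟩ := mat_bd (F := fun _ => lam (swm d)) (c := e x) fun _ _ => continuousAt_const
    ⟨C, (hC.and (D20A.ev (P := fun e z => ∀ v, vl ((dR V).cj v) e z = cjv (vl v e z))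
      (fun e x a v => vl_cj v a) a)).mono fun z hz k => by
        rw [hz.2, ← norm_star (vl (u k) e z)]
        exact hz.1 _⟩

theorem LZ.ev (h : LZ l x u) : ∀ᶠ y in 𝓝 x, LZ l y u := by
  obtain ⟨S, hS, h1⟩ := h _ (at_chart x)
  filter_upwards [ev_at (at_chart x), (continuousAt_extChartAt (I := 𝓘(ℂ, Cm d)) x).eventually
    (eventually_mem_nhds_iff.2 hS)] with y hy hy'
  exact ch hy hy' h1

theorem LZ.zero [l.NeBot] {v : Fs V} (h : LZ l x fun _ => v) : v ∈ ZP x := fun e a =>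
  let ⟨_, hS, h1⟩ := h e a
  eq_zero_of_l1 hS ((vl_isF v).sm e x a).continuousAt (tendsto_const_nhds_iff.1 h1)

theorem LZ.uniq [l.NeBot] {v v' : Fs V} (h : LZ l x fun k => u k - v)
    (h' : LZ l x fun k => u k - v') : NZ x (v - v') :=
  ((h'.sub h).congr fun _ => sub_sub_sub_cancel_left _ _ _).ev.mono fun _ k => k.zero

theorem LZ.null {nrm : Fs V → ℝ} (hL : IsL2 nrm) (nn : ∀ v, 0 ≤ nrm v)
    (h : Tendsto (fun k => nrm (u k)) l (𝓝 0)) : LZ l x u := by
  intro e a
  obtain ⟨s, hs, hb⟩ := G7A.ball_ex a.2 univ_mem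
  have him : e '' (e.symm '' closedBall (e x) s) = closedBall (e x) s :=
    e.image_symm_image_of_subset_target fun z hz => (hb z hz).1
  obtain ⟨C, hC, hr⟩ := hL.res e a.1 (e.symm '' closedBall (e x) s)
    ((isCompact_closedBall _ _).image_of_continuousOn
      (e.continuousOn_symm.mono fun z hz => (hb z hz).1))
    (by rintro _ ⟨z, hz, rfl⟩; exact e.map_target (hb z hz).1)
  rw [him] at hr
  have hc : ∀ v : Fs V, ContinuousOn (vl v e) (closedBall (e x) s) := fun v =>
    (G6H.vl_smooth v a.1).continuousOn.mono fun z hz => (hb z hz).1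
  set m := (volume : Measure (Cm d)).real (closedBall (e x) s) with hm
  have hm0 : 0 ≤ m := measureReal_nonneg
  have h1 : Tendsto (fun k => ∫ z in closedBall (e x) s, ‖vl (u k) e z‖) l (𝓝 0) := by
    refine Metric.tendsto_nhds.2 fun ε hε => ?_
    have ht : 0 < ε / (m + C + 1) := by positivity
    filter_upwards [h.eventually (gt_mem_nhds ht)] with k hk
    generalize hT : ε / (m + C + 1) = t at ht hk
    have hε' : ε = t * (m + C + 1) := by rw [← hT]; field_simp
    have i2 : IntegrableOn (fun z => ‖vl (u k) e z‖ ^ 2) (closedBall (e x) s) volume :=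
      ((hc (u k)).norm.pow 2).integrableOn_compact (isCompact_closedBall _ _)
    have i1 : IntegrableOn (fun _ : Cm d => t) (closedBall (e x) s) volume :=
      continuousOn_const.integrableOn_compact (isCompact_closedBall _ _)
    have h2 : ∫ z in closedBall (e x) s, ‖vl (u k) e z‖ ≤
        ∫ z in closedBall (e x) s, (t + t⁻¹ * ‖vl (u k) e z‖ ^ 2) := by
      refine integral_mono ((hc _).norm.integrableOn_compact (isCompact_closedBall _ _))
        (i1.add (i2.const_mul _)) fun z => ?_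
      show _ ≤ t + t⁻¹ * _
      rw [← sub_le_iff_le_add', le_inv_mul_iff₀ ht]
      nlinarith [sq_nonneg (‖vl (u k) e z‖ - t), norm_nonneg (vl (u k) e z)]
    rw [integral_add i1 (i2.const_mul _), setIntegral_const, integral_const_mul, ← hm,
      smul_eq_mul] at h2
    have h3 : t⁻¹ * ∫ z in closedBall (e x) s, ‖vl (u k) e z‖ ^ 2 ≤ C * t := by
      rw [inv_mul_le_iff₀ ht]
      refine (hr _).trans ?_
      have := mul_le_mul_of_nonneg_left (pow_le_pow_left₀ (nn _) hk.le 2) hC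
      nlinarith
    rw [Real.dist_0_eq_abs, abs_of_nonneg (integral_nonneg fun _ => norm_nonneg _)]
    nlinarith
  refine ⟨_, closedBall_mem_nhds _ hs, ?_⟩
  simpa only [ENNReal.ofReal_zero, ofReal_integral_norm_eq_lintegral_enorm
    ((hc _).integrableOn_compact (isCompact_closedBall _ _))] using ENNReal.tendsto_ofReal h1

theorem NZ.lz {v : Fs V} (h : NZ x v) : LZ l x fun _ => v :=
  LZ.of_zero (h.mono fun _ k _ => k)

theorem NZ.ev {v : Fs V} (h : NZ x v) : ∀ᶠ y in 𝓝 x, NZ y v := h.eventually_nhds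

theorem NZ.add {v v' : Fs V} (h : NZ x v) (h' : NZ x v') : NZ x (v + v') :=
  (h.and h').mono fun _ k => add_mem k.1 k.2

theorem NZ.sub {v v' : Fs V} (h : NZ x v) (h' : NZ x v') : NZ x (v - v') :=
  (h.and h').mono fun _ k => sub_mem k.1 k.2

theorem NZ.op {F : Rw d V.X (Fm d)} {T : Fs V → Fs V} (hT : IsOp F T) {v : Fs V} (h : NZ x v) :
    NZ x (T v) := h.mono fun y k e a => by rw [hT v e y a, k e a, Matrix.mulVec_zero]

theorem NZ.dR {v : Fs V} (h : NZ x v) : NZ x ((dR V).d v) :=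
  h.ev.mono fun y k => ((g2T _ V.X).2.2 _ (dR_real V)).2.2.1 v y k

theorem eq_of_nz {v v' : Fs V} (h : ∀ x, NZ x (v - v')) : v = v' :=
  ext_F fun e x a => sub_eq_zero.1 ((h x).self_of_nhds e a)

/-- partitions of unity -/
theorem part (O : V.X → Set V.X) (hO : ∀ x, O x ∈ 𝓝 x) :
    ∃ (N : ℕ) (c : Fin N → V.X) (T : Fin N → Module.End ℂ (Fs V)), (∀ v, ∑ i, T i v = v) ∧
      (∀ i y, y ∈ O (c i) ∨ ∀ᶠ z in 𝓝 y, ∀ v, T i v ∈ ZP z) ∧
      (∀ i (A : Fm d) (B : Fs V → Fs V), IsOp (fun _ _ => A) B → ∀ v, B (T i v) = T i (B v)) ∧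
      ∀ i y (u : ℕ → Fs V), LZ atTop y u → (LZ atTop y fun k => T i (u k)) ∧
        LZ atTop y fun k => (dR V).d (T i (u k)) - T i ((dR V).d (u k)) := by
  have := isManifold_real d V.X
  obtain ⟨t, ht⟩ := isCompact_univ.elim_finite_subcover (fun x => interior (O x))
    (fun x => isOpen_interior) fun x _ => Set.mem_iUnion.2 ⟨x, mem_interior_iff_mem_nhds.2 (hO x)⟩
  let c : Fin t.card → V.X := fun i => (t.equivFin.symm i : V.X)
  have hc : (Set.univ : Set V.X) ⊆ ⋃ i, interior (O (c i)) := by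
    intro x hx
    obtain ⟨y, hy⟩ := Set.mem_iUnion.1 (ht hx)
    obtain ⟨hyt, hxy⟩ := Set.mem_iUnion.1 hy
    exact Set.mem_iUnion.2 ⟨t.equivFin ⟨y, hyt⟩, by simpa [c] using hxy⟩
  obtain ⟨f, hf⟩ := SmoothPartitionOfUnity.exists_isSubordinate 𝓘(ℝ, Cm d)
    isClosed_univ (fun i => interior (O (c i))) (fun i => isOpen_interior) hc
  have hs : ∀ i, SmoothFn (n := d) (f i) := fun i => smoothFn_of_contMDiff (f i).contMDiff
  choose T hT using fun i => (g1T d V.X).op _ ((g1T d V.X).fn _ (hs i))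
  have hT' : ∀ i v e x, At e x → vl (T i v) e (e x) = (f i x : ℂ) • vl v e (e x) := by
    intro i v e x he
    rw [hT i v e x he]
    show ((f i (e.symm (e x)) : ℂ) • (1 : Fm d)) *ᵥ _ = _
    rw [e.left_inv he.2, Matrix.smul_mulVec, Matrix.one_mulVec]
  have hg : ∀ i (e : Chart d V.X) x, At e x →
      ContDiffAt ℝ ∞ (fun y => (f i (e.symm y) : ℂ)) (e x) := fun i e x he =>
    Complex.ofRealCLM.contDiff.contDiffAt.comp (e x) (hs i e x he)
  refine ⟨t.card, c, T, fun v => ext_F fun e y a => ?_, fun i y => ?_,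
    fun i A B hB v => ext_F fun e y a => ?_, fun i y u h => ⟨h.op (fun e x a I J =>
      (((g1T d V.X).fn _ (hs i)).sm e x a I J).continuousAt) (hT i), h.op
      (F := fun e z => epsV fun c => dr c (fun y => (f i (e.symm y) : ℂ)) z)
      (T := fun v => (dR V).d (T i v) - T i ((dR V).d v)) (fun e x he I J => ?_)
      fun v e x he => ?_⟩⟩
  · have h := f.sum_eq_one (Set.mem_univ y)
    rw [finsum_eq_sum_of_fintype] at h
    rw [vl_sum, Finset.sum_congr rfl fun i _ => hT' i v e y a, ← Finset.sum_smul,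
      ← Complex.ofReal_sum, h, Complex.ofReal_one, one_smul]
  · by_cases hy : y ∈ tsupport (f i)
    · exact .inl (interior_subset (hf i hy))
    · refine .inr (mem_of_superset ((isClosed_tsupport _).isOpen_compl.mem_nhds hy)
        fun z hz v e a => ?_)
      rw [hT' i v e z a, image_eq_zero_of_notMem_tsupport hz, Complex.ofReal_zero, zero_smul]
  · rw [hB _ e y a, hT' i _ e y a, hT' i _ e y a, hB _ e y a, Matrix.mulVec_smul]
  · simp only [epsV, Matrix.sum_apply, Matrix.smul_apply, smul_eq_mul]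
    exact tendsto_finsetSum _ fun c _ =>
      (Ka.dr_smooth (hg i e x he)).continuousAt.mul continuousAt_const
  · have h3 : vl (T i v) e =ᶠ[𝓝 (e x)] fun y => (f i (e.symm y) : ℂ) • vl v e y := by
      filter_upwards [e.open_target.mem_nhds (e.map_source he.2)] with z hz
      have h4 := hT' i v e (e.symm z) ⟨he.1, e.map_target hz⟩
      rwa [e.right_inv hz] at h4
    show vl ((dR V).d (T i v) - T i ((dR V).d v)) e (e x) = _
    rw [vl_sub, (dR_real V).d _ e x he, hT' i _ e x he, (dR_real V).d _ e x he, k1aT.congr h3,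
      k1aT.fun_mul ((hg i e x he).differentiableAt (by simp)) (D20A.df v he), e.left_inv he.2,
      add_sub_cancel_right]

/-- local limits glue -/
theorem glue {u : ℕ → Fs V} (h : ∀ x, ∃ Γ, LZ atTop x fun k => u k - Γ) :
    ∃ Γ, ∀ x, LZ atTop x fun k => u k - Γ := by
  choose G hG using h
  obtain ⟨N, c, T, h1, h2, -, h4⟩ := part _ fun x => (hG x).ev
  refine ⟨∑ i, T i (G (c i)), fun x => (LZ.sum Finset.univ (u := fun i k => T i (u k - G (c i)))
    fun i _ => ?_).congr fun k => ?_⟩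
  · rcases h2 i x with h | h
    · exact (h4 i x _ h).1
    · exact LZ.of_zero (h.mono fun y hy k => hy _)
  · simp only [map_sub, Finset.sum_sub_distrib, h1]

end Vale.Agent.P301Z.Lat.Hd
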