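import Vale.Agent.P301Z.Lat.HdD

/-!
# P301, block LAT, row HD: primitives which form a Cauchy sequence
-/

open scoped Topology
open Filter
open Vale.Agent.P272.K
open Vale.Agent.P281Z (Mf)
open Vale.Agent.P281Z.Hg Vale.Agent.P281Z.Hg.Zs

noncomputable section

namespace Vale.Agent.P301Z.Lat.Hd

section abs

variable {S : Type} [AddCommGroup S] [Module ℂ S] {D : ℕ} {X : Cx S D} {M : Type} [MetricSpace M]
  {E : LC M X}

/-- sequences which are Cauchy on `O` -/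
def C0 (h : E.OK) (O : Set M) : AddSubgroup (ℕ → S) := Cau h ⊔ Vn E O

theorem nul_cau {h : E.OK} {p : ℕ → S} (a : p ∈ Nul h atTop) : p ∈ Cau h := by
  have h1 : (fun q : ℕ × ℕ => p q.1) ∈ Nul h atTop :=
    Tendsto.comp (g := fun k => E.nrm (p k)) (f := Prod.fst) a
      (by rw [← prod_atTop_atTop_eq]; exact tendsto_fst)
  have h2 : (fun q : ℕ × ℕ => p q.2) ∈ Nul h atTop :=
    Tendsto.comp (g := fun k => E.nrm (p k)) (f := Prod.snd) a
      (by rw [← prod_atTop_atTop_eq]; exact tendsto_snd)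
  exact sub_mem h1 h2

theorem cst_cau (h : E.OK) (u : S) : cst u ∈ Cau h := by
  show df (cst u) ∈ Nul h atTop
  rw [show df (cst u) = 0 from funext fun _ => sub_self u]
  exact zero_mem _

theorem n0_c0 {h : E.OK} {O : Set M} : N0 h O ≤ C0 h O :=
  sup_le_sup_right (fun _ a => nul_cau a) _

theorem downC (hv : VT1) (h : E.OK) {m : ℕ} {ε : ℝ} (hε : 0 < ε) {g : List M → ℕ → S}
    (h0 : ∀ l, l.length ≤ m → g l ∈ Cau h)
    (h1 : ∀ l, l.length ≤ m → lf ℕ X.d (g l) - dl g l ∈ N0 h (Ns ε l))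
    (h2 : ∀ l, l.length = m + 1 → dl g l ∈ N0 h (Ns ε l)) :
    ∃ y ∈ Cau h, g [] - lf ℕ X.d y ∈ Nul h atTop := by
  obtain ⟨N, x, ρ, C, -, p1, p2, -, p4, p5⟩ := h.pu ε hε
  have k0 : ∀ i l, ∀ v ∈ Vn E (Ns ε (x i :: l)), lf ℕ (ρ i) v ∈ Vn E (Ns ε l) := by
    intro i l v a s z c
    refine p2 i _ z ((lt_or_ge (dist (x i) z) ε).imp (fun d => a s z fun y e => ?_) id)
    exact (List.mem_cons.1 e).elim (fun e => e ▸ d) (c y)
  have kd : ∀ l, ∀ v ∈ Vn E (Ns ε l), lf ℕ X.d v ∈ Vn E (Ns ε l) := fun l v a s z c =>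
    h.dloc _ _ (mem_of_superset ((open_Ns ε l).mem_nhds c) (a s))
  have k1 : ∀ i l w, w ∈ NN h (Ns ε (x i :: l)) → lf ℕ (ρ i) w ∈ NN h (Ns ε l) := by
    intro i l w hw
    refine NN_le h (fun p a => nn_n0 (n0_nul (nul_lf h (p4 i) a)))
      (fun v a => nn_n0 (n0_vn (k0 i l v a))) (fun q a => ?_) hw
    have e : lf ℕ (ρ i) (lf ℕ X.d q) =
        lf ℕ X.d (lf ℕ (ρ i) q) - lf ℕ (X.d * ρ i - ρ i * X.d) q :=
      funext fun s => (sub_sub_cancel _ _).symm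
    rw [e]
    exact sub_mem (nn_d (nul_lf h (p4 i) a)) (nn_n0 (n0_nul (nul_lf h (p5 i) a)))
  have c1 : ∀ i l w, w ∈ C0 h (Ns ε (x i :: l)) → lf ℕ (ρ i) w ∈ C0 h (Ns ε l) := fun i l w hw =>
    (sup_le (fun p a => AddSubgroup.mem_sup_left (cau_lf h (p4 i) a))
      (fun v a => AddSubgroup.mem_sup_right (k0 i l v a)) :
      C0 h _ ≤ (C0 h (Ns ε l)).comap (lf ℕ (ρ i))) hw
  have c2 : ∀ i l w, w ∈ C0 h (Ns ε (x i :: l)) →
      lf ℕ (X.d * ρ i - ρ i * X.d) w ∈ C0 h (Ns ε l) := fun i l w hw =>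
    (sup_le (fun p a => AddSubgroup.mem_sup_left (cau_lf h (p5 i) a))
      (fun v a => AddSubgroup.mem_sup_right
        (sub_mem (kd l _ (k0 i l v a)) (k0 i l _ (kd _ v a)))) :
      C0 h _ ≤ (C0 h (Ns ε l)).comap (lf ℕ (X.d * ρ i - ρ i * X.d))) hw
  have k2 : ∀ (b : List M → ℕ → S) (l : List M), (∀ i, dl b (x i :: l) ∈ NN h (Ns ε (x i :: l))) →
      b l - dl (fun l => ∑ i, lf ℕ (ρ i) (b (x i :: l))) l ∈ NN h (Ns ε l) := by
    intro b l hb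
    have e1 : b l = ∑ i, lf ℕ (ρ i) (b l) := funext fun s => by
      rw [Finset.sum_apply]
      exact ((LinearMap.sum_apply _ ρ _).symm.trans (LinearMap.congr_fun p1 _)).symm
    rw [dl_sum hv, e1, ← Finset.sum_sub_distrib]
    refine sum_mem fun i _ => ?_
    rw [← lf_dl hv, ← map_sub]
    exact k1 i l _ (hb i)
  have e0 : ∀ w : ℕ → S, lf ℕ X.d (lf ℕ X.d w) = 0 := fun w => funext fun s => h.cx.dd _
  have k3 : ∀ i j, j + i = m → ∃ β : List M → ℕ → S, (∀ l, l.length = j + 1 →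
      dl (fun l => g l - lf ℕ X.d (β l)) l ∈ NN h (Ns ε l)) ∧ ∀ l, l.length = j →
        β l ∈ C0 h (Ns ε l) ∧ lf ℕ X.d (β l) ∈ C0 h (Ns ε l) := by
    intro i
    induction i with
    | zero =>
      exact fun j e => ⟨0, fun l a => by simpa using nn_n0 (h2 l (by omega)),
        fun l _ => ⟨zero_mem _, by simp⟩⟩
    | succ i ih =>
      intro j e
      obtain ⟨β, hβ, hβ'⟩ := ih (j + 1) (by omega)
      refine ⟨fun l => ∑ i, lf ℕ (ρ i) (g (x i :: l) - lf ℕ X.d (β (x i :: l))), fun l a => ?_,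
        fun l a => ?_⟩
      · have k4 := NN_d h (open_Ns ε l) (k2 _ l fun i => hβ _ (by rw [List.length_cons, a]))
        rw [map_sub, map_sub, e0, sub_zero, lf_dl hv] at k4
        rw [dl_sub hv, ← sub_sub_sub_cancel_left _ _ (lf ℕ X.d (g l))]
        exact sub_mem k4 (nn_n0 (h1 l (by omega)))
      · have b0 : ∀ i, (x i :: l).length ≤ m := fun i => by rw [List.length_cons]; omega
        have b1 : ∀ i, g (x i :: l) - lf ℕ X.d (β (x i :: l)) ∈ C0 h (Ns ε (x i :: l)) := fun i =>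
          sub_mem (AddSubgroup.mem_sup_left (h0 _ (b0 i))) (hβ' _ (by rw [List.length_cons, a])).2
        refine ⟨sum_mem fun i _ => c1 i l _ (b1 i), ?_⟩
        rw [map_sum]
        refine sum_mem fun i _ => ?_
        have b2 : lf ℕ X.d (g (x i :: l)) ∈ C0 h (Ns ε (x i :: l)) := by
          rw [← sub_add_cancel (lf ℕ X.d _) (dl g (x i :: l))]
          exact add_mem (n0_c0 (h1 _ (b0 i))) (AddSubgroup.mem_sup_left
            (hv.mem _ g _ fun l' _ c => h0 l' (by have := b0 i; omega)))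
        have b3 := add_mem (c2 i l _ (b1 i)) (c1 i l _ b2)
        refine (congrArg (· ∈ C0 h _) (funext fun s => ?_)).mp b3
        simp only [Pi.add_apply, Pi.sub_apply, lf_apply, LinearMap.sub_apply, Module.End.mul_apply,
          map_sub, h.cx.dd, map_zero]
        abel
  obtain ⟨β, hβ, hβ'⟩ := k3 m 0 (zero_add m)
  have ez : ∀ v ∈ Vn E (Ns ε ([] : List M)), v = 0 := fun v a =>
    funext fun s => h.sep _ fun z => a s z fun _ c => absurd c List.not_mem_nil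
  have k5 := k2 _ [] fun i => hβ _ rfl
  obtain ⟨_, a, _, ⟨q, hq, rfl⟩, e⟩ := AddSubgroup.mem_sup.1 k5
  obtain ⟨p, hp, v, hv', rfl⟩ := AddSubgroup.mem_sup.1 a
  obtain ⟨b, hb, v', hv'', e'⟩ := AddSubgroup.mem_sup.1 (hβ' [] rfl).1
  rw [ez v' hv'', add_zero] at e'
  refine ⟨β [] + q, add_mem (e' ▸ hb) (nul_cau hq), ?_⟩
  have e2 : p + v + lf ℕ X.d q = g [] - lf ℕ X.d (β []) - 0 := e
  rwa [map_add, ← sub_sub, ← sub_zero (g [] - lf ℕ X.d (β [])), ← e2, ez v hv', add_zero,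
    add_sub_cancel_right]

theorem oneC (hv : VT1) (h : E.OK) {m : ℕ} {u : ℕ → S} (h1 : u ∈ Cau h)
    (h2 : lf ℕ X.d u ∈ Nul h atTop) (h3 : lf ℕ (X.dg m) u = u) :
    ∃ z, ∃ y ∈ Cau h, X.Cl m z ∧ u - cst z - lf ℕ X.d y ∈ Nul h atTop := by
  obtain ⟨ε, g, H⟩ := exists_up hv h h1 h2 h3 m le_rfl
  obtain ⟨η, a, k1, k2, k3, k4⟩ := H.fin hv
  obtain ⟨_, γ, rfl, hγ⟩ := ZiH.i1 h m η a k1 k3
  have e : ∀ l, dl (fun l => g l - cst (γ l)) l = dl g l - cst (dl γ l) := fun l => by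
    rw [dl_sub hv, hv.map]
  obtain ⟨y, hy, hy'⟩ := downC hv h (m := m) k1 (g := fun l => g l - cst (γ l))
    (fun l hl => sub_mem (H.cau l hl) (cst_cau h _)) (fun l hl => by
    have e1 : lf ℕ X.d (cst (γ l)) = cst (X.d (γ l)) := rfl
    rw [e, map_sub, e1, sub_sub_sub_comm, ← map_sub]
    exact sub_mem (N0_mono h (Ns_mono k2 l) (H.mid l hl)) (n0_vn fun _ => hγ.mid l hl))
    fun l hl => by
    rw [e, ← sub_sub_sub_cancel_right _ _ (cst (a l • E.one)), ← map_sub]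
    exact sub_mem (k4 l hl) (n0_vn fun _ => hγ.fin l hl)
  exact ⟨γ [], y, hy, Lt.zg_cl h ⟨γ, rfl, hγ⟩, H.nil ▸ hy'⟩

/-- limits of exact forms are exact -/
theorem lim_ex (h : E.OK) {m : ℕ} (hR : E.R1 (m + 1)) (hU2 : E.U2 (m + 1)) (hP : PER M (m + 1))
    {u : S} (hu : X.Cl (m + 1) u) {y : ℕ → S}
    (hy : Tendsto (fun s => E.nrm (u - X.d (y s))) atTop (𝓝 0)) : ∃ β, u = X.d β := by
  obtain ⟨ε, hε, A, C, hA, hZ⟩ := hR
  obtain ⟨r, c, p0, -, p2, p3, -⟩ := hP ε hε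
  let per : S →ₗ[ℂ] Fin r → ℂ := LinearMap.pi fun i => ∑ l ∈ (c i).support, (c i l : ℂ) • A l
  have hper : ∀ u i, per u i = evc (fun l => A l u) (c i) := fun u i => by
    simp [per, evc, Finsupp.sum, LinearMap.sum_apply]
  have hb : ∀ u i, ‖per u i‖ ≤ (∑ l ∈ (c i).support, ‖(c i l : ℂ)‖ * C) * E.nrm u := fun u i => by
    rw [hper, evc, Finsupp.sum, Finset.sum_mul]
    refine norm_sum_le_of_le _ fun l hl => ?_
    rw [norm_mul, mul_assoc]
    exact mul_le_mul_of_nonneg_left (hA l u (p0 i l hl).1) (norm_nonneg _)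
  have hc : ∀ u, X.Cl (m + 1) u → Coc ε (m + 1) fun l => A l u := fun u hu =>
    Lt.zg_coc vt1 h (hZ u hu)
  have k1 : ∀ y i, per (X.dg (m + 1) (X.d y)) i = 0 := fun y i => by
    have k : X.dg (m + 1) (X.d y) = X.d (X.dg m y) := LinearMap.congr_fun (h.cx.dg_d m) y
    have k' : X.Cl (m + 1) (X.d (X.dg m y)) := ⟨h.cx.dd _, by
      rw [← k]
      exact LinearMap.congr_fun ((h.cx.dg_mul _ _).trans (if_pos rfl)) _⟩
    obtain ⟨η, k1, k2⟩ := hU2 ε hε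
    rw [k]
    exact (hper _ i).trans (p2 _ η (hc _ k') k1 (k2 _ _ (hZ _ k')) i)
  obtain ⟨η, k2, k3⟩ := p3 _ (hc u hu) fun i => (hper u i).symm.trans (by
    have k2 := (squeeze_zero (fun s => h.nn _) (fun s => h.dgb (m + 1) _) hy).const_mul
      (∑ l ∈ (c i).support, ‖(c i l : ℂ)‖ * C)
    rw [mul_zero] at k2
    refine norm_le_zero_iff.1 (ge_of_tendsto' k2 fun s => ?_)
    refine le_of_eq_of_le ?_ (hb _ i)
    rw [map_sub, map_sub, hu.2, Pi.sub_apply, k1, sub_zero])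
  exact ZiH.u1 h _ _ u _ (lt_min hε k2) (Lt.zg_mono (min_le_left _ _) (hZ u hu))
    (Lt.cob_mono (min_le_right _ _) k3)

theorem rcA {K : KP X} (h : E.OK) (hn : E.nrm = K.nrm) (hb : K.KIb) (hh : K.KH) (hR : E.R1 2)
    (hU : E.U2 2) (hP : PER M 2) {a : S} (ha : X.Cl 2 a) :
    ∃ v y : ℕ → S, K.Har v ∧ (∀ s, X.dg 2 (v s) = v s) ∧ K.Cau y ∧
      (∀ s, X.dg 1 (y s) = y s) ∧ K.Null fun s => v s - a - X.d (y s) := by
  have hd : ∀ u, X.dg 2 (X.d u) = X.d (X.dg 1 u) := fun u => LinearMap.congr_fun (h.cx.dg_d 1) u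
  have hg : ∀ m u, X.dg m (X.dg m u) = X.dg m u := fun m u =>
    LinearMap.congr_fun ((h.cx.dg_mul m m).trans (if_pos rfl)) u
  have hN : ∀ {ι : Type} {F : Filter ι} {p : ι → S}, p ∈ Nul h F ↔ K.Nf F p := by
    intro ι F p
    show Tendsto (fun s => E.nrm (p s)) F (𝓝 0) ↔ _
    rw [hn, KP.Nf]
  have hC : ∀ {p : ℕ → S}, p ∈ Cau h ↔ K.Cau p := by
    intro p
    rw [hb.cau_iff, ← hN]
    exact Iff.rfl
  obtain ⟨v0, hv0⟩ := hh.ex a ha.1
  have hv := hh.rdg 2 hv0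
  rw [ha.2] at hv
  obtain ⟨y0, hy0⟩ := hv.coh
  have c1 : (fun s => X.dg 2 (v0 s)) ∈ Cau h := hC.2 hv.cau
  have c2 : lf ℕ X.d (fun s => X.dg 2 (v0 s)) ∈ Nul h atTop := hN.2 hv.d
  obtain ⟨z, y, hy, hz, k⟩ := oneC vt1 h (m := 2) c1 c2 (funext fun s => hg 2 _)
  have k' : K.Nf atTop fun s => X.dg 2 (v0 s) - z - X.d (y s) := hN.1 k
  have k2 : (fun s => a - z - X.d (y s - y0 s)) ∈ Nul h atTop :=
    hN.2 ((hb.nf_sub k' hy0).congr fun s => by rw [map_sub]; abel)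
  obtain ⟨β, hβ⟩ := lim_ex h (m := 1) hR hU hP ((Lt.ClS X 2).sub_mem ha hz) k2
  have k3 : K.Cau fun s => y s - β := hb.cau_iff.2 ((hb.cau_iff.1 (hC.1 hy)).congr
    fun q => (sub_sub_sub_cancel_right _ _ _).symm)
  refine ⟨_, fun s => X.dg 1 (y s - β), hv.toHar, fun s => hg 2 _,
    hb.cau_map (hb.bdg 1) (map_sub _) k3, fun s => hg 1 _,
    (hb.nf_map (hb.bdg 2) k').congr fun s => ?_⟩
  rw [← hd, map_sub X.d, ← hβ]
  simp only [map_sub, hg, ha.2, hz.2]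
  abel

end abs

theorem rc : RC := by
  intro d V w K P a ha
  let := ms V
  exact rcA P.eok rfl P.kib P.kh (P.r1 2).1 (P.r1 2).2 (P.per 2) ha

end Vale.Agent.P301Z.Lat.Hd
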