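import Vale.Agent.P301Z.Lat.Pk

/-!
# P301, block LAT: statements of the rows for the Hodge decomposition in degree two
-/

open scoped Manifold ContDiff ComplexOrder Topology Matrix
open Filter
open Vale.Agent.P272.K
open Vale.Agent.P281Z (Mf)
open Vale.Agent.P281Z.Hg

noncomputable section

namespace Vale.Agent.P301Z.Lat

/-- row HOL2: closed `L²` forms of type `(2,0)` are smooth -/
def HOL2 : Prop := ∀ {d : ℕ} (V : Mf d) (w : Fld V) (K : KP (dR V)), Pack V w K →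
  ∀ v : ℕ → Fs V, K.Cau v → (K.Null fun s => (dR V).d (v s)) →
    (∀ s, K.pr 2 (v s) = v s ∧ (dR V).dg 2 (v s) = v s) → ∃ σ, K.Null fun s => v s - σ

/-- row S1C: closed `L²` forms are cohomologous to smooth forms by an `L²` primitive -/
def S1C : Prop := ∀ (S : Type) [AddCommGroup S] [Module ℂ S] (D : ℕ) (X : Cx S D) (M : Type)
  [MetricSpace M] (E : LC M X), E.OK → ∀ (m : ℕ) (u : ℕ → S),
  Tendsto (fun q : ℕ × ℕ => E.nrm (u q.1 - u q.2)) atTop (𝓝 0) →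
  Tendsto (fun s => E.nrm (X.d (u s))) atTop (𝓝 0) → (∀ s, X.dg m (u s) = u s) →
  ∃ (z : S) (y : ℕ → S), X.Cl m z ∧ Tendsto (fun q : ℕ × ℕ => E.nrm (y q.1 - y q.2)) atTop (𝓝 0) ∧
    Tendsto (fun s => E.nrm (u s - z - X.d (y s))) atTop (𝓝 0)

/-- row NEX: null classes are exact -/
def NEX : Prop := ∀ {d : ℕ} (V : Mf d), V.Kah → ∀ z, Cl2 V z → z ∈ (dR V).Nul → Ex2 V z

/-- row REG: an `L²` solution of `∂̄η = a^(0,2)` gives a smooth solution -/
def REG : Prop := ∀ {d : ℕ} (V : Mf d) (w : Fld V) (K : KP (dR V)), Pack V w K →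
  ∀ a, Cl2 V a → ∀ η : ℕ → Fs V, K.Cau η →
    (∀ s, K.pr 0 (η s) = η s ∧ (dR V).dg 1 (η s) = η s) →
    (K.Null fun s => K.Ab (η s) - K.pr 0 a) →
    ∃ θ : Fs V, K.pr 0 θ = θ ∧ (dR V).dg 1 θ = θ ∧ K.Ab θ = K.pr 0 a

end Vale.Agent.P301Z.Lat
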