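import Vale.Agent.P301Z.Lat.Pk
import Vale.Agent.P301Z.Lat.Cup0

/-! # P301, block LAT: row INTV -/

open scoped Manifold ContDiff ComplexOrder Topology Matrix
open Vale.Agent.P272.K Vale.Agent.P299.IX Vale.Agent.P299.IX.Fock
open Vale.Agent.P281Z (Mf)
open Vale.Agent.P281Z.Hg

set_option linter.all false

noncomputable section

namespace Vale.Agent.P301Z.Lat

namespace Rt

variable {S : Type} [AddCommGroup S] [Module ℂ S] {D : ℕ} {X : Cx S D} {M : Type} [MetricSpace M]
  {E : LC M X}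

lemma const_of [PreconnectedSpace M] (h : E.OK) (h1 : ∀ (c : ℂ) x, c • E.one ∈ E.Z x → c = 0)
    {u : S} (hu : X.Cl 0 u) : ∃ c : ℂ, u = c • E.one := by
  obtain ⟨δ, hδ, P, μ, C, -, -, h2, h3, -⟩ := h.po 1 one_pos
  have hP : ∀ x, P x u = 0 := by
    intro x
    have h4 := congrArg (fun T : Module.End ℂ S => T (P x u)) h.cx.dg_sum
    simp only [LinearMap.sum_apply, Module.End.one_apply] at h4
    rw [← h4]
    refine Finset.sum_eq_zero fun j _ => ?_
    have h5 := congrArg (fun T : Module.End ℂ S => T u) (h3 x j)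
    have h6 := congrArg (fun T : Module.End ℂ S => T u) (h.cx.dg_mul (j + 1) 0)
    simp only [Module.End.mul_apply, hu.2, if_neg (Nat.succ_ne_zero j), LinearMap.zero_apply] at h5 h6
    rw [h5, h6, map_zero]
  have h4 : ∀ x y, dist x y < δ → μ x u • E.one - u ∈ E.Z y := by
    intro x y hxy
    have h5 := h2 x u y hxy
    rw [hP, hu.1, map_zero, map_zero, add_zero, zero_sub, neg_add_eq_sub] at h5
    exact h5
  have h5 : IsLocallyConstant fun x => μ x u := by
    rw [IsLocallyConstant.iff_eventually_eq]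
    intro x
    filter_upwards [Metric.ball_mem_nhds x hδ] with y hy
    have h6 := (E.Z y).sub_mem (h4 y y (by simpa using hδ)) (h4 x y (Metric.mem_ball'.1 hy))
    rw [sub_sub_sub_cancel_right, ← sub_smul] at h6
    exact sub_eq_zero.1 (h1 _ y h6)
  rcases isEmpty_or_nonempty M with hM | ⟨⟨x₀⟩⟩
  · exact ⟨0, by rw [zero_smul]; exact h.sep u fun x => isEmptyElim x⟩
  · refine ⟨μ x₀ u, (sub_eq_zero.1 (h.sep _ fun x => ?_)).symm⟩
    rw [h5.apply_eq_of_preconnectedSpace x₀ x]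
    exact h4 x x (by simpa using hδ)

lemma top_nul [PreconnectedSpace M] (h : E.OK) (h1 : ∀ (c : ℂ) x, c • E.one ∈ E.Z x → c = 0)
    {z : S} (hz : X.Cl (D + D) z) (h0 : X.Q E.one z = 0) : z ∈ X.Nul := by
  refine ⟨hz.1, fun y hy => ?_⟩
  have h2 : X.Cl 0 (X.dg 0 y) := by
    constructor
    · have h3 := congrArg (fun T : Module.End ℂ S => T y) (h.cx.dg_d 0)
      simp only [Module.End.mul_apply, hy, map_zero] at h3
      exact h3.symm
    · have h3 := congrArg (fun T : Module.End ℂ S => T y) (h.cx.dg_mul 0 0)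
      simpa using h3
  obtain ⟨c, hc⟩ := const_of h h1 h2
  rw [← hz.2, ← h.cx.Qdg 0 (D + D) y z (zero_add _), hc, map_smul, LinearMap.smul_apply, h0,
    smul_zero]

lemma top_int [PreconnectedSpace M] (h : E.OK) (h1 : ∀ (c : ℂ) x, c • E.one ∈ E.Z x → c = 0)
    {n : ℕ} {b : Fin n → S} (hb : E.LB (D + D) b) :
    ∃ lam : ℂ, ∀ z, E.IsInt (D + D) z → ∃ k : ℤ, X.Q E.one z = k * lam := by
  classical
  have hne : ∀ i, X.Q E.one (b i) ≠ 0 := by
    intro i h0
    have h2 := hb.ind (Pi.single i 1) (by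
      simpa [Pi.single_apply] using top_nul h h1 (hb.cl i) h0)
    simpa using congrFun h2 i
  have hsub : ∀ i j : Fin n, i = j := by
    intro i j
    by_contra hij
    have h2 := hb.ind (Pi.single i (X.Q E.one (b j)) - Pi.single j (X.Q E.one (b i))) (by
      have h3 : X.Cl (D + D) (X.Q E.one (b j) • b i - X.Q E.one (b i) • b j) :=
        ⟨by rw [map_sub, map_smul, map_smul, (hb.cl i).1, (hb.cl j).1, smul_zero, smul_zero,
            sub_zero],
          by rw [map_sub, map_smul, map_smul, (hb.cl i).2, (hb.cl j).2]⟩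
      have h4 := top_nul h h1 h3 (by
        rw [map_sub, map_smul, map_smul, smul_eq_mul, smul_eq_mul, mul_comm, sub_self])
      simpa [Pi.single_apply, sub_smul, Finset.sum_sub_distrib] using h4)
    have h5 := congrFun h2 i
    simp [Pi.single_apply, hij] at h5
    exact hne j h5
  refine ⟨∑ i, X.Q E.one (b i), fun z hz => ?_⟩
  obtain ⟨k, hk⟩ := hb.crd z hz
  have h2 := hk.2 E.one h.d_one
  rw [map_sub, sub_eq_zero, map_sum] at h2
  refine ⟨∑ i, k i, ?_⟩
  rw [h2]
  rcases isEmpty_or_nonempty (Fin n) with hn | ⟨⟨i⟩⟩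
  · simp
  · haveI : Unique (Fin n) := ⟨⟨i⟩, fun j => hsub j i⟩
    simp

lemma int_one (h : E.OK) : E.IsInt 0 E.one := by
  refine ⟨1, one_pos, fun _ => 1, fun _ => E.one, rfl, ?_, ?_, ?_⟩
  · intro l j hl
    obtain rfl : j = 0 := by omega
    exact h.dg_one
  · intro l hl z _
    obtain rfl : l = [] := List.length_eq_zero_iff.1 (Nat.le_zero.1 hl)
    simp [h.d_one, dl]
  · intro l hl z _
    obtain ⟨x, rfl⟩ := List.length_eq_one_iff.1 hl
    simp [dl, zl]

end Rt

theorem one_ne {d : ℕ} (V : Mf d) (c : ℂ) (x : V.X) (h : c • oneF V ∈ ZP x) : c = 0 := by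
  have h1 := h _ (at_chart x)
  rw [vl_smul, oneF_spec V _ x (at_chart x)] at h1
  simpa [ev] using congrFun h1 ∅

theorem intv_of (hV : VOL) : INTV := by
  intro d V hK hc
  obtain ⟨w, hw⟩ := hK
  obtain ⟨K, hP⟩ := exists_pack V hw
  letI := ms V
  have h1 : ∀ (c : ℂ) x, c • (lcK V K).one ∈ (lcK V K).Z x → c = 0 := one_ne V
  obtain ⟨n, b, hb⟩ := hP.lb (d + d)
  obtain ⟨lam, hlam⟩ := Rt.top_int hP.eok h1 hb
  refine ⟨tc d * lam, fun u hu hi => ?_⟩
  obtain ⟨W, hW⟩ := (g1T d V.X).op _ ((g1T d V.X).wed u)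
  obtain ⟨h2, h3, h4, h5⟩ := hV.op hW
  obtain ⟨h6, h7⟩ := h5 hu
  have h8 : ∀ j, (lcK V K).IsInt (j + j) ((W ^ j) (oneF V)) := by
    intro j
    induction j with
    | zero => exact Rt.int_one hP.eok
    | succ j ih =>
      rw [pow_succ', Module.End.mul_apply, show j + 1 + (j + 1) = j + j + 2 by ring]
      refine Rt.cup_int W h1 h6 h4 h7 ?_ _ _ ih
      show (lcK V K).IsInt 2 (W (oneF V))
      rw [h3]
      exact (intF_iff V K 2 u).1 hi
  obtain ⟨k, hk⟩ := hlam _ (h8 d)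
  refine ⟨k, ?_⟩
  rw [h2, show (dR V).Q (oneF V) ((W ^ d) (oneF V)) = k * lam from hk]
  ring

end Vale.Agent.P301Z.Lat
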