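import Vale.Agent.P301Z.Lat.Pk
import Vale.Agent.P277.H60.L.Dolb

/-!
# P301, block LAT: coefficients of forms of low degree, local potentials
-/

open scoped Manifold ContDiff ComplexOrder Topology Matrix
open Filter Metric
open Vale.Agent.P272.K Vale.Agent.P299.IX Vale.Agent.P299.IX.Fock
open Vale.Agent.P281Z (Mf)
open Vale.Agent.P281Z.Hg

noncomputable section

namespace Vale.Agent.P301Z.Lat.LefX

section point
variable {n d : ℕ}

lemma iot0 (a : Fin n) (v : Fk n) : (iot a *ᵥ v) ∅ = v {a} := by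
  rw [iot_mulVec, if_neg (Finset.notMem_empty a)]
  simp [sg]

lemma lam0 (J : Matrix (Fin n) (Fin n) ℂ) (v : Fk n) : (lam J *ᵥ v) ∅ = v ∅ := by
  simp [Matrix.mulVec, dotProduct, lam_apply_empty]

lemma lam1 (J : Matrix (Fin n) (Fin n) ℂ) (v : Fk n) (a : Fin n) :
    (lam J *ᵥ v) {a} = ∑ l, J a l * v {l} := by
  rw [← iot0 a (lam J *ᵥ v), Matrix.mulVec_mulVec, iot_lam, ← Matrix.mulVec_mulVec, lam0, Matrix.sum_mulVec,
    Finset.sum_apply]
  refine Finset.sum_congr rfl fun l _ => ?_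
  rw [Matrix.smul_mulVec, Pi.smul_apply, iot0, smul_eq_mul]

lemma cjv0 (v : Fo d) : cjv v ∅ = (starRingEnd ℂ) (v ∅) := lam0 _ _

lemma cjv1 (v : Fo d) (j : Fin d) : cjv v {hl j} = (starRingEnd ℂ) (v {ah j}) := by
  have h : ∀ l, swm d (hl j) l = if l = ah j then 1 else 0 := fun l =>
    (congrFun (congrFun (f1b.swm_tr d) l) (hl j)).trans (f1b.swm_hl j l)
  rw [cjv, lam1]
  simp [h]

lemma ie (a c : Fin n) (w : Fk n) :
    iot a *ᵥ (eps c *ᵥ w) = (if a = c then w else 0) - eps c *ᵥ (iot a *ᵥ w) := by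
  rw [Matrix.mulVec_mulVec, Matrix.mulVec_mulVec, eq_sub_of_add_eq (car a c), Matrix.sub_mulVec]
  congr 1
  split_ifs
  · exact Matrix.one_mulVec w
  · exact Matrix.zero_mulVec w

lemma ie0 (a c : Fin n) (w : Fk n) : (iot a *ᵥ (eps c *ᵥ w)) ∅ = if a = c then w ∅ else 0 := by
  rw [ie, Pi.sub_apply, eps_mulVec_empty, sub_zero]
  split_ifs <;> rfl

lemma sum1 (w : Fin n → Fk n) (a : Fin n) : (∑ c, eps c *ᵥ w c) {a} = w a ∅ := by
  rw [← iot0 a (∑ c, eps c *ᵥ w c), Matrix.mulVec_sum, Finset.sum_apply]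
  simp only [ie0, Finset.sum_ite_eq, Finset.mem_univ, if_true]

lemma sum2 (w : Fin n → Fk n) (a b : Fin n) :
    mat (∑ c, eps c *ᵥ w c) a b = w a {b} - w b {a} := by
  have h : ∀ c, (iot b *ᵥ (iot a *ᵥ (eps c *ᵥ w c))) ∅ =
      (if a = c then w c {b} else 0) - if b = c then w c {a} else 0 := by
    intro c
    rw [ie a c, Matrix.mulVec_sub, Pi.sub_apply, ie0, iot0, iot0]
    split_ifs <;> rfl
  show (iot b *ᵥ (iot a *ᵥ ∑ c, eps c *ᵥ w c)) ∅ = _
  rw [Matrix.mulVec_sum, Matrix.mulVec_sum, Finset.sum_apply]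
  simp only [h, Finset.sum_sub_distrib, Finset.sum_ite_eq, Finset.mem_univ, if_true]

lemma dr_h (j : Fin d) : dr (hl j) = dz j := Fin.addCases_left j

lemma dr_a (j : Fin d) : dr (ah j) = dzb j := Fin.addCases_right j

lemma dT1 (u : Cm d → Fo d) (z : Cm d) (k : Fin d) :
    dT u z {ah k} = dzb k (fun y => u y ∅) z := by
  rw [dT, sum1, ← dr_a]
  rfl

lemma dT2 (u : Cm d → Fo d) (z : Cm d) (a b : Fin (d + d)) :
    mat (dT u z) a b = dr a (fun y => u y {b}) z - dr b (fun y => u y {a}) z := sum2 _ a b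

lemma mat_aa (A : PWA) (W : Mx d) (i j : Fin d) : mat (f11 W) (ah i) (ah j) = 0 := by
  rw [A.f11_tw, A.mat_tw]
  · simp only [bl4, ah, Matrix.reindex_apply, Matrix.submatrix_apply,
      finSumFinEquiv_symm_apply_natAdd, Matrix.fromBlocks_apply₂₂, Matrix.zero_apply]
  · simp only [bl4, Matrix.transpose_reindex, Matrix.fromBlocks_transpose, Matrix.transpose_zero,
      Matrix.transpose_neg, Matrix.transpose_transpose]
    ext p q
    simp only [Matrix.reindex_apply, Matrix.submatrix_apply, Matrix.neg_apply]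
    rcases finSumFinEquiv.symm p with p | p <;> rcases finSumFinEquiv.symm q with q | q <;> simp

lemma hess (A : PWA) {φ : Cm d → ℂ} {g : Cm d → Fo d} {z : Cm d} {W : Mx d}
    (hφ : ContDiffAt ℝ ∞ φ z) (h1 : ∀ᶠ y in 𝓝 z, ∀ k, dzb k φ y = g y {ah k})
    (h2 : ∀ᶠ y in 𝓝 z, cjv (g y) = g y)
    (h3 : dT g z = ((2 * Real.pi : ℝ) : ℂ)⁻¹ • f11 W) :
    cHess (fun y => 4 * Real.pi * (φ y).im) z = W := by
  ext j k
  have p2 : ContDiffAt ℝ 2 φ z := hφ.of_le (by norm_cast)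
  have q2 : ContDiffAt ℝ 2 (fun y => (starRingEnd ℂ) (φ y)) z := C2.contDiffAt_conj p2
  have p1 : ∀ᶠ y in 𝓝 z, DifferentiableAt ℝ φ y := by
    filter_upwards [p2.eventually (by simp)] with y hy using hy.differentiableAt (by simp)
  have e0 : (fun y => ((4 * Real.pi * (φ y).im : ℝ) : ℂ)) =
      fun y => (-(2 * Real.pi * Complex.I)) * (φ y - (starRingEnd ℂ) (φ y)) := by
    funext y
    rw [Complex.sub_conj]
    push_cast
    linear_combination (4 * (Real.pi : ℂ) * (φ y).im) * Complex.I_mul_I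
  have e1 : (dzb k fun y => (-(2 * Real.pi * Complex.I)) * (φ y - (starRingEnd ℂ) (φ y))) =ᶠ[𝓝 z]
      fun y => (-(2 * Real.pi * Complex.I)) *
        (dzb k φ y - dzb k (fun y => (starRingEnd ℂ) (φ y)) y) := by
    filter_upwards [p1] with y hy
    have hc := C2.differentiableAt_conj hy
    rw [C2.dzb_const_mul _ _ (hy.fun_sub hc), C2.dzb_sub _ hy hc]
  have e2 : dzb k φ =ᶠ[𝓝 z] fun y => g y {ah k} := by
    filter_upwards [h1] with y hy using hy k
  have e3 : (dz j fun y => (starRingEnd ℂ) (φ y)) =ᶠ[𝓝 z] fun y => g y {hl j} := by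
    filter_upwards [h1, h2, p1] with y k1 k2 k3
    rw [C2.dz_conj _ k3, k1, ← cjv1, k2]
  have d1 := C2.differentiableAt_dzb k p2
  have d2 := C2.differentiableAt_dzb k q2
  have e4 := dT2 g z (hl j) (ah k)
  rw [h3, A.mat_smul, dr_h, dr_a] at e4
  have e5 : -Complex.I * mat (f11 W) (hl j) (ah k) = W j k := congrFun (congrFun (A.m11_f11 W) j) k
  rw [C2.cHess_apply, e0, C2.dz_congr _ e1, C2.dz_const_mul _ _ (d1.fun_sub d2), C2.dz_sub _ d1 d2,
    C2.dz_dzb_comm _ _ q2, C2.dz_congr _ e2, C2.dzb_congr _ e3, ← e4, ← e5, Matrix.smul_apply,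
    smul_eq_mul]
  have : (Real.pi : ℂ) ≠ 0 := by exact_mod_cast Real.pi_ne_zero
  push_cast
  field_simp

end point

variable {d : ℕ} {V : Mf d}

lemma zp_eq {u v : Fs V} {p : V.X} (h : u - v ∈ ZP p) {e : Chart d V.X} (hp : At e p) :
    vl u e (e p) = vl v e (e p) := sub_eq_zero.1 (h e hp)

lemma near {e : Chart d V.X} {p : V.X} (hp : At e p) {U : Set V.X} (hU : U ∈ 𝓝 p) :
    ∀ᶠ z in 𝓝 (e p), At e (e.symm z) ∧ e.symm z ∈ U ∧ e (e.symm z) = z := by
  have h1 : ∀ᶠ z in 𝓝 (e p), e.symm z ∈ U := by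
    refine (e.continuousAt_symm hp.mem_target).eventually ?_
    rwa [hp.left_inv]
  filter_upwards [hp.nhds_at hp, h1] with z k1 k2 using ⟨k1.2.1, k2, e.right_inv k1.1⟩

/-- the function defined by the component of degree zero -/
def fn (v : Fs V) (p : V.X) : ℂ := vl v (chartAt (Cm d) p) (chartAt (Cm d) p p) ∅

lemma fn_eq (v : Fs V) {e : Chart d V.X} {p : V.X} (hp : At e p) : fn v p = vl v e (e p) ∅ := by
  rw [fn, (vl_isF v).ch _ e p (at_chart p) hp, lam0]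

lemma fn_ev (v : Fs V) {e : Chart d V.X} {p : V.X} (hp : At e p) :
    (fun z => fn v (e.symm z)) =ᶠ[𝓝 (e p)] fun z => vl v e z ∅ := by
  filter_upwards [near hp univ_mem] with z hz
  rw [fn_eq v hz.1, hz.2.2]

lemma vl_sm (v : Fs V) {e : Chart d V.X} {p : V.X} (hp : At e p) (I : FI (d + d)) :
    ContDiffAt ℝ ∞ (fun z => vl v e z I) (e p) := contDiffAt_pi.1 ((vl_isF v).sm e p hp) I

lemma fn_sm (v : Fs V) {e : Chart d V.X} {p : V.X} (hp : At e p) :
    ContDiffAt ℝ ∞ (fun z => fn v (e.symm z)) (e p) :=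
  (vl_sm v hp ∅).congr_of_eventuallyEq (fn_ev v hp)

lemma fn_dzb (v : Fs V) {e : Chart d V.X} {p : V.X} (hp : At e p) (k : Fin d) :
    dzb k (fun z => fn v (e.symm z)) (e p) = vl ((dR V).d v) e (e p) {ah k} := by
  rw [C2.dzb_congr _ (fn_ev v hp), (dR_real V).d v e p hp, dT1]

/-- a local potential of the part of type `(0, 1)` -/
lemma pot {γ : Fs V} {x : V.X} {B : Set V.X} (hB : B ∈ 𝓝 x)
    (h : ∀ p ∈ B, ∀ e, At e p → ∀ i j, mat (vl ((dR V).d γ) e (e p)) (ah i) (ah j) = 0) :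
    ∃ (U : Set V.X) (φ : V.X → ℂ), IsOpen U ∧ x ∈ U ∧ U ⊆ B ∧ ∀ e p, At e p → p ∈ U →
      ContDiffAt ℝ ∞ (fun z => φ (e.symm z)) (e p) ∧
        ∀ k, dzb k (fun z => φ (e.symm z)) (e p) = vl γ e (e p) {ah k} := by
  obtain ⟨e0, h0⟩ : ∃ e0 : Chart d V.X, At e0 x := ⟨_, at_chart x⟩
  obtain ⟨R, hR, hb⟩ := Metric.eventually_nhds_iff_ball.1 (near h0 hB)
  obtain ⟨u, hu, hd⟩ := Vale.Agent.P277.H60.L.dolbeault (e0 x) (half_pos hR) (half_lt_self hR)
    (fun k z => vl γ e0 z {ah k}) (fun k z hz => by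
      have h1 := vl_sm γ (hb z hz).1 {ah k}
      rwa [(hb z hz).2.2] at h1) fun i j z hz => by
      have h1 := h _ (hb z hz).2.1 e0 (hb z hz).1 i j
      rw [(dR_real V).d γ e0 _ (hb z hz).1, (hb z hz).2.2, dT2, dr_a, dr_a] at h1
      exact sub_eq_zero.1 h1
  refine ⟨e0.source ∩ e0 ⁻¹' ball (e0 x) (R / 2), fun p => u (e0 p),
    e0.isOpen_inter_preimage isOpen_ball, ⟨h0.2, mem_ball_self (half_pos hR)⟩, fun p hp => ?_,
    fun e p hp hU => ?_⟩
  · have h1 := (hb _ (ball_subset_ball (half_le_self hR.le) hp.2)).2.1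
    rwa [e0.left_inv hp.1] at h1
  have hp0 : At e0 p := ⟨h0.1, hU.1⟩
  have ht := transition hp hp0
  refine ⟨hu.contDiffAt.comp (e p) ((ht.restrict_scalars ℝ).of_le le_top), fun k => ?_⟩
  have h1 := dzb_comp_holo (i := k) (f := u) (τ := fun z => e0 (e.symm z)) (z := e p)
    (hu.differentiable (by simp) _) (transition_differentiableAt hp hp0)
  rw [h1, (vl_isF γ).ch e e0 p hp hp0, lam1, (g1T d V.X).jt_eq e e0 p hp hp0, Fin.sum_univ_add]
  have h2 : ∀ l, blk (jacM e e0 p)ᵀ ((jacM e e0 p)ᵀ.map star) (ah k) (Fin.castAdd d l) = 0 :=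
    fun l => f1b.blk_ah _ _ k l
  have h3 : ∀ l, blk (jacM e e0 p)ᵀ ((jacM e e0 p)ᵀ.map star) (ah k) (Fin.natAdd d l) =
      star (jacM e e0 p l k) := fun l => f1b.blk_aa _ _ k l
  simp only [h2, h3, zero_mul, Finset.sum_const_zero, zero_add]
  refine Finset.sum_congr rfl fun l _ => ?_
  rw [hp.left_inv, hd l _ hU.2, mul_comm]
  rfl

end Vale.Agent.P301Z.Lat.LefX
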