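import Vale.Agent.P301Z.Lat.Sig

/-!
# P301, block LAT: consequences of the Fujiki relation
-/

open scoped Manifold ContDiff ComplexOrder Topology Matrix
open Vale.Agent.P272.K Vale.Agent.P299.IX Vale.Agent.P299.IX.Fock
open Vale.Agent.P281Z (Mf)
open Vale.Agent.P281Z.Hg
open Vale.Agent.P301.H599 (IsHolTwoForm IsSymplectic SameClass Smooth ddc)
open Vale.Agent.P272.K.INT (IsClosedForm IsDensity intX)

noncomputable section

namespace Vale.Agent.P301Z.Lat

section basic
variable {d : ℕ} {V : Mf d} {a a' s s' : Fld V} {u u' : Fs V}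

theorem R11.lin (x y : ℝ) (ha : R11 a) (hb : R11 a') :
    R11 (V := V) fun e z => (x : ℂ) • a e z + (y : ℂ) • a' e z where
  toIsClosedForm := (ha.toIsClosedForm.smul x).add (hb.toIsClosedForm.smul y)
  herm e p hp := by
    have h1 := (ha.herm e p hp).eq
    have h2 := (hb.herm e p hp).eq
    show ((x : ℂ) • a e (e p) + (y : ℂ) • a' e (e p))ᴴ = _
    rw [Matrix.conjTranspose_add, Matrix.conjTranspose_smul, Matrix.conjTranspose_smul, h1, h2]
    simp

theorem R11.ddc {f : V.X → ℝ} (hf : Smooth (d := d) f) : R11 (V := V) (ddc f) where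
  toIsClosedForm := INT.isClosedForm_cHess hf
  herm e x hx := C2.cHess_isHermitian ((hf e x hx).of_le (by norm_cast))

theorem R11.kah (ha : R11 a) (hp : ∀ e x, At e x → (a e (e x)).PosDef) : IsKahler a where
  smooth := ha.smooth
  posDef := hp
  change := ha.form
  closed e x h i j k := ha.closed e x h k i j

theorem Is11.lin (A : PWA) (x y : ℂ) (hu : Is11 a u) (hu' : Is11 a' u') :
    Is11 (V := V) (fun e z => x • a e z + y • a' e z) (x • u + y • u') := fun e p hp => by
  show x • vl u e (e p) + y • vl u' e (e p) = f11 (x • a e (e p) + y • a' e (e p))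
  rw [hu.val hp, hu'.val hp, A.f11_add, A.f11_smul, A.f11_smul]

theorem Is20.lin (A : PWA) (x y : ℂ) (hu : Is20 s u) (hu' : Is20 s' u') :
    Is20 (V := V) (fun e z => x • s e z + y • s' e z) (x • u + y • u') := fun e p hp => by
  show x • vl u e (e p) + y • vl u' e (e p) = f20 (x • s e (e p) + y • s' e (e p))
  rw [hu e p hp, hu' e p hp, A.f20_add, A.f20_smul, A.f20_smul]

theorem hol_lin (x y : ℂ) (hs : IsHolTwoForm s) (hs' : IsHolTwoForm s') :
    IsHolTwoForm (X := V.X) fun e z => x • s e z + y • s' e z where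
  holo e p hp i j :=
    (analyticAt_const.mul (hs.holo e p hp i j)).add (analyticAt_const.mul (hs'.holo e p hp i j))
  alt e p hp := by
    rw [Matrix.transpose_add, Matrix.transpose_smul, Matrix.transpose_smul, hs.alt e p hp,
      hs'.alt e p hp, smul_neg, smul_neg, neg_add]
  change e e' p hp hp' := by
    rw [hs.change e e' p hp hp', hs'.change e e' p hp hp', Matrix.mul_add, Matrix.add_mul,
      Matrix.mul_smul, Matrix.smul_mul, Matrix.mul_smul, Matrix.smul_mul]

theorem vol_congr (h : ∀ e x, At e x → pw (vl u e (e x)) = pw (vl u' e (e x))) :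
    Vol u = Vol u' := by
  unfold Vol itg
  rw [INT.intX_congr (D := fun e z => (pw (vl u e z)).re) (D' := fun e z => (pw (vl u' e z)).re)
      fun e x hx => congrArg Complex.re (h e x hx),
    INT.intX_congr (D := fun e z => (pw (vl u e z)).im) (D' := fun e z => (pw (vl u' e z)).im)
      fun e x hx => congrArg Complex.im (h e x hx)]

theorem det_herm {W : Mx d} (h : W.IsHermitian) : W.det = (W.det.re : ℝ) := by
  refine (Complex.conj_eq_iff_re.1 ?_).symm
  have := Matrix.det_conjTranspose W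
  rw [h.eq] at this
  exact this.symm

end basic

section alg
variable {r : ℕ} (q : Matrix (Fin r) (Fin r) ℤ)

theorem re_im (p : Fin r → ℂ) :
    p = rc (fun i => (p i).re) + Complex.I • rc (fun i => (p i).im) := by
  funext i
  simp only [rc, Pi.add_apply, Pi.smul_apply, smul_eq_mul]
  rw [mul_comm, Complex.re_add_im]

theorem star_re_im (p : Fin r → ℂ) :
    star p = rc (fun i => (p i).re) + (-Complex.I) • rc (fun i => (p i).im) := by
  funext i
  simp only [rc, Pi.add_apply, Pi.smul_apply, smul_eq_mul, Pi.star_apply]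
  apply Complex.ext <;> simp

theorem qC_rc_zero {p : Fin r → ℂ} {v : Fin r → ℝ} (h : qC q p (rc v) = 0) :
    qR q (fun i => (p i).re) v = 0 ∧ qR q (fun i => (p i).im) v = 0 := by
  rw [re_im p, qC_add_l, qC_smul_l, qC_rc, qC_rc] at h
  have h1 := congrArg Complex.re h
  have h2 := congrArg Complex.im h
  simp at h1 h2
  exact ⟨h1, h2⟩

theorem qC_bar (hq : qᵀ = q) (p : Fin r → ℂ) : qC q p (star p) =
    ((qR q (fun i => (p i).re) (fun i => (p i).re) +
      qR q (fun i => (p i).im) (fun i => (p i).im) : ℝ) : ℂ) := by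
  have h := star_re_im p
  have h' := re_im p
  generalize (fun i => (p i).re) = A at *
  generalize (fun i => (p i).im) = B at *
  rw [h]
  conv_lhs => rw [h']
  simp only [qC_add_l, qC_add_r, qC_smul_l, qC_smul_r, qC_rc]
  rw [qR_comm q hq B A]
  push_cast
  linear_combination (-(qR q B B : ℂ)) * Complex.I_mul_I

theorem qC_self (hq : qᵀ = q) {p : Fin r → ℂ} (h : qC q p p = 0) :
    qR q (fun i => (p i).re) (fun i => (p i).re) = qR q (fun i => (p i).im) (fun i => (p i).im) ∧
      qR q (fun i => (p i).re) (fun i => (p i).im) = 0 := by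
  have h' := re_im p
  generalize (fun i => (p i).re) = A at *
  generalize (fun i => (p i).im) = B at *
  rw [h'] at h
  simp only [qC_add_l, qC_add_r, qC_smul_l, qC_smul_r, qC_rc] at h
  rw [qR_comm q hq B A] at h
  have h1 := congrArg Complex.re h
  have h2 := congrArg Complex.im h
  simp at h1 h2
  constructor <;> linarith

end alg

namespace RelH

variable {n r : ℕ} {B : BB n r} {Y : MK B}

theorem per_lin (A : PWA) {s s' p p'} (x y : ℂ) (h : Y.Per s p) (h' : Y.Per s' p') :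
    Y.Per (fun e z => x • s e z + y • s' e z) (x • p + y • p') := by
  obtain ⟨hs, u, hu, hc, rfl⟩ := h
  obtain ⟨hs', u', hu', hc', rfl⟩ := h'
  exact ⟨hol_lin x y hs hs', _, hu.lin A x y hu', (hc.smul x).add (hc'.smul y), by
    rw [map_add, map_smul, map_smul]⟩

theorem add (A : PWA) {a a' v v'} (x y : ℝ) (h : Y.C11 a v) (h' : Y.C11 a' v') :
    Y.C11 (fun e z => (x : ℂ) • a e z + (y : ℂ) • a' e z) (x • v + y • v') := by
  obtain ⟨ha, u, hu, hc, e1⟩ := h
  obtain ⟨ha', u', hu', hc', e2⟩ := h'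
  exact ⟨ha.lin x y ha', _, hu.lin A x y hu', (hc.smul _).add (hc'.smul _), by
    rw [map_add, map_smul, map_smul, e1, e2, rc_add, rc_smul, rc_smul]⟩

theorem Cne : (B.C : ℂ) ≠ 0 := by exact_mod_cast B.Cpos.ne'

theorem pp0 (A : PWA) (b : PWB) (v : VOL) {s p} (h : Y.Per s p) : qC B.q p p = 0 := by
  obtain ⟨-, u, hu, hc, rfl⟩ := h
  have h0 : Vol u = 0 := by
    rw [v.real u (fun _ _ => 0) fun e x hx => ?_, INT.intX_zero]
    · simp
    · have h1 := b.typ (s e (e x)) 0
      have h2 : f11 (0 : Mx (n + n)) = 0 := by simpa using A.f11_smul 0 (0 : Mx (n + n))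
      haveI : Nonempty (Fin (n + n)) := ⟨⟨0, by have := B.npos; omega⟩⟩
      rw [h2, add_zero, Matrix.det_zero] at h1
      rw [hu e x hx, h1]
      simp
  have h1 := Y.fuj u hc
  rw [h0] at h1
  exact pow_eq_zero_iff B.npos.ne' |>.1 ((mul_eq_zero.1 h1.symm).resolve_left Cne)

theorem pp (A : PWA) (b : PWB) (v : VOL) {s s' p p'} (h : Y.Per s p) (h' : Y.Per s' p') :
    qC B.q p p' = 0 := by
  have h1 := pp0 A b v (per_lin A 1 1 h h')
  rw [one_smul, one_smul, qC_add_l, qC_add_r, qC_add_r, pp0 A b v h, pp0 A b v h',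
    qC_comm _ B.symm p' p] at h1
  linear_combination h1 / 2

theorem p11 (A : PWA) (b : PWB) (v : VOL) {s p a k} (h : Y.Per s p) (h' : Y.C11 a k) :
    qC B.q p (rc k) = 0 := by
  have h0 := pp0 A b v h
  obtain ⟨-, u, hu, hc, rfl⟩ := h
  obtain ⟨-, u', hu', hc', e2⟩ := h'
  have key : ∀ x : ℂ, (2 * x * qC B.q (Y.m.c u) (rc k) + qC B.q (rc k) (rc k)) ^ n =
      qC B.q (rc k) (rc k) ^ n := fun x => by
    have h1 : Vol (x • u + u') = Vol u' := vol_congr fun e y hy => by
      show pw (x • vl u e (e y) + vl u' e (e y)) = _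
      rw [hu e y hy, hu'.val hy, ← A.f20_smul, b.typ, b.det]
    rw [Y.fuj _ ((hc.smul x).add hc'), Y.fuj _ hc', map_add, map_smul, e2] at h1
    have h2 := mul_left_cancel₀ Cne h1
    rw [← h2]
    congr 1
    simp only [qC_add_l, qC_add_r, qC_smul_l, qC_smul_r]
    rw [h0, qC_comm _ B.symm (rc k) (Y.m.c u)]
    ring
  by_contra hne
  generalize qC B.q (Y.m.c u) (rc k) = α at *
  generalize qC B.q (rc k) (rc k) = β at *
  have k0 := key (-β / (2 * α))
  have k1 := key ((1 - β) / (2 * α))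
  have e0 : 2 * (-β / (2 * α)) * α + β = 0 := by field_simp; ring
  have e1 : 2 * ((1 - β) / (2 * α)) * α + β = 1 := by field_simp; ring
  rw [e0, zero_pow B.npos.ne'] at k0
  rw [e1, one_pow, ← k0] at k1
  exact one_ne_zero k1

theorem pbar11 (A : PWA) (b : PWB) (v : VOL) {s p a k} (h : Y.Per s p) (h' : Y.C11 a k) :
    qC B.q (star p) (rc k) = 0 := by
  rw [← star_rc, qC_star, p11 A b v h h', star_zero]

theorem nonempty (Y : MK B) : Nonempty Y.V.X := by
  haveI := Y.sc
  infer_instance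

theorem nn (A : PWA) (b : PWB) (c : PWC) (v : VOL) {s p w k} (h : Y.Per s p) (hk : Y.Kc w k)
    (hq : 0 < qR B.q k k) : 0 ≤ qC B.q p (star p) := by
  have h0 := pp0 A b v h
  have h1 := p11 A b v h hk.2
  have h2 := pbar11 A b v h hk.2
  have h3 : qC B.q (star p) (star p) = 0 := by rw [qC_star, h0, star_zero]
  obtain ⟨hs, u, hu, hc, rfl⟩ := h
  obtain ⟨hw, -, u', hu', hc', e2⟩ := hk
  rw [qC_bar _ B.symm]
  have h4 := qC_bar _ B.symm (Y.m.c u)
  generalize qR B.q (fun i => (Y.m.c u i).re) (fun i => (Y.m.c u i).re) +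
    qR B.q (fun i => (Y.m.c u i).im) (fun i => (Y.m.c u i).im) = N at *
  have key : ∀ t : ℝ, (qR B.q k k + 2 * t ^ 2 * N) ≠ 0 := fun t ht => by
    have hp : 0 < Vol (u' + (t : ℂ) • u + (t : ℂ) • (dR Y.V).cj u) :=
      v.pos (nonempty Y) fun e y hy => by
        show 0 < pw (vl u' e (e y) + (t : ℂ) • vl u e (e y) + (t : ℂ) • vl ((dR Y.V).cj u) e (e y))
        have := c.tame ((t : ℂ) • s e (e y)) (w e (e y))
          (by rw [Matrix.transpose_smul, hs.alt e y hy, smul_neg]) (hw.posDef e y hy)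
        rw [A.f20_smul, f1b.cjv_smul] at this
        rw [hu'.val hy, vl_cj u hy, hu e y hy]
        simpa using this
    rw [Y.fuj _ ((hc'.add (hc.smul _)).add (hc.cj.smul _)), map_add, map_add, map_smul, map_smul,
      e2, Y.m.cj u hc] at hp
    simp only [qC_add_l, qC_add_r, qC_smul_l, qC_smul_r] at hp
    rw [h0, h1, h2, h3, qC_comm _ B.symm (rc k) (Y.m.c u), qC_comm _ B.symm (rc k) (star _), h1, h2,
      qC_comm _ B.symm (star _) (Y.m.c u), h4, qC_rc] at hp
    have e0 : (qR B.q k k : ℂ) + t * 0 + t * 0 + t * (0 + t * 0 + t * N) +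
        t * (0 + t * N + t * 0) = ((qR B.q k k + 2 * t ^ 2 * N : ℝ) : ℂ) := by
      push_cast; ring
    rw [e0, ht] at hp
    simp [B.npos.ne'] at hp
  by_contra hneg
  have hN : N < 0 := by
    by_contra h5
    exact hneg (by exact_mod_cast not_lt.1 h5)
  refine key (Real.sqrt (qR B.q k k / (-2 * N))) ?_
  rw [Real.sq_sqrt (div_pos hq (by linarith)).le]
  have : N ≠ 0 := hN.ne
  field_simp
  ring

theorem ppb (A : PWA) (b : PWB) (c : PWC) (v : VOL) {s w p k} (h : Y.HK s w p k) :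
    0 < qC B.q p (star p) := by
  refine lt_of_le_of_ne (nn A b c v h.1.1 h.2.1 h.2.2) fun h5 => ?_
  have h0 := pp0 A b v h.1.1
  have h3 : qC B.q (star p) (star p) = 0 := by rw [qC_star, h0, star_zero]
  obtain ⟨⟨⟨hs, u, hu, hc, rfl⟩, hn⟩, -⟩ := h
  have hp : 0 < Vol (u + (dR Y.V).cj u) := v.pos (nonempty Y) fun e y hy => by
    show 0 < pw (vl u e (e y) + vl ((dR Y.V).cj u) e (e y))
    rw [vl_cj u hy, hu e y hy]
    exact c.ss _ (hs.alt e y hy) (hn e y hy)
  rw [Y.fuj _ (hc.add hc.cj), map_add, Y.m.cj u hc, qC_add_l, qC_add_r, qC_add_r, h0, h3,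
    qC_comm _ B.symm (star _) (Y.m.c u), ← h5] at hp
  simp [B.npos.ne'] at hp

theorem neg (A : PWA) (b : PWB) (c : PWC) (v : VOL) {s w p k} (h : Y.HK s w p k) (x : Fin r → ℝ)
    (h1 : qC B.q p (rc x) = 0) (h2 : qR B.q x k = 0) (h0 : x ≠ 0) : qR B.q x x < 0 := by
  have hp := ppb A b c v h
  obtain ⟨s1, s2⟩ := qC_self _ B.symm (pp0 A b v h.1.1)
  obtain ⟨k1, k2⟩ := qC_rc_zero _ (p11 A b v h.1.1 h.2.1.2)
  obtain ⟨x1, x2⟩ := qC_rc_zero _ h1
  rw [qC_bar _ B.symm] at hp
  have hp' := Complex.zero_lt_real.1 hp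
  generalize (fun i => (p i).re) = P at *
  generalize (fun i => (p i).im) = Q at *
  refine sig B ![P, Q, k] (fun i => ?_) (fun i j hij => ?_) x (fun i => ?_) h0
  · fin_cases i
    · show 0 < qR B.q P P
      linarith
    · show 0 < qR B.q Q Q
      linarith
    · exact h.2.2
  · fin_cases i <;> fin_cases j <;> first
      | exact absurd rfl hij
      | exact s2
      | exact k1
      | exact k2
      | exact (qR_comm _ B.symm _ _).trans s2
      | exact (qR_comm _ B.symm _ _).trans k1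
      | exact (qR_comm _ B.symm _ _).trans k2
  · fin_cases i
    · exact (qR_comm _ B.symm _ _).trans x1
    · exact (qR_comm _ B.symm _ _).trans x2
    · exact h2

theorem vol11 (b : PWB) (v : VOL) {a k} (h : Y.C11 a k) :
    intX (fun e z => (a e z).det.re) = B.C * qR B.q k k ^ n := by
  obtain ⟨ha, u, hu, hc, e2⟩ := h
  have h1 := v.real u (fun e z => (a e z).det.re) fun e x hx => by
    rw [hu.val hx, b.det]
    exact det_herm (ha.herm e x hx)
  rw [Y.fuj u hc, e2, qC_rc] at h1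
  exact_mod_cast h1.symm

theorem sym (A : PWA) (b : PWB) (c : PWC) (h20 : D20) (v : VOL) {s w p k} (h : Y.HK s w p k) :
    IsSymplectic (n + n) Y.V.X w s := by
  refine ⟨h.2.1.1, h.1.1.1, h.1.2, fun s' hs' => ?_⟩
  have hK : Y.V.Kah := ⟨w, h.2.1.1⟩
  obtain ⟨u', hu'⟩ := h20.ex hs'
  have h' : Y.Per s' (Y.m.c u') := ⟨hs', u', hu', h20.cl hK hs' hu', rfl⟩
  have hN := (ppb A b c v h).ne'
  obtain ⟨lam, hlam⟩ : ∃ lam : ℂ, lam * qC B.q p (star p) = qC B.q (Y.m.c u') (star p) :=
    ⟨_, div_mul_cancel₀ _ hN⟩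
  have hy := per_lin A 1 (-lam) h' h.1.1
  generalize hg : (1 : ℂ) • Y.m.c u' + (-lam) • p = y at hy
  have y1 : qC B.q y (star p) = 0 := by
    rw [← hg, qC_add_l, qC_smul_l, qC_smul_l, ← hlam]; ring
  have y2 : qC B.q p y = 0 := pp A b v h.1.1 hy
  have y3 : qC B.q p (star y) = 0 := by
    have := qC_star B.q y (star p)
    rw [y1, star_zero, star_star] at this
    rw [qC_comm _ B.symm, this]
  obtain ⟨k1, k2⟩ := qC_rc_zero _ (p11 A b v hy h.2.1.2)
  have hnn := nn A b c v hy h.2.1 h.2.2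
  rw [qC_bar _ B.symm] at hnn
  have hnn' := Complex.zero_le_real.1 hnn
  have e1 := re_im y
  have e2 := star_re_im y
  generalize (fun i => (y i).re) = P at *
  generalize (fun i => (y i).im) = Q at *
  rw [e2, qC_add_r, qC_smul_r] at y3
  have y2' : qC B.q p (rc P) + Complex.I * qC B.q p (rc Q) = 0 := by
    rw [← qC_smul_r, ← qC_add_r, ← e1, y2]
  have z1 : qC B.q p (rc P) = 0 := by linear_combination (y2' + y3) / 2
  have z2 : qC B.q p (rc Q) = 0 := by
    rw [z1, zero_add] at y2'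
    exact (mul_eq_zero.1 y2').resolve_left Complex.I_ne_zero
  have le1 : qR B.q P P ≤ 0 := by
    by_cases hP : P = 0
    · rw [hP, qR_zero_l]
    · exact (neg A b c v h P z1 k1 hP).le
  have le2 : qR B.q Q Q ≤ 0 := by
    by_cases hQ : Q = 0
    · rw [hQ, qR_zero_l]
    · exact (neg A b c v h Q z2 k2 hQ).le
  have P0 : P = 0 := by
    by_contra hP
    linarith [neg A b c v h P z1 k1 hP]
  have Q0 : Q = 0 := by
    by_contra hQ
    linarith [neg A b c v h Q z2 k2 hQ]
  obtain ⟨hys, uy, huy, hcy, e3⟩ := hy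
  have hex : Ex2 Y.V uy := (Y.m.ker uy hcy).1 (by rw [e3, e1, P0, Q0, rc_zero]; simp)
  refine ⟨lam, fun e x hx => ?_⟩
  have := h20.zero hK hys huy hex e x hx
  simp only [one_smul, neg_smul] at this
  exact sub_eq_zero.1 ((sub_eq_add_neg _ _).trans this)

theorem kpos (A : PWA) (b : PWB) (c : PWC) (v : VOL) {s w p k w' k'} (h : Y.HK s w p k)
    (h' : Y.Kc w' k') : 0 < qR B.q k' k' ∧ 0 < qR B.q k k' := by
  haveI := nonempty Y
  have hC := fun t : ℝ => add A (1 - t) t h.2.1.2 h'.2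
  have hne : ∀ t ∈ Set.Icc (0 : ℝ) 1, qR B.q ((1 - t) • k + t • k') ((1 - t) • k + t • k') ≠ 0 := by
    intro t ht h0
    have h1 := vol11 b v (hC t)
    have hk : IsKahler _ := (hC t).1.kah fun e x hx => by
      rcases ht.1.eq_or_lt with h2 | h2
      · simpa [← h2] using h.2.1.1.posDef e x hx
      · exact Matrix.PosDef.posSemidef_add
          ((h.2.1.1.posDef e x hx).posSemidef.smul (by exact_mod_cast sub_nonneg.2 ht.2))
          ((h'.1.posDef e x hx).smul (by exact_mod_cast h2))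
    have h2 := INT.intX_pos (hC t).1.toIsClosedForm.isDensity fun e x hx =>
      hk.toIsHermitian.det_re_pos hx
    rw [h1, h0, zero_pow B.npos.ne', mul_zero] at h2
    exact lt_irrefl _ h2
  have hcont : Continuous fun t : ℝ => qR B.q ((1 - t) • k + t • k') ((1 - t) • k + t • k') := by
    simp only [qR_add_l, qR_add_r, qR_smul_l, qR_smul_r]
    fun_prop
  have hpos : ∀ t ∈ Set.Icc (0 : ℝ) 1,
      0 < qR B.q ((1 - t) • k + t • k') ((1 - t) • k + t • k') := by
    intro t ht
    by_contra hle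
    have h1 := intermediate_value_Icc' ht.1 hcont.continuousOn
    obtain ⟨τ, hτ, h2⟩ := h1 (show (0 : ℝ) ∈ _ from ⟨not_lt.1 hle, by simpa using h.2.2.le⟩)
    exact hne τ ⟨hτ.1, hτ.2.trans ht.2⟩ h2
  refine ⟨by simpa using hpos 1 ⟨zero_le_one, le_rfl⟩, ?_⟩
  by_contra hle
  have hle' := not_lt.1 hle
  have hk := h.2.2
  have hd : 0 < qR B.q k k - qR B.q k k' := by linarith
  set t := qR B.q k k / (qR B.q k k - qR B.q k k') with ht
  have ht' : t ∈ Set.Icc (0 : ℝ) 1 :=
    ⟨(div_pos hk hd).le, (div_le_one hd).2 (by linarith)⟩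
  have h1 := hpos t ht'
  have h2 := neg A b c v h _ (p11 A b v h.1.1 (hC t)) (by
    rw [qR_add_l, qR_smul_l, qR_smul_l, qR_comm _ B.symm k' k, ht]
    field_simp
    ring) (fun h0 => by rw [h0, qR_zero_l] at h1; exact lt_irrefl _ h1)
  linarith

end RelH

open RelH in
theorem rel_of (A : PWA) (b : PWB) (c : PWC) (h20 : D20) (h11 : D11) (v : VOL) : REL where
  per Y s hK hs := by
    obtain ⟨u, hu⟩ := h20.ex hs
    exact ⟨_, hs, u, hu, h20.cl hK hs hu, rfl⟩
  c11 Y a ha := by
    obtain ⟨u, hu⟩ := h11.ex ha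
    obtain ⟨hc, hr⟩ := h11.cl ha hu
    have h1 := Y.m.cj u hc
    rw [show (dR Y.V).cj u = u from hr] at h1
    obtain ⟨k, hk⟩ := exists_rc h1.symm
    exact ⟨k, ha, u, hu, hc, hk⟩
  same := by
    rintro n r B Y a a' k ⟨ha, u, hu, hc, e1⟩ ha' ⟨f, hf, hs⟩
    obtain ⟨uf, huf⟩ := h11.ex (R11.ddc (V := Y.V) hf)
    have hex := h11.ddc hf huf
    refine ⟨ha', u + uf, fun e x hx => ?_, hc.add hex.cl, ?_⟩
    · show vl u e (e x) + vl uf e (e x) = f11 _
      rw [hu.val hx, huf.val hx, hs e x hx, A.f11_add]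
    · rw [map_add, e1, (Y.m.ker uf hex.cl).2 hex, add_zero]
  add x y h h' := add A x y h h'
  vol11 h := vol11 b v h
  pp h h' := pp A b v h h'
  p11 h h' := p11 A b v h h'
  nn h hk hq := nn A b c v h hk hq
  ppb h := ppb A b c v h
  neg h x h1 h2 h0 := neg A b c v h x h1 h2 h0
  sym h := sym A b c h20 v h
  kpos h h' := kpos A b c v h h'

end Vale.Agent.P301Z.Lat
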