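import Vale.Agent.P301Z.Lat.HdSk

/-!
# P301, block LAT, row S1C: smoothing of closed `L²` forms with an `L²` primitive
-/

open scoped Topology
open Filter
open Vale.Agent.P281Z.Hg Vale.Agent.P281Z.Hg.Zs

noncomputable section

namespace Vale.Agent.P301Z.Lat

namespace S1H

variable {S : Type} [AddCommGroup S] [Module ℂ S] {D : ℕ} {X : Cx S D} {M : Type} [MetricSpace M]
  {E : LC M X}

theorem cau_of_nul (h : E.OK) {q : ℕ → S} (hq : q ∈ Nul h atTop) : q ∈ Cau h := by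
  have h1 : (fun p : ℕ × ℕ => q p.1) ∈ Nul h atTop :=
    Tendsto.comp (g := fun s => E.nrm (q s)) hq (by rw [← prod_atTop_atTop_eq]; exact tendsto_fst)
  have h2 : (fun p : ℕ × ℕ => q p.2) ∈ Nul h atTop :=
    Tendsto.comp (g := fun s => E.nrm (q s)) hq (by rw [← prod_atTop_atTop_eq]; exact tendsto_snd)
  exact sub_mem h1 h2

theorem cau_cst (h : E.OK) (u : S) : cst u ∈ Cau h := by
  have e : df (cst u) = 0 := funext fun _ => sub_self u
  show df (cst u) ∈ Nul h atTop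
  rw [e]
  exact zero_mem _

theorem down (hv : VT1) (h : E.OK) {m : ℕ} {ε : ℝ} (hε : 0 < ε) {g : List M → ℕ → S}
    (h0 : ∀ l, l.length ≤ m → g l ∈ Cau h)
    (h1 : ∀ l, l.length ≤ m → lf ℕ X.d (g l) - dl g l ∈ NN h (Ns ε l))
    (h2 : ∀ l, l.length = m + 1 → dl g l ∈ NN h (Ns ε l)) :
    ∃ y, y ∈ Cau h ∧ g [] - lf ℕ X.d y ∈ Nul h atTop := by
  obtain ⟨N, x, ρ, C, -, p1, p2, -, p4, p5⟩ := h.pu ε hε
  have k1 : ∀ i l w, w ∈ NN h (Ns ε (x i :: l)) → lf ℕ (ρ i) w ∈ NN h (Ns ε l) := by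
    intro i l w hw
    refine NN_le h (fun p a => nn_n0 (n0_nul (nul_lf h (p4 i) a)))
      (fun v a => nn_n0 (n0_vn fun s z c => p2 i _ z ?_)) (fun q a => ?_) hw
    · refine (lt_or_ge (dist (x i) z) ε).imp (fun d => a s z fun y e => ?_) id
      exact (List.mem_cons.1 e).elim (fun e => e ▸ d) (c y)
    · have e : lf ℕ (ρ i) (lf ℕ X.d q) =
          lf ℕ X.d (lf ℕ (ρ i) q) - lf ℕ (X.d * ρ i - ρ i * X.d) q :=
        funext fun s => (sub_sub_cancel _ _).symm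
      rw [e]
      exact sub_mem (nn_d (nul_lf h (p4 i) a)) (nn_n0 (n0_nul (nul_lf h (p5 i) a)))
  have k2 : ∀ (b : List M → ℕ → S) (l : List M), (∀ i, dl b (x i :: l) ∈ NN h (Ns ε (x i :: l))) →
      b l - dl (fun l => ∑ i, lf ℕ (ρ i) (b (x i :: l))) l ∈ NN h (Ns ε l) := by
    intro b l hb
    have e1 : b l = ∑ i, lf ℕ (ρ i) (b l) := funext fun s => by
      rw [Finset.sum_apply]
      exact ((LinearMap.sum_apply _ ρ _).symm.trans (LinearMap.congr_fun p1 _)).symm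
    rw [dl_sum hv, e1, ← Finset.sum_sub_distrib]
    refine sum_mem fun i _ => ?_
    rw [← lf_dl hv, ← map_sub]
    exact k1 i l _ (hb i)
  have e0 : ∀ w : ℕ → S, lf ℕ X.d (lf ℕ X.d w) = 0 := fun w => funext fun s => h.cx.dd _
  have k3 : ∀ i j, j + i = m → ∃ β : List M → ℕ → S, (∀ l, l.length = j → β l ∈ Cau h) ∧
      ∀ l, l.length = j + 1 → dl (fun l => g l - lf ℕ X.d (β l)) l ∈ NN h (Ns ε l) := by
    intro i
    induction i with
    | zero => exact fun j e => ⟨0, fun _ _ => zero_mem _, fun l a => by simpa using h2 l (by omega)⟩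
    | succ i ih =>
      intro j e
      obtain ⟨β, hc, hβ⟩ := ih (j + 1) (by omega)
      refine ⟨fun l => ∑ i, (lf ℕ (ρ i) (g (x i :: l)) +
        lf ℕ (X.d * ρ i - ρ i * X.d) (β (x i :: l))), fun l a => sum_mem fun i _ => add_mem
          (cau_lf h (p4 i) (h0 _ (by rw [List.length_cons]; omega)))
          (cau_lf h (p5 i) (hc _ (by rw [List.length_cons, a]))), fun l a => ?_⟩
      have e3 : ∀ l, lf ℕ X.d (∑ i, (lf ℕ (ρ i) (g (x i :: l)) +
          lf ℕ (X.d * ρ i - ρ i * X.d) (β (x i :: l)))) =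
          lf ℕ X.d (∑ i, lf ℕ (ρ i) (g (x i :: l) - lf ℕ X.d (β (x i :: l)))) := fun l => by
        rw [map_sum, map_sum]
        refine Finset.sum_congr rfl fun i _ => funext fun s => ?_
        show X.d (ρ i (g (x i :: l) s) + (X.d (ρ i (β (x i :: l) s)) -
          ρ i (X.d (β (x i :: l) s)))) = X.d (ρ i (g (x i :: l) s - X.d (β (x i :: l) s)))
        rw [map_add, map_sub, h.cx.dd, map_sub, map_sub]
        abel
      simp only [e3]
      have k4 := NN_d h (open_Ns ε l) (k2 _ l fun i => hβ _ (by rw [List.length_cons, a]))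
      rw [map_sub, map_sub, e0, sub_zero, lf_dl hv] at k4
      rw [dl_sub hv, ← sub_sub_sub_cancel_left _ _ (lf ℕ X.d (g l))]
      exact sub_mem k4 (h1 l (by omega))
  obtain ⟨β, hc, hβ⟩ := k3 m 0 (zero_add m)
  have k5 := k2 _ [] fun i => hβ _ rfl
  obtain ⟨_, a, _, ⟨q, hq, rfl⟩, e⟩ := AddSubgroup.mem_sup.1 k5
  obtain ⟨p, hp, v, hv', rfl⟩ := AddSubgroup.mem_sup.1 a
  have e1 : v = 0 := funext fun s => h.sep _ fun z => hv' s z fun _ c => absurd c List.not_mem_nil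
  refine ⟨β [] + q, add_mem (hc [] rfl) (cau_of_nul h hq), ?_⟩
  have e2 : p + v + lf ℕ X.d q = g [] - lf ℕ X.d (β []) - 0 := e
  rwa [map_add, ← sub_sub, ← sub_zero (g [] - lf ℕ X.d (β [])), ← e2, e1, add_zero,
    add_sub_cancel_right]

end S1H

open S1H in
theorem s1c : S1C := by
  intro S _ _ D X M _ E h m u h1 h2 h3
  have hv := vt1
  obtain ⟨ε, g, H⟩ := exists_up hv h (u := u) h1 h2 (funext h3) m le_rfl
  obtain ⟨η, a, k1, k2, k3, k4⟩ := H.fin hv
  obtain ⟨_, γ, rfl, hγ⟩ := (zi' S D X M E h m).1 η a k1 k3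
  have e : ∀ l, dl (fun l => g l - cst (γ l)) l = dl g l - cst (dl γ l) := fun l => by
    rw [dl_sub hv, hv.map]
  obtain ⟨y, hc, hy⟩ := S1H.down hv h (m := m) k1 (g := fun l => g l - cst (γ l))
    (fun l hl => sub_mem (H.cau l hl) (cau_cst h _)) (fun l hl => by
    have e1 : lf ℕ X.d (cst (γ l)) = cst (X.d (γ l)) := rfl
    rw [e, map_sub, e1, sub_sub_sub_comm, ← map_sub]
    exact nn_n0 (sub_mem (N0_mono h (Ns_mono k2 l) (H.mid l hl))
      (n0_vn fun _ => hγ.mid l hl))) fun l hl => by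
    rw [e, ← sub_sub_sub_cancel_right _ _ (cst (a l • E.one)), ← map_sub]
    exact nn_n0 (sub_mem (k4 l hl) (n0_vn fun _ => hγ.fin l hl))
  refine ⟨γ [], y, ⟨h.sep _ fun z => ?_, hγ.deg [] m (by simp)⟩, hc, H.nil ▸ hy⟩
  exact sub_zero (X.d (γ [])) ▸ hγ.mid [] (Nat.zero_le _) z fun _ c => absurd c List.not_mem_nil

end Vale.Agent.P301Z.Lat
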