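import Vale.Agent.P301Z.Lat.Pk

/-!
# P301, block LAT: linear algebra of the signature
-/

open scoped Matrix

noncomputable section

namespace Vale.Agent.P301Z.Lat

theorem qR_zero_l {r : ℕ} (q : Matrix (Fin r) (Fin r) ℤ) (y : Fin r → ℝ) : qR q 0 y = 0 := by
  simp [qR]

theorem qR_zero_r {r : ℕ} (q : Matrix (Fin r) (Fin r) ℤ) (y : Fin r → ℝ) : qR q y 0 = 0 := by
  simp [qR]

theorem sig : SIG := by
  intro n r B a hpos horth v hv hv0
  obtain ⟨e, -, hneg⟩ := B.sig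
  by_contra hcon
  have hcon' : 0 ≤ qR B.q v v := not_lt.1 hcon
  let b : Fin 4 → Fin r → ℝ := ![v, a 0, a 1, a 2]
  let M : Matrix (Fin 3) (Fin 4) ℝ := Matrix.of fun i j => qR B.q (b j) (e i)
  obtain ⟨c, hc, hc0⟩ : ∃ c : Fin 4 → ℝ, M *ᵥ c = 0 ∧ c ≠ 0 := by
    have h : LinearMap.ker (Matrix.toLin' M) ≠ ⊥ :=
      LinearMap.ker_ne_bot_of_finrank_lt (by simp)
    obtain ⟨c, hc, h0⟩ := Submodule.exists_mem_ne_zero_of_ne_bot h
    exact ⟨c, by simpa using hc, h0⟩
  let x : Fin r → ℝ := c 0 • v + (c 1 • a 0 + (c 2 • a 1 + c 3 • a 2))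
  have hx : ∀ y, qR B.q x y = c 0 * qR B.q v y + (c 1 * qR B.q (a 0) y +
      (c 2 * qR B.q (a 1) y + c 3 * qR B.q (a 2) y)) := fun y => by
    simp only [x, qR_add_l, qR_smul_l]
  have hxe : ∀ i, qR B.q x (e i) = 0 := fun i => by
    have h := congrFun hc i
    simp only [Matrix.mulVec, dotProduct, Fin.sum_univ_four, M, b, Matrix.of_apply,
      Matrix.cons_val_zero, Matrix.cons_val_one, Matrix.cons_val, Pi.zero_apply] at h
    rw [hx]
    linarith
  have hav : ∀ i, qR B.q (a i) v = 0 := fun i => by rw [qR_comm _ B.symm, hv]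
  have h0 : qR B.q x (a 0) = c 1 * qR B.q (a 0) (a 0) := by
    rw [hx, hv, horth 1 0 (by decide), horth 2 0 (by decide)]; ring
  have h1 : qR B.q x (a 1) = c 2 * qR B.q (a 1) (a 1) := by
    rw [hx, hv, horth 0 1 (by decide), horth 2 1 (by decide)]; ring
  have h2 : qR B.q x (a 2) = c 3 * qR B.q (a 2) (a 2) := by
    rw [hx, hv, horth 0 2 (by decide), horth 1 2 (by decide)]; ring
  have h3 : qR B.q x v = c 0 * qR B.q v v := by
    rw [hx, hav, hav, hav]; ring
  have hxx : qR B.q x x = c 0 * (c 0 * qR B.q v v) + (c 1 * (c 1 * qR B.q (a 0) (a 0)) +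
      (c 2 * (c 2 * qR B.q (a 1) (a 1)) + c 3 * (c 3 * qR B.q (a 2) (a 2)))) := by
    rw [hx, qR_comm _ B.symm v, qR_comm _ B.symm (a 0), qR_comm _ B.symm (a 1),
      qR_comm _ B.symm (a 2), h0, h1, h2, h3]
  have p0 := hpos 0
  have p1 := hpos 1
  have p2 := hpos 2
  have hx0 : x = 0 := by
    by_contra hne
    have h := hneg x hxe hne
    rw [hxx] at h
    nlinarith [mul_nonneg (mul_self_nonneg (c 0)) hcon', mul_nonneg (mul_self_nonneg (c 1)) p0.le,
      mul_nonneg (mul_self_nonneg (c 2)) p1.le, mul_nonneg (mul_self_nonneg (c 3)) p2.le]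
  rw [hx0, qR_zero_l] at h0 h1 h2
  have c1 : c 1 = 0 := (mul_eq_zero.1 h0.symm).resolve_right p0.ne'
  have c2 : c 2 = 0 := (mul_eq_zero.1 h1.symm).resolve_right p1.ne'
  have c3 : c 3 = 0 := (mul_eq_zero.1 h2.symm).resolve_right p2.ne'
  have c0 : c 0 = 0 := by
    have h : c 0 • v = 0 := by simpa [x, c1, c2, c3] using hx0
    exact (smul_eq_zero.1 h).resolve_right hv0
  apply hc0
  funext i
  fin_cases i
  · exact c0
  · exact c1
  · exact c2
  · exact c3

end Vale.Agent.P301Z.Lat
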